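import Vale.Agent.P022D.Fm.Hc
import Vale.Agent.P022D.Fm.DiaA
import Vale.Agent.P022D.Fm.Sg

/-!
# P022D, forms side: the action of the projective groups on the forms modulo `ϖ`
-/

set_option linter.all false

open scoped MatrixGroups

noncomputable section

namespace Vale.Agent.P022D.Fm.Ac

open Classical Vale.Agent.P022 Vale.Agent.P022D.V Vale.Agent.P027M.M
open Vale.Agent.P022D.G (Wd wT wS)
open Vale.Agent.P022D.Rep (emb uG tG wG)

section grp

variable {M : ℕ}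

theorem kq_comm {A B : ℕ} (hM : M ∣ A * B) {g h : GM M} (hg : g ∈ Kq M A) (hh : h ∈ Kq M B) :
    g * h = h * g := by
  choose y hy using hg
  choose y' hy' using hh
  have e1 : (g : Matrix (Fin 2) (Fin 2) (ZMod M)) = 1 + (A : ZMod M) • Matrix.of y := by
    ext i j
    exact hy i j
  have e2 : (h : Matrix (Fin 2) (Fin 2) (ZMod M)) = 1 + (B : ZMod M) • Matrix.of y' := by
    ext i j
    exact hy' i j
  have e0 : (A : ZMod M) * B = 0 := by
    rw [← Nat.cast_mul, ZMod.natCast_eq_zero_iff]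
    exact hM
  apply Units.ext
  rw [Units.val_mul, Units.val_mul, e1, e2]
  simp only [add_mul, mul_add, one_mul, mul_one, Matrix.smul_mul, Matrix.mul_smul, smul_smul, e0,
    mul_comm (B : ZMod M), zero_smul, add_zero]
  abel

theorem dg_Kq {A : ℕ} {a d : (ZMod M)ˣ} (ha : V.Cg M A a 1) (hd : V.Cg M A d 1) :
    dg a d ∈ Kq M A := by
  intro i j
  fin_cases i <;> fin_cases j
  · exact ha
  · exact ⟨0, by simp [dg_coe]⟩
  · exact ⟨0, by simp [dg_coe]⟩
  · exact hd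

theorem un_Kq (A : ℕ) (x : ZMod M) : un ((A : ZMod M) * x) ∈ Kq M A := by
  intro i j
  fin_cases i <;> fin_cases j
  · exact ⟨0, by simp [un_coe]⟩
  · exact ⟨x, by simp [un_coe]⟩
  · exact ⟨0, by simp [un_coe]⟩
  · exact ⟨0, by simp [un_coe]⟩

theorem cg_dvd {A B : ℕ} (h : A ∣ B) {x y : ZMod M} (e : V.Cg M B x y) : V.Cg M A x y := by
  obtain ⟨c, rfl⟩ := h
  obtain ⟨t, rfl⟩ := e
  exact ⟨c * t, by rw [Nat.cast_mul, mul_assoc]⟩

theorem cg_div {A : ℕ} {a d : (ZMod M)ˣ} (h : V.Cg M A a d) : V.Cg M A (a * d⁻¹ : (ZMod M)ˣ) 1 := by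
  obtain ⟨t, ht⟩ := h
  exact ⟨t * (d⁻¹ : (ZMod M)ˣ), by
    rw [Units.val_mul, ht, add_mul, Units.mul_inv, mul_assoc]⟩

theorem cg_one (A : ℕ) (x : ZMod M) : V.Cg M A x x := ⟨0, by simp⟩

theorem dg_un (a d : (ZMod M)ˣ) (x : ZMod M) :
    un x * dg a d = dg a d * un (((a⁻¹ : (ZMod M)ˣ) : ZMod M) * (d : ZMod M) * x) := by
  apply Units.ext
  rw [Units.val_mul, Units.val_mul, dg_coe, un_coe, un_coe]
  ext i j
  fin_cases i <;> fin_cases j <;> simp [Matrix.mul_apply, Fin.sum_univ_two]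
  rw [← mul_assoc, ← mul_assoc, Units.mul_inv, one_mul, mul_comm]

theorem un_add (x y : ZMod M) : un (x + y) = un x * un y := by
  apply Units.ext
  rw [Units.val_mul, un_coe, un_coe, un_coe]
  ext i j
  fin_cases i <;> fin_cases j <;> simp [Matrix.mul_apply, Fin.sum_univ_two, add_comm]

end grp

variable {O F : Type} [CommRing O] [Field F]

/-- the arithmetic of a level -/
structure Lk (U : Su O F) (M : ℕ) : Prop where
  odd : Odd M
  three : 3 ≤ M
  dvd : U.N ∣ M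
  cop : Nat.Coprime U.NC (M / U.NC)
  NC : U.NC = ∏ l ∈ U.L.C, l
  zN : U.z ^ U.N = 1

variable {U : Su O F} {M : ℕ}

theorem Lk.nz (h : Lk U M) : NeZero M := ⟨h.odd.pos.ne'⟩

theorem Lk.dC (h : Lk U M) : U.NC ∣ M := (Dvd.intro_left _ rfl).trans h.dvd

theorem Lk.eq (h : Lk U M) : M = U.NC * (M / U.NC) := (Nat.mul_div_cancel' h.dC).symm

theorem Lk.lC (h : Lk U M) (l : U.L.C) : l.1 ∣ U.NC := h.NC ▸ Finset.dvd_prod_of_mem _ l.2

theorem Lk.dW (h : Lk U M) : U.NW ∣ M / U.NC :=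
  (Nat.dvd_div_iff_mul_dvd h.dC).2 (by rw [mul_comm]; exact h.dvd)

theorem Lk.dl (h : Lk U M) (l : U.L.C) : M / U.NC ∣ M / l.1 := by
  obtain ⟨c, hc⟩ := h.lC l
  have h0 : 0 < U.NC := Nat.pos_of_dvd_of_pos h.dC h.odd.pos
  refine (Nat.dvd_div_iff_mul_dvd ((h.lC l).trans h.dC)).2 ⟨c, ?_⟩
  conv_lhs => rw [h.eq]
  conv_lhs => enter [1]; rw [hc]
  ring

variable [hC : ∀ l : U.L.C, Fact l.1.Prime]

theorem Lk.sp (h : Lk U M) (l : U.L.C) : Sp M (M / l.1) l.1 where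
  eq := (Nat.div_mul_cancel ((h.lC l).trans h.dC)).symm
  cop := by
    have e : U.NC = l.1 * ∏ p ∈ U.L.C.erase l.1, p := by
      rw [h.NC, Finset.mul_prod_erase _ (fun p => p) l.2]
    have e2 : M / l.1 = (∏ p ∈ U.L.C.erase l.1, p) * (M / U.NC) := by
      refine Nat.div_eq_of_eq_mul_right (hC l).out.pos ?_
      rw [← mul_assoc, ← e]
      exact h.eq
    rw [e2]
    refine Nat.Coprime.mul_left (Nat.Coprime.prod_left fun p hp => ?_)
      (h.cop.coprime_dvd_left (h.lC l)).symm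
    exact (Nat.coprime_primes (hC ⟨p, Finset.mem_of_mem_erase hp⟩).out (hC l).out).2
      (Finset.ne_of_mem_erase hp)
  prime := (hC l).out
  odd := h.odd

/-- the factors at the primes of `NC` -/
def Lk.emP (h : Lk U M) : (∀ l : U.L.C, GL (Fin 2) (ZMod l.1)) →* GM M :=
  MonoidHom.noncommPiCoprod (fun l => emb (h.sp l)) fun l l' e x y =>
    Rep.emb_comm2 (h.sp l) (h.sp l') (fun e' => e (Subtype.ext e')) x y

theorem Lk.emP_single (h : Lk U M) (l : U.L.C) (g : GL (Fin 2) (ZMod l.1)) :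
    h.emP (Pi.mulSingle l g) = emb (h.sp l) g :=
  MonoidHom.noncommPiCoprod_mulSingle (fun l : U.L.C => emb (h.sp l)) l g

theorem pi_ind {ι : Type} [Fintype ι] [DecidableEq ι] {G : ι → Type} [∀ i, Monoid (G i)]
    (p : (∀ i, G i) → Prop) (h1 : p 1) (hm : ∀ x y, p x → p y → p (x * y))
    (h : ∀ i g, p (Pi.mulSingle i g)) (g : ∀ i, G i) : p g := by
  let S : Submonoid (∀ i, G i) := ⟨⟨{g | p g}, fun {x y} => hm x y⟩, h1⟩
  have e : g ∈ S := by
    rw [← Finset.noncommProd_mulSingle g]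
    exact S.noncommProd_mem _ _ _ fun i _ => h i _
  exact e

theorem Lk.emb_Kq (h : Lk U M) (l : U.L.C) (g : GL (Fin 2) (ZMod l.1)) :
    emb (h.sp l) g ∈ Kq M (M / U.NC) := Rep.Kq_mono (h.dl l) (Rep.emb_mem _ g)

theorem Lk.mem_K (h : Lk U M) {A : ℕ} (hA : A ∣ M) {g : GM M} : g ∈ Kq M A ↔ pr hA g = 1 := by
  haveI := h.nz
  constructor
  · intro hg
    apply Units.ext
    ext i j
    have e := (cg_cast hA).1 (hg i j)
    rw [V.pr_coe, e]
    by_cases hij : i = j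
    · subst hij
      simp only [Units.val_one, Matrix.one_apply_eq, map_one]
    · simp [hij]
  · intro hg i j
    refine (cg_cast hA).2 ?_
    rw [← V.pr_coe, hg]
    by_cases hij : i = j
    · subst hij
      simp only [Units.val_one, Matrix.one_apply_eq, map_one]
    · simp [hij]

theorem Lk.emP_Kq (h : Lk U M) (g : ∀ l : U.L.C, GL (Fin 2) (ZMod l.1)) :
    h.emP g ∈ Kq M (M / U.NC) := by
  have hA := Nat.div_dvd_of_dvd h.dC
  refine pi_ind (fun g => h.emP g ∈ Kq M (M / U.NC)) ?_ ?_ ?_ g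
  · rw [h.mem_K hA, map_one, map_one]
  · intro x y hx hy
    rw [h.mem_K hA] at hx hy ⊢
    rw [map_mul, map_mul, hx, hy, one_mul]
  · intro l g
    rw [h.emP_single]
    exact h.emb_Kq l g

theorem Lk.pr_emP (h : Lk U M) (g : ∀ l : U.L.C, GL (Fin 2) (ZMod l.1)) (l : U.L.C)
    (hl : l.1 ∣ M) : pr hl (h.emP g) = g l := by
  refine pi_ind (fun g => pr hl (h.emP g) = g l) ?_ ?_ ?_ g
  · rw [map_one, map_one, Pi.one_apply]
  · intro x y hx hy
    rw [map_mul, map_mul, hx, hy, Pi.mul_apply]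
  · intro l' g
    rw [h.emP_single]
    by_cases e : l = l'
    · subst e
      rw [Pi.mulSingle_eq_same]
      exact Rep.pr_emb _ g
    · rw [Pi.mulSingle_eq_of_ne e, ← h.mem_K hl]
      refine Rep.Kq_mono ?_ (Rep.emb_mem _ g)
      have h1 : l.1 ∣ M / l'.1 * l'.1 := (h.sp l').eq ▸ hl
      exact ((Nat.coprime_primes (hC l).out (hC l').out).2
        fun e' => e (Subtype.ext e')).dvd_of_dvd_mul_right h1

theorem Lk.crt (h : Lk U M) {x y : ZMod M} (h1 : V.Cg M (M / U.NC) x y)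
    (h2 : ∀ l : U.L.C, V.Cg M l.1 x y) : x = y := by
  haveI := h.nz
  have key : ∀ A : ℕ, A ∣ M → V.Cg M A x y → A ∣ (x - y).val := by
    intro A hA e
    rw [cg_cast hA, ← sub_eq_zero, ← map_sub, ZMod.castHom_apply, ← ZMod.natCast_val,
      ZMod.natCast_eq_zero_iff] at e
    exact e
  have h3 : U.NC ∣ (x - y).val := by
    rw [h.NC]
    exact Finset.prod_primes_dvd _ (fun p hp => (hC ⟨p, hp⟩).out.prime)
      fun p hp => key p ((h.lC ⟨p, hp⟩).trans h.dC) (h2 ⟨p, hp⟩)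
  have h4 := h.cop.mul_dvd_of_dvd_of_dvd h3 (key _ (Nat.div_dvd_of_dvd h.dC) h1)
  rw [← h.eq] at h4
  rw [← sub_eq_zero, ← ZMod.natCast_zmod_val (x - y), ZMod.natCast_eq_zero_iff]
  exact h4

theorem Lk.emP_pr (h : Lk U M) {k : GM M} (hk : k ∈ Kq M (M / U.NC)) :
    h.emP (fun l => pr ((h.lC l).trans h.dC) k) = k := by
  haveI := h.nz
  apply Units.ext
  ext i j
  refine h.crt ?_ fun l => ?_
  · obtain ⟨a, ha⟩ := h.emP_Kq (fun l => pr ((h.lC l).trans h.dC) k) i j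
    obtain ⟨b, hb⟩ := hk i j
    exact ⟨a - b, by rw [ha, hb]; ring⟩
  · rw [cg_cast ((h.lC l).trans h.dC), ← V.pr_coe, ← V.pr_coe, h.pr_emP]

variable [Co O]

omit hC in
theorem mem_Zp {n : ℕ} {v : AM O M} : v ∈ U.Zp M n ↔
    (∀ a : (ZMod M)ˣ, V.Cg M (M / U.NC) a 1 → rt O _ (dg a a) v = U.om (a : ZMod M).val • v) ∧
    (∀ x : ℕ, U.z ^ (U.NC * x) • rt O _ (un ((U.NC * x : ℕ) : ZMod M)) v = v) ∧
    ∀ g ∈ U.TQ M n, rt O _ g v = v := by
  rw [Su.Zp, Submodule.mem_inf, Submodule.mem_inf, mem_WhP, V.mem_Iv, and_assoc]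
  refine and_congr_left' ⟨fun h a ha => h _ ⟨a, ha, rfl⟩, ?_⟩
  rintro h _ ⟨a, ha, rfl⟩
  exact h a ha

omit hC in
theorem TQ_Kq {n : ℕ} {g : GM M} (hg : g ∈ U.TQ M n) : g ∈ Kq M U.N := by
  obtain ⟨a, d, h3, h4, rfl⟩ := hg
  exact dg_Kq ((U1 M U.N).pow_mem (mem_U1.2 h3) _) ((U1 M U.N).pow_mem (mem_U1.2 h4) _)

omit hC in
theorem WhP_K (h : Lk U M) {g : GM M} (hg : g ∈ Kq M (M / U.NC)) {v : AM O M}
    (hv : v ∈ U.WhP M) : rt O _ g v ∈ U.WhP M := by
  rw [mem_WhP] at hv ⊢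
  intro x
  have e := hv x
  rw [rD_apply] at e ⊢
  rw [V.rt_rt, Nat.cast_mul, kq_comm h.eq.dvd (un_Kq _ _) hg, ← V.rt_rt, ← map_smul,
    ← Nat.cast_mul, e]

omit hC in
theorem Zp_K (h : Lk U M) {n : ℕ} {g : GM M} (hg : g ∈ Kq M (M / U.NC)) {v : AM O M}
    (hv : v ∈ U.Zp M n) : rt O _ g v ∈ U.Zp M n := by
  have h2 := mem_WhP.1 (WhP_K h hg hv.1.2)
  rw [mem_Zp] at hv ⊢
  refine ⟨fun c hc => ?_, h2, fun k hk => ?_⟩
  · rw [V.rt_rt, dg_center, ← V.rt_rt, hv.1 c hc, map_smul]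
  · rw [V.rt_rt, kq_comm h.eq.dvd (Rep.Kq_mono (Dvd.intro_left _ rfl) (TQ_Kq hk)) hg,
      ← V.rt_rt, hv.2.2 k hk]

omit hC in
theorem Lk.wb (h : Lk U M) {n : ℕ} {v : U.GG M} :
    v ∈ U.Wb M n ↔ (v : AM O M) ∈ U.Zp M n ∧ U.ϖ • (v : AM O M) = 0 :=
  haveI := h.nz
  mem_Wb h.dvd h.zN

section ops

variable (h : Lk U M)

/-- the action of the factor at `l` -/
def rW (n : ℕ) (l : U.L.C) : GL (Fin 2) (ZMod l.1) →* Module.End (U.B M) (U.Wb M n) where
  toFun g := (rB U h.odd h.three (emb (h.sp l) g) (Kq_NC h.dvd (h.emb_Kq l g))).restrict fun v hv => by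
    rw [h.wb] at hv ⊢
    exact ⟨Zp_K h (h.emb_Kq l g) hv.1, by
      show U.ϖ • rD O _ (v : AM O M) = 0
      rw [← map_smul, hv.2, map_zero]⟩
  map_one' := LinearMap.ext fun w => Subtype.ext (Subtype.ext (by
    show rt O _ (emb (h.sp l) 1) _ = _
    rw [map_one, V.rt_one]
    rfl))
  map_mul' g g' := LinearMap.ext fun w => Subtype.ext (Subtype.ext (by
    show rt O _ (emb (h.sp l) (g * g')) _ = rt O _ (emb (h.sp l) g) (rt O _ (emb (h.sp l) g') _)
    rw [map_mul, V.rt_rt]))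

theorem rW_coe (n : ℕ) (l : U.L.C) (g : GL (Fin 2) (ZMod l.1)) (w : U.Wb M n) :
    ((rW h n l g w : U.GG M) : AM O M) = rt O _ (emb (h.sp l) g) (w : U.GG M) := rfl

end ops

variable [IsLocalRing O]

omit hC in
theorem ok_dvd (hU : U.Ok) {c : O} (hc : U.S.red c = 0) : U.ϖ ∣ c :=
  hU.uni.dvd c ((hU.ok.ker c).1 hc)

omit hC in
theorem Wb_kill (h : Lk U M) {n : ℕ} {c : O} (hc : U.ϖ ∣ c) (w : U.Wb M n) :
    c • ((w : U.GG M) : AM O M) = 0 := by
  obtain ⟨d, rfl⟩ := hc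
  rw [mul_comm, mul_smul, (h.wb.1 w.2).2, smul_zero]

omit hC in
/-- the scalars -/
def sc0 (U : Su O F) (M n : ℕ) : O →+* Module.End (U.B M) (U.Wb M n) :=
  (algebraMap (U.B M) (Module.End (U.B M) (U.Wb M n))).comp (algebraMap O (U.B M))

omit hC in
theorem sc0_eq (hU : U.Ok) (h : Lk U M) (n : ℕ) {c c' : O} (e : U.S.red c = U.S.red c') :
    sc0 U M n c = sc0 U M n c' := LinearMap.ext fun w => Subtype.ext (Subtype.ext (by
  have h0 := Wb_kill h (ok_dvd hU (c := c - c') (by rw [map_sub, e, sub_self])) w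
  rw [sub_smul, sub_eq_zero] at h0
  exact h0))

omit hC in
/-- the scalars of the residue field -/
def scW (hU : U.Ok) (h : Lk U M) (n : ℕ) : F →+* Module.End (U.B M) (U.Wb M n) where
  toFun c := sc0 U M n (Function.surjInv U.S.surj c)
  map_one' := (sc0_eq hU h n (by rw [Function.surjInv_eq U.S.surj, map_one])).trans (map_one _)
  map_mul' a b := (sc0_eq hU h n (by
    rw [map_mul, Function.surjInv_eq U.S.surj, Function.surjInv_eq U.S.surj,
      Function.surjInv_eq U.S.surj])).trans (map_mul _ _ _)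
  map_zero' := (sc0_eq hU h n (by rw [Function.surjInv_eq U.S.surj, map_zero])).trans (map_zero _)
  map_add' a b := (sc0_eq hU h n (by
    rw [map_add, Function.surjInv_eq U.S.surj, Function.surjInv_eq U.S.surj,
      Function.surjInv_eq U.S.surj])).trans (map_add _ _ _)

omit hC in
theorem scW_red (hU : U.Ok) (h : Lk U M) (n : ℕ) (c : O) (w : U.Wb M n) :
    scW hU h n (U.S.red c) w = algebraMap O (U.B M) c • w :=
  LinearMap.congr_fun (sc0_eq hU h n (Function.surjInv_eq U.S.surj _)) w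

omit hC in
theorem Wb_cen (hU : U.Ok) (h : Lk U M) {n : ℕ} {a : (ZMod M)ˣ} (ha : V.Cg M (M / U.NC) a 1)
    {v : AM O M} (h1 : v ∈ U.Zp M n) (h2 : U.ϖ • v = 0) : rt O _ (dg a a) v = v := by
  haveI := h.nz
  obtain ⟨d, hd⟩ := hU.omr _ ((ZMod.val_coe_unit_coprime a).coprime_dvd_right h.dvd)
  rw [(mem_Zp.1 h1).1 a ha, eq_add_of_sub_eq hd, add_smul, mul_comm, mul_smul, h2, smul_zero,
    zero_add, one_smul]

/-- the commuting actions -/
def preW (hU : U.Ok) (h : Lk U M) (n : ℕ) :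
    Rep.Pre F (fun l : U.L.C => ZMod l.1) (U.B M) (U.Wb M n) where
  sc := scW hU h n
  ρ := rW h n
  c1 c l g := by
    obtain ⟨c, rfl⟩ := U.S.surj c
    refine LinearMap.ext fun w => ?_
    rw [Module.End.mul_apply, Module.End.mul_apply, scW_red, scW_red, map_smul]
  c2 l l' e g g' := LinearMap.ext fun w => Subtype.ext (Subtype.ext (by
    show rt O _ (emb (h.sp l) g) (rt O _ (emb (h.sp l') g') _) =
      rt O _ (emb (h.sp l') g') (rt O _ (emb (h.sp l) g) _)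
    rw [V.rt_rt, V.rt_rt,
      Rep.emb_comm2 (h.sp l) (h.sp l') (fun e' => e (Subtype.ext e'))]))
  z l z := LinearMap.ext fun w => Subtype.ext (Subtype.ext (by
    rw [rW_coe, Rep.emb_t]
    exact Wb_cen hU h (cg_dvd (h.dl l) (Rep.lamU_cg _ z)) (h.wb.1 w.2).1
      (h.wb.1 w.2).2))

variable [CharP F 2]

/-- **ACT** -/
theorem ex_act (hU : U.Ok) (h : Lk U M)
    (n : ℕ) : ∃ E : Rep.Act F U.Gam (U.B M) (U.Wb M n),
    (∀ (c : O) (w : U.Wb M n), E.sc (U.S.red c) w = algebraMap O (U.B M) c • w) ∧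
    ∀ k ∈ Kq M (M / U.NC), ∀ γ : ∀ l, U.Gam l,
      (∀ (l : U.L.C) (hl : l.1 ∣ M), γ l = QuotientGroup.mk (pr hl k)) →
      ∀ w : U.Wb M n, (((E.ρ γ w : U.Wb M n) : U.GG M) : AM O M) = rD O k (w : U.GG M) := by
  refine ⟨(preW hU h n).act, scW_red hU h n, fun k hk γ hγ w => ?_⟩
  have key : ∀ g : ∀ l : U.L.C, GL (Fin 2) (ZMod l.1), ∀ w : U.Wb M n,
      ((((preW hU h n).act.ρ (fun l => QuotientGroup.mk (g l)) w : U.Wb M n) : U.GG M) :
        AM O M) = rt O _ (h.emP g) (w : U.GG M) := by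
    intro g
    refine pi_ind (fun g => ∀ w : U.Wb M n,
      ((((preW hU h n).act.ρ (fun l => QuotientGroup.mk (g l)) w : U.Wb M n) : U.GG M) :
        AM O M) = rt O _ (h.emP g) (w : U.GG M)) ?_ ?_ ?_ g
    · intro w
      have e : (fun l => QuotientGroup.mk ((1 : ∀ l : U.L.C, GL (Fin 2) (ZMod l.1)) l) :
        ∀ l, U.Gam l) = 1 := rfl
      rw [e, map_one, map_one, V.rt_one]
      rfl
    · intro x y hx hy w
      have e : (fun l => QuotientGroup.mk ((x * y) l) : ∀ l, U.Gam l) =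
        (fun l => QuotientGroup.mk (x l)) * fun l => QuotientGroup.mk (y l) := rfl
      rw [e, map_mul, map_mul, Module.End.mul_apply, hx, hy, V.rt_rt]
    · intro l g w
      have e : (fun l' => QuotientGroup.mk ((Pi.mulSingle l g : ∀ l : U.L.C,
          GL (Fin 2) (ZMod l.1)) l') : ∀ l, U.Gam l) = Pi.mulSingle l (QuotientGroup.mk g) := by
        funext l'
        by_cases e : l' = l
        · subst e
          rw [Pi.mulSingle_eq_same, Pi.mulSingle_eq_same]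
        · rw [Pi.mulSingle_eq_of_ne e, Pi.mulSingle_eq_of_ne e]
          rfl
      rw [e, Rep.Pre.act_ρ, h.emP_single]
      rfl
  have e : γ = fun l => QuotientGroup.mk (pr ((h.lC l).trans h.dC) k) := funext fun l => hγ l _
  rw [e, key, h.emP_pr hk]
  rfl

omit hC [CharP F 2] in
theorem lk_of (hU : U.Ok) (h : U.Lm M) : Lk U M where
  odd := h.odd
  three := h.three
  dvd := h.dvd
  cop := by
    have e : M / U.NC = U.NW * (M / U.N) := by
      refine Nat.div_eq_of_eq_mul_right (Nat.pos_of_ne_zero hU.NCne) ?_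
      rw [← mul_assoc, mul_comm U.NC]
      exact h.eq
    rw [e]
    exact hU.cop.symm.mul_right (h.cop.coprime_dvd_left (Dvd.intro_left _ rfl))
  NC := hU.NC
  zN := hU.zN

theorem actH (hU : U.Ok) : ACT U := fun M n h t d op => by
  obtain ⟨E, h1, h2⟩ := ex_act hU (lk_of hU h) n
  exact ⟨E, op, h1, h2⟩

end Vale.Agent.P022D.Fm.Ac
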