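import Vale.Agent.P022D.Fm.Rows

/-!
# P022D, forms side: the action of the projective groups (row ACT)
-/

set_option linter.all false

open scoped MatrixGroups

noncomputable section

namespace Vale.Agent.P022D.Fm

open Vale.Agent.P022 Vale.Agent.P022D.V Vale.Agent.P027M.M

namespace ActP

section grp

variable {M A B : ℕ}

theorem kq_iff {g : GM M} : g ∈ Kq M A ↔ ∃ y : Matrix (Fin 2) (Fin 2) (ZMod M),
    (g : Matrix (Fin 2) (Fin 2) (ZMod M)) = 1 + (A : ZMod M) • y := by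
  refine ⟨fun h => ?_, fun ⟨y, h⟩ i j => ⟨y i j, by rw [h]; rfl⟩⟩
  choose y hy using h
  exact ⟨Matrix.of y, Matrix.ext fun i j => hy i j⟩

theorem kq_comm (h : M ∣ A * B) {g k : GM M} (hg : g ∈ Kq M A) (hk : k ∈ Kq M B) :
    g * k = k * g := by
  obtain ⟨x, hx⟩ := kq_iff.1 hg
  obtain ⟨y, hy⟩ := kq_iff.1 hk
  have h0 : (A : ZMod M) * B = 0 := by rw [← Nat.cast_mul, ZMod.natCast_eq_zero_iff]; exact h
  have h1 : (B : ZMod M) * A = 0 := by rw [mul_comm, h0]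
  apply Units.ext
  rw [Units.val_mul, Units.val_mul, hx, hy]
  simp only [add_mul, mul_add, one_mul, mul_one, Matrix.smul_mul, Matrix.mul_smul, smul_add,
    smul_smul, h0, h1, zero_smul, add_zero]
  abel

variable (M A) in
/-- the principal congruence subgroup -/
def KS : Subgroup (GM M) where
  carrier := Kq M A
  one_mem' := kq_iff.2 ⟨0, by simp⟩
  mul_mem' := fun {g k} hg hk => by
    obtain ⟨x, hx⟩ := kq_iff.1 hg
    obtain ⟨y, hy⟩ := kq_iff.1 hk
    refine kq_iff.2 ⟨x + y + (A : ZMod M) • (x * y), ?_⟩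
    rw [Units.val_mul, hx, hy]
    simp only [add_mul, mul_add, one_mul, mul_one, Matrix.smul_mul, Matrix.mul_smul, smul_add]
    abel
  inv_mem' := fun {g} hg => by
    obtain ⟨x, hx⟩ := kq_iff.1 hg
    refine kq_iff.2 ⟨-(((g⁻¹ : GM M) : Matrix (Fin 2) (Fin 2) (ZMod M)) * x), ?_⟩
    have e := g.inv_mul
    rw [hx, mul_add, mul_one, Matrix.mul_smul] at e
    rw [← e, smul_neg, add_neg_cancel_right]

theorem pr_one (h : A ∣ M) {g : GM M} (hg : g ∈ Kq M A) : pr h g = 1 := by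
  apply Units.ext
  ext i j
  obtain ⟨y, hy⟩ := hg i j
  show ZMod.castHom h (ZMod A) ((g : Matrix (Fin 2) (Fin 2) (ZMod M)) i j) = _
  rw [hy, map_add, map_mul, map_natCast, ZMod.natCast_self, zero_mul, add_zero, Units.val_one,
    Matrix.one_apply, Matrix.one_apply]
  split_ifs
  exacts [map_one _, map_zero _]

theorem un_kq (x : ℕ) : un ((A * x : ℕ) : ZMod M) ∈ Kq M A :=
  kq_iff.2 ⟨!![0, (x : ZMod M); 0, 0], by
    rw [un_coe]
    ext i j
    fin_cases i <;> fin_cases j <;> simp⟩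

theorem un_add (x y : ZMod M) : un (x + y) = un x * un y := by
  apply Units.ext
  rw [Units.val_mul, un_coe, un_coe, un_coe]
  ext i j; fin_cases i <;> fin_cases j <;> simp [Matrix.mul_apply, Fin.sum_univ_two, add_comm]

theorem dvd_of_cast [NeZero M] (h : A ∣ M) {x : ZMod M} (hx : ZMod.castHom h (ZMod A) x = 0) :
    A ∣ x.val := by
  rw [← ZMod.natCast_zmod_val x, map_natCast, ZMod.natCast_eq_zero_iff] at hx
  exact hx

theorem cg_one {a : ZMod M} (h : V.Cg M A a 1) (k : ℕ) : V.Cg M A (a ^ k) 1 := by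
  obtain ⟨t, rfl⟩ := h
  induction k with
  | zero => exact ⟨0, by simp⟩
  | succ k ih =>
    obtain ⟨s, hs⟩ := ih
    exact ⟨s + t + A * s * t, by rw [pow_succ, hs]; ring⟩

end grp

variable {O F : Type} [CommRing O] [IsLocalRing O] [Co O] [Field F] {U : Su O F} {M : ℕ}

theorem rD_mul (g h : GM M) (v : AM O M) : rD O (g * h) v = rD O g (rD O h v) := by
  show rt O (RD O) (g * h) v = rt O (RD O) g (rt O (RD O) h v)
  rw [map_mul]
  rfl

theorem rD_one (v : AM O M) : rD O (1 : GM M) v = v := by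
  show rt O (RD O) 1 v = v
  rw [map_one]
  rfl

theorem rD_sw {g h : GM M} (e : g * h = h * g) (v : AM O M) :
    rD O g (rD O h v) = rD O h (rD O g v) := by rw [← rD_mul, e, rD_mul]

theorem mem_WhP {v : AM O M} : v ∈ U.WhP M ↔
    ∀ x : ℕ, U.z ^ (U.NC * x) • rD O (un ((U.NC * x : ℕ) : ZMod M)) v = v := by
  simp only [Su.WhP, Submodule.mem_iInf, LinearMap.mem_ker, LinearMap.sub_apply,
    LinearMap.smul_apply, Module.End.one_apply, sub_eq_zero]

section ok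

variable (h : U.Ok) (L : U.Lm M)
include h

theorem prC {l : ℕ} (hl : l ∈ U.L.C) : l.Prime := (h.ok.pr l (Finset.mem_union_right _ hl)).1

theorem dvd_NC {l : ℕ} (hp : l.Prime) : l ∣ U.NC ↔ l ∈ U.L.C := by
  rw [h.NC, hp.prime.dvd_finset_prod_iff]
  exact ⟨fun ⟨a, ha, e⟩ => (Nat.prime_dvd_prime_iff_eq hp (prC h ha)).1 e ▸ ha,
    fun e => ⟨l, e, dvd_rfl⟩⟩

theorem sq_NC {l : ℕ} (hl : l ∈ U.L.C) : ¬ l ∣ U.NC / l := by
  classical
  have p := prC h hl
  rw [h.NC, ← Finset.mul_prod_erase _ (fun l => l) hl, Nat.mul_div_cancel_left _ p.pos,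
    p.prime.dvd_finset_prod_iff]
  rintro ⟨a, ha, e⟩
  obtain ⟨a1, a2⟩ := Finset.mem_erase.1 ha
  exact a1 ((Nat.prime_dvd_prime_iff_eq p (prC h a2)).1 e).symm

omit h in
include L in
theorem three : 3 ≤ M := L.le.trans (Nat.le_of_dvd L.odd.pos L.dvd)

omit h in
include L in
theorem NC_dvd : U.NC ∣ M := (dvd_mul_left _ _).trans L.dvd

include L

theorem spC {l : ℕ} (hl : l ∈ U.L.C) : Sp M (M / l) l := by
  have p := prC h hl
  have d := (dvd_NC h p).2 hl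
  have d' : l ∣ U.N := d.mul_left _
  have e : M = U.N * (M / U.N) := (Nat.mul_div_cancel' L.dvd).symm
  have hQ := L.cop
  generalize M / U.N = Q at e hQ
  refine ⟨(Nat.div_mul_cancel (e ▸ d'.mul_right Q)).symm, ?_, p, L.odd⟩
  rw [e, Su.N, mul_right_comm, Nat.mul_div_assoc _ d, Nat.coprime_comm, p.coprime_iff_not_dvd,
    p.dvd_mul, p.dvd_mul]
  rintro ((h1 | h1) | h1)
  · exact Finset.disjoint_left.1 h.ok.dj ((h.NW l p).1 h1) hl
  · exact p.ne_one (Nat.eq_one_of_dvd_coprimes hQ d' h1)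
  · exact sq_NC h hl h1

theorem div_dvd {l : ℕ} (hl : l ∈ U.L.C) : M / U.NC ∣ M / l :=
  Nat.div_dvd_div_left (NC_dvd L) ((dvd_NC h (prC h hl)).2 hl)

theorem cop : Nat.Coprime (M / U.NC) U.NC := Nat.coprime_of_dvd fun l hp h1 h2 => by
  have hl := (dvd_NC h hp).1 h2
  exact hp.ne_one (Nat.eq_one_of_dvd_coprimes (spC h L hl).cop (h1.trans (div_dvd h L hl)) dvd_rfl)

/-- the Chinese remainder theorem -/
theorem crt {x y : ZMod M} (hx : x = ((M / U.NC : ℕ) : ZMod M) * y)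
    (hl : ∀ l ∈ U.L.C, ∀ d : l ∣ M, ZMod.castHom d (ZMod l) x = 0) : x = 0 := by
  haveI : NeZero M := ⟨L.odd.pos.ne'⟩
  have h1 : M / U.NC ∣ x.val := dvd_of_cast (Nat.div_dvd_of_dvd (NC_dvd L)) (by
    rw [hx, map_mul, map_natCast, ZMod.natCast_self, zero_mul])
  have h2 : U.NC ∣ x.val := by
    rw [h.NC]
    exact Finset.prod_primes_dvd _ (fun l a => (prC h a).prime) fun l a =>
      dvd_of_cast _ (hl l a (Rep.dq (spC h L a)))
  have h3 := (cop h L).mul_dvd_of_dvd_of_dvd h1 h2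
  rw [Nat.div_mul_cancel (NC_dvd L)] at h3
  rw [← ZMod.natCast_zmod_val x, ZMod.natCast_eq_zero_iff]
  exact h3

variable (H : U.Hc M)
include H

omit h in
theorem Zp_rD {n : ℕ} {g : GM M} (hg : g ∈ Kq M (M / U.NC)) {v : AM O M} (hv : v ∈ U.Zp M n) :
    rD O g v ∈ U.Zp M n := by
  obtain ⟨⟨h1, h2⟩, h3⟩ := hv
  refine ⟨⟨?_, mem_WhP.2 fun x => ?_⟩, ?_⟩
  · rintro _ ⟨a, ha, rfl⟩
    have e := h1 _ ⟨a, ha, rfl⟩
    show rD O (dg a a) (rD O g v) = _
    rw [rD_sw (dg_center a g), ← map_smul]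
    exact congrArg _ e
  · rw [← rD_sw (kq_comm (Nat.div_mul_cancel (NC_dvd L)).symm.dvd hg (un_kq x)), ← map_smul,
      mem_WhP.1 h2 x]
  · rintro _ ⟨a, d, ha, hd, rfl⟩
    have e := h3 _ ⟨a, d, ha, hd, rfl⟩
    obtain ⟨s, hs⟩ := cg_one ha (2 ^ n)
    obtain ⟨t, ht⟩ := cg_one hd (2 ^ n)
    show rD O (dg _ _) (rD O g v) = _
    rw [← rD_sw (H.kq L g hg _ _ ⟨s - t, by
      rw [Units.val_pow_eq_pow_val, Units.val_pow_eq_pow_val, hs, ht]; ring⟩), ← map_smul]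
    exact congrArg _ e

omit h in
/-- the action of the congruence subgroup -/
def psi (n : ℕ) : KS M (M / U.NC) →* Module.End (U.B M) (U.Wb M n) where
  toFun g :=
    { toFun := fun w => ⟨⟨rD O g.1 (w : U.GG M), H.rt _ _ (w : U.GG M).2⟩, (H.wb L n _).2
        ⟨Zp_rD L H g.2 ((H.wb L n _).1 w.2).1, by
          show U.ϖ • rD O g.1 (w : U.GG M) = 0
          rw [← map_smul, ((H.wb L n _).1 w.2).2, map_zero]⟩⟩
      map_add' := fun v w => Subtype.ext (Subtype.ext (map_add (rD O g.1) _ _))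
      map_smul' := fun e w => Subtype.ext (Subtype.ext
        (H.com g.1 (H.kq L g.1 g.2) e (w : U.GG M) ⟨_, H.rt _ _ (w : U.GG M).2⟩ rfl).symm) }
  map_one' := LinearMap.ext fun w => Subtype.ext (Subtype.ext (rD_one _))
  map_mul' g k := LinearMap.ext fun w => Subtype.ext (Subtype.ext (rD_mul _ _ _))

omit h in
theorem psi_coe (n : ℕ) (g : KS M (M / U.NC)) (w : U.Wb M n) :
    ((psi L H n g w : U.GG M) : AM O M) = rD O g.1 (w : U.GG M) := rfl

/-- multiples of the uniformiser act by zero -/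
theorem dvd_smul {n : ℕ} {c : O} (hc : U.ϖ ∣ c) (w : U.Wb M n) :
    c • ((w : U.GG M) : AM O M) = 0 := by
  obtain ⟨d, rfl⟩ := hc
  rw [mul_comm, mul_smul, ((H.wb L n _).1 w.2).2, smul_zero]

/-- the scalar matrices act trivially -/
theorem scal_triv {n : ℕ} {a : (ZMod M)ˣ} (ha : V.Cg M (M / U.NC) a 1) (w : U.Wb M n) :
    rD O (dg a a) (w : U.GG M) = (w : U.GG M) := by
  haveI : NeZero M := ⟨L.odd.pos.ne'⟩
  have e : rD O (dg a a) (w : U.GG M) = U.om (a : ZMod M).val • ((w : U.GG M) : AM O M) :=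
    ((H.wb L n _).1 w.2).1.1.1 _ ⟨a, ha, rfl⟩
  have e1 := dvd_smul h L H (h.omr _ ((ZMod.val_coe_unit_coprime a).coprime_dvd_right L.dvd)) w
  rw [sub_smul, one_smul, sub_eq_zero] at e1
  rw [e, e1]

end ok

variable [hC : ∀ l : U.L.C, Fact l.1.Prime] [CharP F 2] (h : U.Ok) (L : U.Lm M)

/-- the projection to the projective groups -/
def phi : KS M (M / U.NC) →* ∀ l, U.Gam l := Pi.monoidHom fun l =>
  (QuotientGroup.mk' _).comp ((pr (Rep.dq (spC h L l.2))).comp (KS M (M / U.NC)).subtype)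

theorem phi_apply (g : KS M (M / U.NC)) (l : U.L.C) (hl : l.1 ∣ M) :
    phi h L g l = QuotientGroup.mk (pr hl g.1) := rfl

include h L in
theorem emb_mem (l : U.L.C) (s : Sp M (M / l.1) l.1) (g : GL (Fin 2) (ZMod l.1)) :
    Rep.emb s g ∈ Kq M (M / U.NC) := Rep.Kq_mono (div_dvd h L l.2) (Rep.emb_mem s g)

include h in
theorem single_eq (l : U.L.C) (s : Sp M (M / l.1) l.1) (g : GL (Fin 2) (ZMod l.1)) (k : U.L.C)
    (hk : k.1 ∣ M) : (Pi.mulSingle l (QuotientGroup.mk g) : ∀ l, U.Gam l) k =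
      QuotientGroup.mk (pr hk (Rep.emb s g)) := by
  by_cases e : k = l
  · subst e
    rw [Pi.mulSingle_eq_same, Rep.pr_emb]
  · have d : k.1 ∣ M / l.1 := ((Nat.coprime_primes (prC h k.2) s.prime).2
      fun e' => e (Subtype.ext e')).dvd_of_dvd_mul_right (s.eq ▸ hk)
    rw [Pi.mulSingle_eq_of_ne e, pr_one hk (Rep.Kq_mono d (Rep.emb_mem s g))]
    rfl

theorem phi_surj : Function.Surjective (phi h L) := by
  intro γ
  show γ ∈ (phi h L).range
  rw [← Finset.noncommProd_mulSingle γ]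
  refine (phi h L).range.noncommProd_mem _ fun l _ => ?_
  obtain ⟨g, hg⟩ := QuotientGroup.mk_surjective (γ l)
  rw [← hg]
  exact ⟨⟨_, emb_mem h L l (spC h L l.2) g⟩, funext fun k =>
    (single_eq h l _ g k (Rep.dq (spC h L k.2))).symm⟩

theorem phi_ker {g : KS M (M / U.NC)} (hg : phi h L g = 1) :
    ∃ a : (ZMod M)ˣ, V.Cg M (M / U.NC) a 1 ∧ g.1 = dg a a := by
  have key : ∀ l ∈ U.L.C, ∀ d : l ∣ M, ∃ z : ZMod l, ∀ i j, ZMod.castHom d (ZMod l)
      ((g.1 : Matrix (Fin 2) (Fin 2) (ZMod M)) i j) = !![z, 0; 0, z] i j := fun l hl d => by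
    have e : (QuotientGroup.mk (pr d g.1) : U.Gam ⟨l, hl⟩) = 1 := congrFun hg ⟨l, hl⟩
    obtain ⟨z, -, hz⟩ := (QuotientGroup.eq_one_iff _).1 e
    exact ⟨z, fun i j => (congrArg (fun k : GL (Fin 2) (ZMod l) =>
      (k : Matrix (Fin 2) (Fin 2) (ZMod l)) i j) hz).symm⟩
  obtain ⟨y, hy⟩ := kq_iff.1 g.2
  have e : ∀ i j, (g.1 : Matrix (Fin 2) (Fin 2) (ZMod M)) i j =
      (1 : Matrix (Fin 2) (Fin 2) (ZMod M)) i j + ((M / U.NC : ℕ) : ZMod M) * y i j :=
    fun i j => by rw [hy]; rfl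
  have h01 : (g.1 : Matrix (Fin 2) (Fin 2) (ZMod M)) 0 1 = 0 :=
    crt h L (y := y 0 1) (by rw [e]; simp) fun l hl d => by
      obtain ⟨z, hz⟩ := key l hl d
      rw [hz]; rfl
  have h10 : (g.1 : Matrix (Fin 2) (Fin 2) (ZMod M)) 1 0 = 0 :=
    crt h L (y := y 1 0) (by rw [e]; simp) fun l hl d => by
      obtain ⟨z, hz⟩ := key l hl d
      rw [hz]; rfl
  have h11 : (g.1 : Matrix (Fin 2) (Fin 2) (ZMod M)) 1 1 -
      (g.1 : Matrix (Fin 2) (Fin 2) (ZMod M)) 0 0 = 0 :=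
    crt h L (y := y 1 1 - y 0 0) (by rw [e, e]; simp [mul_sub]) fun l hl d => by
      obtain ⟨z, hz⟩ := key l hl d
      rw [map_sub, hz, hz]; exact sub_self z
  rw [sub_eq_zero] at h11
  have hu : IsUnit ((g.1 : Matrix (Fin 2) (Fin 2) (ZMod M)) 0 0) := by
    have u := (Matrix.isUnit_iff_isUnit_det (g.1 : Matrix (Fin 2) (Fin 2) (ZMod M))).1 ⟨g.1, rfl⟩
    rw [Matrix.det_fin_two, h01, zero_mul, sub_zero] at u
    exact isUnit_of_mul_isUnit_left u
  refine ⟨hu.unit, ⟨y 0 0, by rw [hu.unit_spec, e]; simp⟩, Units.ext ?_⟩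
  rw [dg_coe, hu.unit_spec, Matrix.eta_fin_two (g.1 : Matrix (Fin 2) (Fin 2) (ZMod M)), h01, h10,
    h11]
  rfl

theorem sc_ex {O F B W : Type} [CommRing O] [Field F] [CommRing B] [AddCommGroup W] [Module B W]
    (r : O →+* F) (hr : Function.Surjective r) (a : O →+* B)
    (hk : ∀ c, r c = 0 → ∀ w : W, a c • w = 0) :
    ∃ sc : F →+* Module.End B W, ∀ c w, sc (r c) w = a c • w :=
  ⟨RingHom.liftOfSurjective r hr ⟨(algebraMap B (Module.End B W)).comp a,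
    fun c hc => LinearMap.ext (hk c hc)⟩, fun c w =>
    LinearMap.congr_fun (RingHom.liftOfRightInverse_comp_apply r _ _ _ c) w⟩

omit hC in
include h L in
theorem ex_sc (H : U.Hc M) (n : ℕ) : ∃ sc : F →+* Module.End (U.B M) (U.Wb M n),
    ∀ c w, sc (U.S.red c) w = algebraMap O (U.B M) c • w :=
  sc_ex _ U.S.surj _ fun c hc w => Subtype.ext (Subtype.ext
    (dvd_smul h L H (h.uni.dvd c ((h.ok.ker c).1 hc)) w))

theorem lift_ex {G Γ E : Type} [Group G] [Group Γ] [Monoid E] (φ : G →* Γ)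
    (hφ : Function.Surjective φ) (ψ : G →* E) (hk : ∀ g, φ g = 1 → ψ g = 1) :
    ∃ ρ : Γ →* E, ∀ g, ρ (φ g) = ψ g :=
  ⟨(Units.coeHom E).comp (φ.liftOfSurjective hφ ⟨ψ.toHomUnits, fun g hg => Units.ext (hk g hg)⟩),
    fun g => congrArg Units.val (MonoidHom.liftOfRightInverse_comp_apply φ _ _ _ g)⟩

theorem ex_rho (H : U.Hc M) (n : ℕ) : ∃ ρ : (∀ l, U.Gam l) →* Module.End (U.B M) (U.Wb M n),
    ∀ g, ρ (phi h L g) = psi L H n g :=
  lift_ex _ (phi_surj h L) _ fun g hg => by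
    obtain ⟨a, ha, e⟩ := phi_ker h L hg
    refine LinearMap.ext fun w => Subtype.ext (Subtype.ext ?_)
    rw [psi_coe, e, scal_triv h L H ha]
    rfl

end ActP

open ActP

variable {O F : Type} [CommRing O] [IsLocalRing O] [Co O] [Field F] [CharP F 2] {U : Su O F}
  [hC : ∀ l : U.L.C, Fact l.1.Prime]

/-- **row ACT** -/
theorem actC (hU : U.Ok) (hH : HC U) : ACT U := by
  intro M n L t d op
  have H := hH M L.odd (three L)
  obtain ⟨sc, hsc⟩ := ex_sc hU L H n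
  obtain ⟨ρ, hρ⟩ := ex_rho hU L H n
  refine ⟨⟨sc, ρ, fun c g => ?_⟩, op, hsc, fun g hg γ hγ w => ?_⟩
  · obtain ⟨c, rfl⟩ := U.S.surj c
    refine LinearMap.ext fun w => ?_
    rw [Module.End.mul_apply, Module.End.mul_apply, hsc, hsc, map_smul]
  · have e : γ = phi hU L ⟨g, hg⟩ := funext fun l => hγ l (Rep.dq (spC hU L l.2))
    show ((ρ γ w : U.GG M) : AM O M) = _
    rw [e, hρ, psi_coe]

end Vale.Agent.P022D.Fm
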