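import Vale.Agent.P022D.Fm.Hc
import Vale.Agent.P022D.V.Wf2

/-!
# P022D, forms side: row ACT
-/

set_option linter.all false

open scoped MatrixGroups

noncomputable section

namespace Vale.Agent.P022D.Fm.H60

open Vale.Agent.P022 Vale.Agent.P022D.V

theorem ex_act {ι : Type} [Fintype ι] [DecidableEq ι] {O F B W G : Type} {Γ : ι → Type}
    [CommRing O] [Field F] [CommRing B] [AddCommGroup W] [Module B W] [Group G] [∀ i, Group (Γ i)]
    (red : O →+* F) (hs : Function.Surjective red) (φ : O →+* B)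
    (hk : ∀ c, red c = 0 → ∀ w : W, φ c • w = 0) (π : G →* ∀ i, Γ i) (hπ : Function.Surjective π)
    (ρ : G →* Module.End B W) (hρ : ∀ g, π g = 1 → ρ g = 1) :
    ∃ E : Rep.Act F Γ B W, (∀ c w, E.sc (red c) w = φ c • w) ∧ ∀ g, E.ρ (π g) = ρ g := by
  have key : ∀ g g', π g = π g' → ρ g = ρ g' := fun g g' e => by
    rw [← mul_inv_cancel_left g' g, map_mul,
      hρ (g'⁻¹ * g) (by rw [map_mul, map_inv, e, inv_mul_cancel]), mul_one]
  have e := Function.surjInv_eq hπ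
  let s : F →+* Module.End B W := red.liftOfSurjective hs
    ⟨(algebraMap B (Module.End B W)).comp φ, fun c hc => LinearMap.ext (hk c hc)⟩
  have es : ∀ c, s (red c) = algebraMap B (Module.End B W) (φ c) := fun c =>
    red.liftOfRightInverse_comp_apply _ _ _ c
  refine ⟨⟨s, ⟨⟨fun γ => ρ (Function.surjInv hπ γ), (key _ 1 (by rw [e, map_one])).trans ρ.map_one⟩,
    fun γ γ' => (key _ _ (by rw [map_mul, e, e, e])).trans (ρ.map_mul _ _)⟩, fun c g => ?_⟩,
    fun c w => by rw [es]; rfl, fun g => key _ _ (e _)⟩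
  obtain ⟨c, rfl⟩ := hs c
  rw [es]
  exact Algebra.commutes _ _

theorem kq_comm {M K N : ℕ} (h : M ∣ K * N) {g k : GM M} (hg : g ∈ Kq M K) (hk : k ∈ Kq M N) :
    g * k = k * g := by
  obtain ⟨y, hy⟩ := mem_Kq.1 hg
  obtain ⟨z, hz⟩ := mem_Kq.1 hk
  have h0 : (K : ZMod M) * N = 0 := by rw [← Nat.cast_mul, ZMod.natCast_eq_zero_iff]; exact h
  apply Units.ext
  rw [Units.val_mul, Units.val_mul, hy, hz]
  simp only [add_mul, mul_add, one_mul, mul_one, Matrix.smul_mul, Matrix.mul_smul, smul_add,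
    smul_smul, h0, mul_comm (N : ZMod M), zero_smul, add_zero]
  abel

theorem un_Kq {M N : ℕ} (x : ℕ) : un ((N * x : ℕ) : ZMod M) ∈ Kq M N := by
  intro i j
  rw [un_coe]
  fin_cases i <;> fin_cases j
  · exact ⟨0, by simp⟩
  · exact ⟨x, by simp⟩
  · exact ⟨0, by simp⟩
  · exact ⟨0, by simp⟩

variable {O F : Type} [CommRing O] [IsLocalRing O] [Co O] [Field F] {U : Su O F} {M : ℕ}
  (hU : U.Ok) (L : U.Lm M)

include L in
theorem ncd : U.NC ∣ M := (dvd_mul_left _ _).trans L.dvd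

include L in
theorem kd : M / U.NC ∣ M := Nat.div_dvd_of_dvd (ncd L)

include hU L

theorem ld (l : U.L.C) : l.1 ∣ M := ((hU.dvdNC (hU.prC l.2).1).2 l.2).trans (ncd L)

theorem crt {x y : ZMod M}
    (h1 : ZMod.castHom (kd L) (ZMod (M / U.NC)) x = ZMod.castHom (kd L) _ y)
    (h2 : ∀ l : U.L.C, ZMod.castHom (ld hU L l) (ZMod l.1) x = ZMod.castHom (ld hU L l) _ y) :
    x = y := by
  haveI : NeZero M := ⟨L.odd.pos.ne'⟩
  have t : ∀ {K : ℕ} (h : K ∣ M), ZMod.castHom h (ZMod K) x = ZMod.castHom h (ZMod K) y →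
      K ∣ (x - y).val := fun h e => by
    rwa [← sub_eq_zero, ← map_sub, ← ZMod.natCast_zmod_val (x - y), map_natCast,
      ZMod.natCast_eq_zero_iff] at e
  have c : Nat.Coprime (M / U.NC) U.NC := by
    have e : M / U.NC = U.NW * (M / U.N) := by
      refine Nat.div_eq_of_eq_mul_left (Nat.pos_of_ne_zero hU.NCne) ?_
      rw [mul_right_comm]
      exact L.eq
    rw [e]
    exact Nat.Coprime.mul_left hU.cop (L.cop.coprime_dvd_left (dvd_mul_left _ _)).symm
  have d : U.NC ∣ (x - y).val := by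
    rw [hU.NC]
    exact Finset.prod_primes_dvd _ (fun l hl => (hU.prC hl).1.prime) fun l hl => t _ (h2 ⟨l, hl⟩)
  have e := c.mul_dvd_of_dvd_of_dvd (t _ h1) d
  rwa [Nat.div_mul_cancel (ncd L), ← ZMod.natCast_eq_zero_iff, ZMod.natCast_zmod_val,
    sub_eq_zero] at e

omit hU in
theorem zp_rD {n : ℕ} {g : GM M} (hg : g ∈ Kq M (M / U.NC)) {v : AM O M} (hv : v ∈ U.Zp M n) :
    rD O g v ∈ U.Zp M n := by
  have c : ∀ {k : GM M}, k * g = g * k → rD O k (rD O g v) = rD O g (rD O k v) := fun e =>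
    LinearMap.congr_fun (rD_comm e).eq v
  refine ⟨⟨mem_Ce.2 fun a ha => ?_, mem_WhP.2 fun x => ?_⟩, mem_TQ.2 fun a d ha hd => ?_⟩
  · rw [c (dg_center a g), mem_Ce.1 hv.1.1 a ha, map_smul]
  · rw [c (kq_comm (by rw [Nat.div_mul_cancel (ncd L)]) hg (un_Kq x)).symm, ← map_smul,
      mem_WhP.1 hv.1.2 x]
  · rw [c (Kq_NC L.dvd hg _ _ ?_).symm, mem_TQ.1 hv.2 a d ha hd]
    rw [Units.val_pow_eq_pow_val, Units.val_pow_eq_pow_val]
    exact cg_pow (cg_trans ha (cg_symm hd)) _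

/-- the translations on the forms modulo the uniformiser -/
def rho (n : ℕ) : (pr (kd L)).ker →* Module.End (U.B M) (U.Wb M n) where
  toFun g := (rB U L.odd L.three g (Kq_NC L.dvd ((Wq.mem_Kq _ _).2 g.2))).restrict fun v hv => by
    haveI : NeZero M := ⟨L.odd.pos.ne'⟩
    rw [mem_Wb L.dvd hU.zN] at hv ⊢
    exact ⟨zp_rD L ((Wq.mem_Kq _ _).2 g.2) hv.1, by rw [rB_coe, ← map_smul, hv.2, map_zero]⟩
  map_one' := LinearMap.ext fun v => Subtype.ext (Subtype.ext (V.rt_one (S := O) _))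
  map_mul' g h := LinearMap.ext fun v => Subtype.ext (Subtype.ext (V.rt_rt (S := O) _ _ _).symm)

variable [hC : ∀ l : U.L.C, Fact l.1.Prime]

/-- the projective classes -/
def cls : (pr (kd L)).ker →* ∀ l, U.Gam l := Pi.monoidHom fun l =>
  ((QuotientGroup.mk' _).comp (pr (ld hU L l))).comp (Subgroup.subtype _)

theorem cls_surj : Function.Surjective (cls hU L) := fun γ => by
  classical
  change γ ∈ (cls hU L).range
  rw [← Finset.noncommProd_mulSingle γ]
  refine Subgroup.noncommProd_mem _ _ fun l _ => ?_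
  obtain ⟨g, hg⟩ := QuotientGroup.mk_surjective (γ l)
  have s := L.spC hU l.2
  have d := (hU.dvdNC s.prime).2 l.2
  refine ⟨⟨Rep.emb s g, (Wq.mem_Kq _ _).1 (Kq_mono (Nat.div_dvd_div_left (ncd L) d)
    (Rep.emb_mem s g))⟩, funext fun k => ?_⟩
  by_cases e : k = l
  · subst e
    rw [Pi.mulSingle_eq_same, ← hg]
    exact congrArg _ (Rep.pr_emb s g)
  · rw [Pi.mulSingle_eq_of_ne e]
    have h1 : k.1 ∣ M / l.1 := ((Nat.coprime_primes (hC k).out s.prime).2 fun h =>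
      e (Subtype.ext h)).dvd_of_dvd_mul_right (s.eq ▸ ld hU L k)
    exact congrArg QuotientGroup.mk ((Wq.mem_Kq _ _).1 (Kq_mono h1 (Rep.emb_mem s g)))

theorem cls_ker (n : ℕ) (g : (pr (kd L)).ker) (h : cls hU L g = 1) : rho hU L n g = 1 := by
  haveI : NeZero M := ⟨L.odd.pos.ne'⟩
  obtain ⟨g, hg⟩ := g
  have h1 : ∀ l : U.L.C, ∃ z, Rep.tG z z = pr (ld hU L l) g := fun l => by
    obtain ⟨z, -, e⟩ := (QuotientGroup.eq_one_iff _).1 (congrFun h l)
    exact ⟨z, e⟩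
  have h2 : pr (kd L) g = 1 := hg
  have e01 : (g : Matrix (Fin 2) (Fin 2) (ZMod M)) 0 1 = 0 := crt hU L
    (by rw [← pr_coe, h2, map_zero]; rfl) fun l => by
      obtain ⟨z, e⟩ := h1 l
      rw [← pr_coe, ← e, map_zero]; rfl
  have e10 : (g : Matrix (Fin 2) (Fin 2) (ZMod M)) 1 0 = 0 := crt hU L
    (by rw [← pr_coe, h2, map_zero]; rfl) fun l => by
      obtain ⟨z, e⟩ := h1 l
      rw [← pr_coe, ← e, map_zero]; rfl
  have e11 : (g : Matrix (Fin 2) (Fin 2) (ZMod M)) 1 1 =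
      (g : Matrix (Fin 2) (Fin 2) (ZMod M)) 0 0 := crt hU L
    (by rw [← pr_coe, ← pr_coe, h2]; rfl) fun l => by
      obtain ⟨z, e⟩ := h1 l
      rw [← pr_coe, ← pr_coe, ← e]; rfl
  have u := (Matrix.GeneralLinearGroup.det g).isUnit
  rw [GrpP.det_val, e01, zero_mul, sub_zero] at u
  obtain ⟨a, ha⟩ := isUnit_of_mul_isUnit_left u
  obtain rfl : g = dg a a := by
    apply Units.ext
    rw [dg_coe, ha]
    ext i j
    fin_cases i <;> fin_cases j
    exacts [rfl, e01, e10, e11]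
  refine LinearMap.ext fun v => Subtype.ext (Subtype.ext ?_)
  obtain ⟨v1, v2⟩ := (mem_Wb L.dvd hU.zN).1 v.2
  obtain ⟨c, hc⟩ := hU.omr _ ((ZMod.val_coe_unit_coprime a).coprime_dvd_right L.dvd)
  refine (mem_Ce.1 v1.1.1 a ((Wq.mem_Kq _ _).2 h2 0 0)).trans ?_
  rw [eq_add_of_sub_eq hc, add_smul, mul_comm, mul_smul, v2, smul_zero, zero_add, one_smul]
  rfl

omit L

theorem actC [CharP F 2] : ACT U := fun M n L t d op => by
  haveI : NeZero M := ⟨L.odd.pos.ne'⟩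
  obtain ⟨E, e1, e2⟩ := ex_act U.S.red U.S.surj (algebraMap O (U.B M)) (W := U.Wb M n)
    (fun c hc w => by
      obtain ⟨k, rfl⟩ := hU.uni.dvd c ((hU.ok.ker c).1 hc)
      refine Subtype.ext (Subtype.ext ?_)
      change (U.ϖ * k) • ((w : U.GG M) : AM O M) = 0
      rw [mul_comm, mul_smul, ((mem_Wb L.dvd hU.zN).1 w.2).2, smul_zero])
    (cls hU L) (cls_surj hU L) (rho hU L n) (cls_ker hU L n)
  refine ⟨E, op, e1, fun h hh γ hγ w => ?_⟩
  have e : γ = cls hU L ⟨h, (Wq.mem_Kq _ _).1 hh⟩ := funext fun l => hγ l _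
  rw [e]
  exact congrArg (fun x : Module.End (U.B M) (U.Wb M n) => (((x w : U.Wb M n) : U.GG M) : AM O M))
    (e2 _)

end Vale.Agent.P022D.Fm.H60
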