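import Vale.Agent.P022D.Fm.Rows

/-!
# P022D, forms side: row ACT
-/

set_option linter.all false

open scoped MatrixGroups

noncomputable section

namespace Vale.Agent.P022D.Fm.H61

open Vale.Agent.P022 Vale.Agent.P022D.V

section grp

variable {M K K' : ℕ}

theorem kq_iff {g : GM M} : g ∈ Kq M K ↔ ∃ y : Matrix (Fin 2) (Fin 2) (ZMod M),
    (g : Matrix (Fin 2) (Fin 2) (ZMod M)) = 1 + (K : ZMod M) • y := by
  refine ⟨fun h => ?_, fun ⟨y, h⟩ i j => ⟨y i j, by rw [h]; rfl⟩⟩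
  choose y hy using h
  exact ⟨Matrix.of y, Matrix.ext fun i j => hy i j⟩

variable (M K) in
/-- the elements which are `1` modulo `K` -/
def KS : Submonoid (GM M) where
  carrier := Kq M K
  one_mem' := kq_iff.2 ⟨0, by simp⟩
  mul_mem' := fun {g h} hg hh => by
    obtain ⟨x, hx⟩ := kq_iff.1 hg
    obtain ⟨y, hy⟩ := kq_iff.1 hh
    refine kq_iff.2 ⟨x + y + (K : ZMod M) • (x * y), ?_⟩
    rw [Units.val_mul, hx, hy]
    simp only [add_mul, mul_add, one_mul, mul_one, smul_add, Matrix.smul_mul, Matrix.mul_smul]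
    abel

theorem kq_comm (h : M ∣ K * K') {g g' : GM M} (hg : g ∈ Kq M K) (hg' : g' ∈ Kq M K') :
    g * g' = g' * g := by
  obtain ⟨x, hx⟩ := kq_iff.1 hg
  obtain ⟨y, hy⟩ := kq_iff.1 hg'
  have h0 : (K : ZMod M) * K' = 0 := by rw [← Nat.cast_mul, ZMod.natCast_eq_zero_iff]; exact h
  apply Units.ext
  rw [Units.val_mul, Units.val_mul, hx, hy]
  simp only [add_mul, mul_add, one_mul, mul_one, Matrix.smul_mul, Matrix.mul_smul, smul_smul, h0,
    mul_comm (K' : ZMod M), zero_smul, add_zero, smul_add]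
  abel

theorem un_kq (x : ℕ) : (un ((K * x : ℕ) : ZMod M) : GM M) ∈ Kq M K := by
  refine kq_iff.2 ⟨!![0, (x : ZMod M); 0, 0], ?_⟩
  rw [un_coe]
  ext i j
  fin_cases i <;> fin_cases j <;> simp

theorem sc_comm (a : (ZMod M)ˣ) (g : GM M) : g * dg a a = dg a a * g := by
  apply Units.ext
  rw [Units.val_mul, Units.val_mul, dg_coe]
  ext i j
  fin_cases i <;> fin_cases j <;> simp [Matrix.mul_apply, Fin.sum_univ_two, mul_comm]

theorem pr_one (hK : K ∣ M) {g : GM M} (hg : g ∈ Kq M K) : pr hK g = 1 := by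
  apply Units.ext
  ext i j
  obtain ⟨y, hy⟩ := hg i j
  show ZMod.castHom hK (ZMod K) ((g : Matrix (Fin 2) (Fin 2) (ZMod M)) i j) = _
  rw [hy, map_add, map_mul, map_natCast, ZMod.natCast_self, zero_mul, add_zero, Units.val_one]
  by_cases e : i = j
  · subst e
    rw [Matrix.one_apply_eq, Matrix.one_apply_eq, map_one]
  · rw [Matrix.one_apply_ne e, Matrix.one_apply_ne e, map_zero]

/-- the Chinese remainder theorem -/
theorem crt (hM : M ≠ 0) (C : Finset ℕ) (hp : ∀ l ∈ C, l.Prime ∧ ¬ l ∣ K) (e : M = K * ∏ l ∈ C, l)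
    {g g' : GM M} (hg : g ∈ Kq M K) (hg' : g' ∈ Kq M K)
    (h : ∀ l ∈ C, ∀ hl : l ∣ M, pr hl g = pr hl g') : g = g' := by
  haveI : NeZero M := ⟨hM⟩
  apply Units.ext
  ext i j
  obtain ⟨x, hx⟩ := hg i j
  obtain ⟨y, hy⟩ := hg' i j
  have h1 : ∀ l ∈ C, l ∣ (x - y).val := by
    intro l hl
    have hd : l ∣ M := by
      rw [e]
      exact (Finset.dvd_prod_of_mem (fun l => l) hl).mul_left _
    have h2 : ZMod.castHom hd (ZMod l) ((g : Matrix (Fin 2) (Fin 2) (ZMod M)) i j) =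
        ZMod.castHom hd (ZMod l) ((g' : Matrix (Fin 2) (Fin 2) (ZMod M)) i j) :=
      congrArg (fun k : GM l => (k : Matrix (Fin 2) (Fin 2) (ZMod l)) i j) (h l hl hd)
    have h3 : ZMod.castHom hd (ZMod l) ((K * (x - y).val : ℕ) : ZMod M) = 0 := by
      rw [Nat.cast_mul, ZMod.natCast_zmod_val, ← sub_eq_zero.2 h2, ← map_sub, hx, hy]
      congr 1
      ring
    rw [map_natCast, ZMod.natCast_eq_zero_iff] at h3
    exact (((hp l hl).1.dvd_mul).1 h3).resolve_left (hp l hl).2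
  have h4 : (∏ l ∈ C, l) ∣ (x - y).val :=
    Finset.prod_primes_dvd _ (fun l hl => (hp l hl).1.prime) h1
  have h5 : ((K * (x - y).val : ℕ) : ZMod M) = 0 := by
    rw [ZMod.natCast_eq_zero_iff]
    conv_lhs => rw [e]
    exact Nat.mul_dvd_mul_left _ h4
  rw [Nat.cast_mul, ZMod.natCast_zmod_val] at h5
  rw [hx, hy]
  linear_combination h5

theorem pi_ext {ι : Type} [Fintype ι] [DecidableEq ι] {G : ι → Type} [∀ i, Group (G i)] {N : Type}
    [Monoid N] {f f' : (∀ i, G i) →* N}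
    (h : ∀ i x, f (Pi.mulSingle i x) = f' (Pi.mulSingle i x)) (g : ∀ i, G i) : f g = f' g := by
  have e : g ∈ f.eqLocusM f' := by
    rw [← Finset.noncommProd_mulSingle g]
    exact Submonoid.noncommProd_mem _ _ _ _ fun i _ => h i _
  exact e

theorem ex_lift {O F B W : Type} [CommRing O] [Field F] [CommRing B] [Algebra O B] [AddCommGroup W]
    [Module B W] (red : O →+* F) (hs : Function.Surjective red)
    (h : ∀ c, red c = 0 → ∀ w : W, algebraMap O B c • w = 0) :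
    ∃ sc : F →+* Module.End B W, ∀ c w, sc (red c) w = algebraMap O B c • w :=
  ⟨red.liftOfSurjective hs ⟨(algebraMap B (Module.End B W)).comp (algebraMap O B),
    fun c hc => LinearMap.ext (h c hc)⟩, fun c w => by
      rw [RingHom.liftOfSurjective_comp_apply]
      rfl⟩

end grp

variable {O F : Type} [CommRing O] [IsLocalRing O] [Co O] [Field F] {U : Su O F} {M n : ℕ}

theorem rd_mul (g h : GM M) (v : AM O M) : rD O (g * h) v = rD O g (rD O h v) := by
  show rt O (RD O) (g * h) v = _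
  rw [map_mul]
  rfl

theorem rd_one (v : AM O M) : rD O 1 v = v := by
  show rt O (RD O) 1 v = _
  rw [map_one]
  rfl

theorem rd_comm {g h : GM M} (e : g * h = h * g) (v : AM O M) :
    rD O g (rD O h v) = rD O h (rD O g v) := by rw [← rd_mul, ← rd_mul, e]

theorem nc_dvd (hL : U.Lm M) : U.NC ∣ M := (dvd_mul_left _ _).trans hL.dvd

theorem zp_rd (H : U.Hc M) (hL : U.Lm M) {g : GM M} (hg : g ∈ Kq M (M / U.NC)) {v : AM O M}
    (hv : v ∈ U.Zp M n) : rD O g v ∈ U.Zp M n := by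
  refine ⟨⟨?_, ?_⟩, ?_⟩
  · rintro _ ⟨a, ha, rfl⟩
    have h1 := hv.1.1 _ ⟨a, ha, rfl⟩
    show rD O (dg a a) (rD O g v) = _
    rw [← rd_comm (sc_comm a g), show rD O (dg a a) v = _ from h1, map_smul]
  · have h1 := hv.1.2
    simp only [Su.WhP, SetLike.mem_coe, Submodule.mem_iInf, LinearMap.mem_ker, LinearMap.sub_apply,
      LinearMap.smul_apply, sub_eq_zero, Module.End.one_apply] at h1 ⊢
    intro x
    rw [← rd_comm (kq_comm (by rw [Nat.div_mul_cancel (nc_dvd hL)]) hg (un_kq x)), ← map_smul, h1]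
  · rintro _ ⟨a, d, ⟨s, ha⟩, ⟨t, hd⟩, rfl⟩
    have h1 := hv.2 _ ⟨a, d, ⟨s, ha⟩, ⟨t, hd⟩, rfl⟩
    have h2 : V.Cg M U.N (a ^ 2 ^ n : (ZMod M)ˣ) (d ^ 2 ^ n : (ZMod M)ˣ) := by
      have h3 : (U.N : ZMod M) ∣ (a : ZMod M) - d := ⟨s - t, by rw [ha, hd]; ring⟩
      obtain ⟨c, hc⟩ := h3.trans (sub_dvd_pow_sub_pow (a : ZMod M) d (2 ^ n))
      exact ⟨c, by rw [Units.val_pow_eq_pow_val, Units.val_pow_eq_pow_val, ← hc]; ring⟩
    show rD O _ (rD O g v) = _
    rw [← rd_comm (H.kq hL g hg _ _ h2), show rD O _ v = _ from h1, map_smul]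

theorem wb_rd (H : U.Hc M) (hL : U.Lm M) {g : GM M} (hg : g ∈ Kq M (M / U.NC)) (w : U.Wb M n) :
    (⟨rD O g (w : U.GG M), H.rt g _ (w : U.GG M).2⟩ : U.GG M) ∈ U.Wb M n := by
  obtain ⟨h1, h2⟩ := (H.wb hL n _).1 w.2
  exact (H.wb hL n _).2 ⟨zp_rd H hL hg h1, by rw [← map_smul, h2, map_zero]⟩

variable (n) in
/-- the translations on the forms modulo `ϖ` -/
def RR (H : U.Hc M) (hL : U.Lm M) : KS M (M / U.NC) →* Module.End (U.B M) (U.Wb M n) where
  toFun g :=
    { toFun := fun w => ⟨_, wb_rd H hL g.2 w⟩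
      map_add' := fun w w' => Subtype.ext (Subtype.ext (map_add _ _ _))
      map_smul' := fun e w => Subtype.ext (Subtype.ext
        (H.com g.1 (H.kq hL g.1 g.2) e w ⟨_, H.rt g.1 _ (w : U.GG M).2⟩ rfl).symm) }
  map_one' := LinearMap.ext fun w => Subtype.ext (Subtype.ext (rd_one _))
  map_mul' g h := LinearMap.ext fun w => Subtype.ext (Subtype.ext (rd_mul _ _ _))

theorem RR_coe (H : U.Hc M) (hL : U.Lm M) (g : KS M (M / U.NC)) (w : U.Wb M n) :
    (((RR n H hL g w : U.Wb M n) : U.GG M) : AM O M) = rD O g.1 (w : U.GG M) := rfl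

theorem kill (H : U.Hc M) (hL : U.Lm M) {c : O} (hc : U.ϖ ∣ c) (w : U.Wb M n) :
    c • ((w : U.GG M) : AM O M) = 0 := by
  obtain ⟨a, rfl⟩ := hc
  rw [mul_comm, mul_smul, ((H.wb hL n _).1 w.2).2, smul_zero]

theorem nc_cop (hU : U.Ok) (hL : U.Lm M) {l : ℕ} (hl : l ∈ U.L.C) :
    l.Prime ∧ ¬ l ∣ M / U.NC := by
  have p := (hU.ok.pr l (Finset.mem_union_right _ hl)).1
  have d : l ∣ U.NC := hU.NC ▸ Finset.dvd_prod_of_mem (fun l => l) hl
  have h0 : U.NC ≠ 0 := fun e => by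
    have := hL.le
    rw [Su.N, e] at this
    omega
  refine ⟨p, ?_⟩
  have e : M / U.NC = U.NW * (M / U.N) := by
    conv_lhs => rw [← Nat.mul_div_cancel' hL.dvd, Su.N, mul_right_comm]
    exact Nat.mul_div_cancel _ (Nat.pos_of_ne_zero h0)
  rw [e, p.dvd_mul]
  rintro (h1 | h1)
  · exact Finset.disjoint_left.1 hU.ok.dj ((hU.NW l p).1 h1) hl
  · exact p.ne_one (Nat.eq_one_of_dvd_coprimes hL.cop (d.mul_left _) h1)

theorem div_eq (hU : U.Ok) (hL : U.Lm M) {l : ℕ} (hl : l ∈ U.L.C) :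
    M / l = M / U.NC * ∏ p ∈ U.L.C.erase l, p := by
  have p := (nc_cop hU hL hl).1
  refine Nat.div_eq_of_eq_mul_left p.pos ?_
  rw [mul_assoc, Finset.prod_erase_mul _ (fun l => l) hl, ← hU.NC, Nat.div_mul_cancel (nc_dvd hL)]

theorem sp (hU : U.Ok) (hL : U.Lm M) (l : U.L.C) : Sp M (M / l.1) l.1 := by
  obtain ⟨p, h1⟩ := nc_cop hU hL l.2
  have d : l.1 ∣ U.NC := hU.NC ▸ Finset.dvd_prod_of_mem (fun l => l) l.2
  refine ⟨(Nat.div_mul_cancel (d.trans (nc_dvd hL))).symm, ?_, p, hL.odd⟩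
  rw [Nat.coprime_comm, p.coprime_iff_not_dvd, div_eq hU hL l.2, p.dvd_mul,
    p.prime.dvd_finset_prod_iff]
  rintro (h2 | ⟨a, ha, e⟩)
  · exact h1 h2
  · obtain ⟨a1, a2⟩ := Finset.mem_erase.1 ha
    exact a1 ((Nat.prime_dvd_prime_iff_eq p (nc_cop hU hL a2).1).1 e).symm

variable [hC : ∀ l : U.L.C, Fact l.1.Prime]

/-- the factor at `l` -/
def em (hU : U.Ok) (hL : U.Lm M) (l : U.L.C) : GL (Fin 2) (ZMod l.1) →* KS M (M / U.NC) :=
  (Rep.emb (sp hU hL l)).codRestrict _ fun g =>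
    Rep.Kq_mono ⟨_, div_eq hU hL l.2⟩ (Rep.emb_mem _ g)

theorem em_comm (hU : U.Ok) (hL : U.Lm M) :
    Pairwise fun l l' : U.L.C => ∀ g g', Commute (em hU hL l g) (em hU hL l' g') :=
  fun l l' h g g' => Subtype.ext (Rep.emb_comm2 _ _ (fun e => h (Subtype.ext e)) g g')

theorem ex_sc (hU : U.Ok) (H : U.Hc M) (hL : U.Lm M) :
    ∃ sc : F →+* Module.End (U.B M) (U.Wb M n),
      ∀ c w, sc (U.S.red c) w = algebraMap O (U.B M) c • w :=
  ex_lift U.S.red U.S.surj fun c hc w => Subtype.ext (Subtype.ext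
    (kill H hL (hU.uni.dvd c fun u => (u.map U.S.red).ne_zero hc) w))

variable (n) in
/-- the commuting actions -/
def pre (hU : U.Ok) (H : U.Hc M) (hL : U.Lm M) :
    Rep.Pre F (fun l : U.L.C => ZMod l.1) (U.B M) (U.Wb M n) where
  sc := (ex_sc hU H hL).choose
  ρ l := (RR n H hL).comp (em hU hL l)
  c1 c l g := by
    obtain ⟨c, rfl⟩ := U.S.surj c
    refine LinearMap.ext fun w => ?_
    rw [Module.End.mul_apply, Module.End.mul_apply, (ex_sc hU H hL).choose_spec,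
      (ex_sc hU H hL).choose_spec, map_smul]
  c2 l l' h g g' := (em_comm hU hL h g g').map (RR n H hL)
  z l z := by
    refine LinearMap.ext fun w => Subtype.ext (Subtype.ext ?_)
    haveI : NeZero M := ⟨hL.odd.pos.ne'⟩
    have h1 : V.Cg M (M / U.NC) (Rep.lamU (sp hU hL l) z) 1 := by
      obtain ⟨t, ht⟩ := Rep.lamU_cg (sp hU hL l) z
      exact ⟨(∏ p ∈ U.L.C.erase l.1, p : ℕ) * t, by
        rw [ht, div_eq hU hL l.2, Nat.cast_mul, mul_assoc]⟩
    have h2 := ((H.wb hL n _).1 w.2).1.1.1 _ ⟨_, h1, rfl⟩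
    have h3 := kill H hL (hU.omr _ ((ZMod.val_coe_unit_coprime
      (Rep.lamU (sp hU hL l) z)).coprime_dvd_right hL.dvd)) w
    show rD O (Rep.emb (sp hU hL l) (Rep.tG z z)) ((w : U.GG M) : AM O M) = (w : U.GG M)
    rw [Rep.emb_t]
    rw [sub_smul, one_smul, sub_eq_zero] at h3
    exact h2.trans h3

variable [CharP F 2]

theorem actC (hU : U.Ok) (hH : HC U) : ACT U := by
  classical
  intro M n hL t d hop
  have H := hH M hL.odd (hL.le.trans (Nat.le_of_dvd hL.odd.pos hL.dvd))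
  refine ⟨(pre n hU H hL).act, hop, fun c w => ?_, fun h hh γ hγ w => ?_⟩
  · exact (ex_sc hU H hL).choose_spec c w
  · let e := MonoidHom.noncommPiCoprod (em hU hL) (em_comm hU hL)
    have e1 : ∀ l x, e (Pi.mulSingle l x) = em hU hL l x := fun l x =>
      MonoidHom.noncommPiCoprod_mulSingle (hcomm := em_comm hU hL) _ l x
    let mk : (∀ l : U.L.C, GL (Fin 2) (ZMod l.1)) →* ∀ l, U.Gam l :=
      MonoidHom.pi fun l => (QuotientGroup.mk' _).comp (Pi.evalMonoidHom _ l)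
    have m1 : ∀ l x, mk (Pi.mulSingle l x) = Pi.mulSingle l (QuotientGroup.mk x) := by
      intro l x
      funext l'
      show QuotientGroup.mk' _ ((Pi.mulSingle l x : ∀ l : U.L.C, GL (Fin 2) (ZMod l.1)) l') = _
      by_cases e : l' = l
      · subst e
        rw [Pi.mulSingle_eq_same, Pi.mulSingle_eq_same]
        rfl
      · rw [Pi.mulSingle_eq_of_ne e, Pi.mulSingle_eq_of_ne e, map_one]
    have c1 := pi_ext (f := (pre n hU H hL).act.ρ.comp mk) (f' := (RR n H hL).comp e) (by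
      intro l x
      rw [MonoidHom.comp_apply, MonoidHom.comp_apply, m1, e1, Rep.Pre.act_ρ]
      rfl)
    have c2 : ∀ (l : U.L.C) (hl : l.1 ∣ M) g, pr hl (e g).1 = g l := by
      intro l hl
      refine pi_ext (f := (pr hl).comp ((KS M (M / U.NC)).subtype.comp e))
        (f' := Pi.evalMonoidHom _ l) fun l' x => ?_
      rw [MonoidHom.comp_apply, MonoidHom.comp_apply, e1, Pi.evalMonoidHom_apply]
      by_cases e : l = l'
      · subst e
        rw [Pi.mulSingle_eq_same]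
        exact Rep.pr_emb _ x
      · rw [Pi.mulSingle_eq_of_ne e]
        refine pr_one hl (Rep.Kq_mono ?_ (Rep.emb_mem (sp hU hL l') x))
        rw [div_eq hU hL l'.2]
        exact (Finset.dvd_prod_of_mem (fun l => l)
          (Finset.mem_erase.2 ⟨fun a => e (Subtype.ext a), l.2⟩)).mul_left _
    have c3 : (e fun l => pr (Rep.dq (sp hU hL l)) h).1 = h := by
      refine crt hL.odd.pos.ne' U.L.C (fun l hl => nc_cop hU hL hl)
        (by rw [← hU.NC, Nat.div_mul_cancel (nc_dvd hL)]) (e _).2 hh fun l hl hd => ?_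
      exact c2 ⟨l, hl⟩ hd _
    have c4 : γ = mk fun l => pr (Rep.dq (sp hU hL l)) h := funext fun l => hγ l _
    have c5 := c1 fun l => pr (Rep.dq (sp hU hL l)) h
    rw [MonoidHom.comp_apply, MonoidHom.comp_apply, ← c4] at c5
    show ((((pre n hU H hL).act.ρ γ w : U.Wb M n) : U.GG M) : AM O M) = _
    rw [c5, RR_coe, c3]

end Vale.Agent.P022D.Fm.H61
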