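import Vale.Agent.P022D.Rep.Gen

/-!
# P022D, forms side: Higman's operator from the vanishing of the Tate cohomology
-/

set_option linter.all false

noncomputable section

namespace Vale.Agent.P022D.Fm

open Classical

/-- an equivariant operator which kills the fixed vectors of a `2`-group is locally nilpotent -/
theorem loc_nil {R V G : Type} [Ring R] [AddCommGroup V] [Module R V] [Group G] [Finite G]
    (hG : IsPGroup 2 G) (h2 : ∀ v : V, v + v = 0) (ρ : G →* Module.End R V)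
    (E : Module.End R V) (hE : ∀ g v, E (ρ g v) = ρ g (E v))
    (h0 : ∀ v, (∀ g, ρ g v = v) → E v = 0) (v : V) : ∃ k : ℕ, (E ^ k) v = 0 := by
  have hEk : ∀ (k : ℕ) g v, (E ^ k) (ρ g v) = ρ g ((E ^ k) v) := by
    intro k g
    induction k with
    | zero => intro v; rfl
    | succ k ih => intro v; rw [pow_succ, Module.End.mul_apply, Module.End.mul_apply, hE, ih]
  have hmono : ∀ (k m : ℕ) v, k ≤ m → (E ^ k) v = 0 → (E ^ m) v = 0 := by
    intro k m v hkm hv
    obtain ⟨c, rfl⟩ := Nat.exists_eq_add_of_le' hkm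
    rw [pow_add, Module.End.mul_apply, hv, map_zero]
  let U : Submodule R V :=
    { carrier := {v | ∃ k : ℕ, (E ^ k) v = 0}
      add_mem' := by
        rintro a b ⟨k, hk⟩ ⟨m, hm⟩
        exact ⟨max k m, by
          rw [map_add, hmono k _ a (le_max_left _ _) hk, hmono m _ b (le_max_right _ _) hm,
            add_zero]⟩
      zero_mem' := ⟨0, map_zero _⟩
      smul_mem' := by
        rintro c a ⟨k, hk⟩
        exact ⟨k, by rw [map_smul, hk, smul_zero]⟩ }
  have hU : ∀ g, U ≤ U.comap (ρ g) := by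
    rintro g a ⟨k, hk⟩
    exact ⟨k, by rw [hEk, hk, map_zero]⟩
  by_contra hv
  have hv0 : (Submodule.Quotient.mk v : V ⧸ U) ≠ 0 := fun h =>
    hv ((Submodule.Quotient.mk_eq_zero U).1 h)
  obtain ⟨w, -, hw0, hw⟩ := Rep.fixvec hG (fun g => (U.mapQ U (ρ g) (hU g)).toAddMonoidHom)
    (fun x => by
      obtain ⟨x, rfl⟩ := Submodule.Quotient.mk_surjective U x
      change Submodule.Quotient.mk (ρ 1 x) = _
      rw [map_one]; rfl)
    (fun g h x => by
      obtain ⟨x, rfl⟩ := Submodule.Quotient.mk_surjective U x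
      change Submodule.Quotient.mk (ρ (g * h) x) = Submodule.Quotient.mk (ρ g (ρ h x))
      rw [map_mul]; rfl)
    (fun x => by
      obtain ⟨x, rfl⟩ := Submodule.Quotient.mk_surjective U x
      rw [← Submodule.Quotient.mk_add, h2, Submodule.Quotient.mk_zero])
    ⊤ (fun _ _ _ => trivial) _ trivial hv0
  obtain ⟨w, rfl⟩ := Submodule.Quotient.mk_surjective U w
  have h3 : ∀ g, ∃ k : ℕ, (E ^ k) (ρ g w - w) = 0 := fun g =>
    (Submodule.Quotient.eq U).1 (hw g)
  choose k hk using h3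
  obtain ⟨m, hm⟩ := (Set.finite_range k).bddAbove
  refine hw0 ((Submodule.Quotient.mk_eq_zero U).2 ⟨m + 1, ?_⟩)
  rw [pow_succ', Module.End.mul_apply]
  refine h0 _ fun g => ?_
  have h4 := hmono _ m _ (hm ⟨g, rfl⟩) (hk g)
  rwa [map_sub, hEk, sub_eq_zero] at h4

/-- an equivariant operator which is the identity on the fixed vectors is bijective -/
theorem bij_of_fix {R V G : Type} [Ring R] [AddCommGroup V] [Module R V] [Group G] [Finite G]
    (hG : IsPGroup 2 G) (h2 : ∀ v : V, v + v = 0) (ρ : G →* Module.End R V)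
    (T : Module.End R V) (hT : ∀ g v, T (ρ g v) = ρ g (T v))
    (h0 : ∀ v, (∀ g, ρ g v = v) → T v = v) : Function.Bijective T := by
  have hn := loc_nil hG h2 ρ (1 - T)
    (fun g v => by simp only [LinearMap.sub_apply, Module.End.one_apply, map_sub, hT])
    (fun v hv => by rw [LinearMap.sub_apply, Module.End.one_apply, h0 v hv, sub_self])
  constructor
  · rw [injective_iff_map_eq_zero]
    intro v hv
    obtain ⟨k, hk⟩ := hn v
    have h := LinearMap.congr_fun (geom_sum_mul_neg (1 - T) k) v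
    rw [sub_sub_cancel, Module.End.mul_apply, hv, map_zero, LinearMap.sub_apply, hk, sub_zero] at h
    exact h.symm
  · intro v
    obtain ⟨k, hk⟩ := hn v
    have h := LinearMap.congr_fun (mul_neg_geom_sum (1 - T) k) v
    rw [sub_sub_cancel, Module.End.mul_apply, LinearMap.sub_apply, hk, sub_zero] at h
    exact ⟨_, h⟩

/-- Higman's operator for a `2`-group -/
theorem hig_two {R V G : Type} [Ring R] [AddCommGroup V] [Module R V] [IsSemisimpleModule R V]
    [Group G] [Fintype G] (hG : IsPGroup 2 G) (h2 : ∀ v : V, v + v = 0)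
    (ρ : G →* Module.End R V) (h : ∀ v, (∀ g, ρ g v = v) → ∃ v', v = ∑ g, ρ g v') :
    ∃ θ : Module.End R V, ∀ v, ∑ g, ρ g (θ (ρ g⁻¹ v)) = v := by
  let N : Module.End R V := ∑ g, ρ g
  obtain ⟨s, hs⟩ := IsSemisimpleModule.lifting_property (P := LinearMap.range N)
    N.rangeRestrict N.surjective_rangeRestrict LinearMap.id
  obtain ⟨σ, hσ⟩ := IsSemisimpleModule.extension_property (P := V) (LinearMap.range N).subtype
    (Submodule.injective_subtype _) s
  let T : Module.End R V := ∑ g, ρ g * σ * ρ g⁻¹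
  have hTa : ∀ v, T v = ∑ g, ρ g (σ (ρ g⁻¹ v)) := fun v => by
    simp only [T, LinearMap.sum_apply, Module.End.mul_apply]
  have hT : ∀ g v, T (ρ g v) = ρ g (T v) := by
    intro g v
    rw [hTa, hTa, map_sum]
    refine (Fintype.sum_equiv (Equiv.mulLeft g) _ _ fun x => ?_).symm
    rw [Equiv.coe_mulLeft, ← Module.End.mul_apply (ρ _⁻¹) (ρ g), ← map_mul, mul_inv_rev,
      inv_mul_cancel_right, map_mul, Module.End.mul_apply]
  have h0 : ∀ v, (∀ g, ρ g v = v) → T v = v := by
    intro v hv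
    obtain ⟨v', hv'⟩ := h v hv
    have hm : v ∈ LinearMap.range N := ⟨v', by rw [hv', LinearMap.sum_apply]⟩
    have e1 : σ v = s ⟨v, hm⟩ := LinearMap.congr_fun hσ ⟨v, hm⟩
    have e2 : N (s ⟨v, hm⟩) = v := congrArg Subtype.val (LinearMap.congr_fun hs ⟨v, hm⟩)
    rw [hTa]
    simp only [hv]
    rw [e1, ← LinearMap.sum_apply]
    exact e2
  let e := LinearEquiv.ofBijective T (bij_of_fix hG h2 ρ T hT h0)
  refine ⟨σ ∘ₗ e.symm.toLinearMap, fun v => ?_⟩
  have e3 : ∀ g, e.symm (ρ g v) = ρ g (e.symm v) := fun g => by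
    apply e.injective
    rw [e.apply_symm_apply]
    change _ = T (ρ g (e.symm v))
    rw [hT]
    exact congrArg (ρ g) (e.apply_symm_apply v).symm
  have e4 : T (e.symm v) = v := e.apply_symm_apply v
  rw [hTa] at e4
  refine Eq.trans (Finset.sum_congr rfl fun g _ => ?_) e4
  change ρ g (σ (e.symm (ρ g⁻¹ v))) = _
  rw [e3]

/-- an operator of trace one for a subgroup of odd index has trace one for the whole group -/
theorem tr_of_odd {R V G : Type} [Ring R] [AddCommGroup V] [Module R V] [Group G] [Fintype G]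
    (h2 : ∀ v : V, v + v = 0) (ρ : G →* Module.End R V) (S : Subgroup G) (hS : Odd S.index)
    (θ : V → V) (hθ : ∀ v, ∑ g : S, ρ g (θ (ρ (g : G)⁻¹ v)) = v) (v : V) :
    ∑ g, ρ g (θ (ρ g⁻¹ v)) = v := by
  have e1 : ∑ g, ρ g (θ (ρ g⁻¹ v)) =
      ∑ p : (G ⧸ S) × S, ρ (p.1.out * p.2) (θ (ρ (p.1.out * p.2)⁻¹ v)) := by
    refine (Fintype.sum_bijective (fun p : (G ⧸ S) × S => p.1.out * (p.2 : G)) ⟨?_, ?_⟩ _ _
      fun p => rfl).symm
    · rintro ⟨a, x⟩ ⟨b, y⟩ hab
      have h1 : a = b := by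
        have h := congrArg (fun z : G => (z : G ⧸ S)) hab
        simpa only [QuotientGroup.mk_mul_of_mem _ x.2, QuotientGroup.mk_mul_of_mem _ y.2,
          QuotientGroup.out_eq'] using h
      subst h1
      exact Prod.ext rfl (Subtype.ext (mul_left_cancel hab))
    · intro g
      refine ⟨⟨(g : G ⧸ S), ⟨((g : G ⧸ S).out)⁻¹ * g, ?_⟩⟩, mul_inv_cancel_left _ _⟩
      rw [← QuotientGroup.eq, QuotientGroup.out_eq']
  rw [e1, Fintype.sum_prod_type]
  have e2 : ∀ a : G ⧸ S, ∑ x : S, ρ (a.out * x) (θ (ρ (a.out * x)⁻¹ v)) = v := by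
    intro a
    have h := congrArg (ρ a.out) (hθ (ρ a.out⁻¹ v))
    rw [map_sum, ← Module.End.mul_apply (ρ a.out) (ρ a.out⁻¹), ← map_mul, mul_inv_cancel, map_one,
      Module.End.one_apply] at h
    refine Eq.trans (Finset.sum_congr rfl fun x _ => ?_) h
    rw [mul_inv_rev, map_mul, map_mul, Module.End.mul_apply, Module.End.mul_apply]
  simp only [e2]
  rw [Finset.sum_const, Finset.card_univ, ← Nat.card_eq_fintype_card]
  obtain ⟨k, hk⟩ := hS
  change S.index • v = v
  rw [hk, add_smul, one_smul, mul_comm, mul_smul, two_smul, h2, smul_zero, zero_add]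

/-- Higman's operator for a finite group, semisimple scalars -/
theorem hig_ss {R V G : Type} [Ring R] [AddCommGroup V] [Module R V] [IsSemisimpleModule R V]
    [Group G] [Fintype G] (h2 : ∀ v : V, v + v = 0) (ρ : G →* Module.End R V)
    (S : Subgroup G) (hS : IsPGroup 2 S) (hi : Odd S.index)
    (h : ∀ v, (∀ g ∈ S, ρ g v = v) → ∃ v', v = ∑ g : S, ρ g v') :
    ∃ θ : Module.End R V, (∀ v, ∑ g : S, ρ g (θ (ρ (g : G)⁻¹ v)) = v) ∧
      ∀ v, ∑ g, ρ g (θ (ρ g⁻¹ v)) = v := by
  obtain ⟨θ, hθ⟩ := hig_two hS h2 (ρ.comp S.subtype) fun v hv => h v fun g hg => hv ⟨g, hg⟩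
  exact ⟨θ, hθ, tr_of_odd h2 ρ S hi θ hθ⟩

/-- a module killed by a maximal ideal is semisimple -/
theorem ss_of_kill {O V : Type} [CommRing O] [AddCommGroup V] [Module O V] (I : Ideal O)
    [I.IsMaximal] (h : ∀ a ∈ I, ∀ v : V, a • v = 0) : IsSemisimpleModule O V := by
  have hT : Module.IsTorsionBySet O V I := fun v a => h a a.2 v
  letI := hT.module
  letI := Ideal.Quotient.field I
  exact hT.isSemisimpleModule_iff.1 inferInstance

/-- **HIG**: `V` killed by the uniformiser, `S` a Sylow `2`-subgroup whose invariants are norms -/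
theorem hig {O V G : Type} [CommRing O] [AddCommGroup V] [Module O V] [Group G] [Fintype G]
    (ϖ : O) (hϖ : (Ideal.span {ϖ}).IsMaximal) (h2 : ϖ ∣ 2) (hV : ∀ v : V, ϖ • v = 0)
    (ρ : G →* Module.End O V) (S : Subgroup G) (hS : IsPGroup 2 S) (hi : Odd S.index)
    (h : ∀ v, (∀ g ∈ S, ρ g v = v) → ∃ v', v = ∑ g : S, ρ g v') :
    ∃ θ : Module.End O V, (∀ v, ∑ g : S, ρ g (θ (ρ (g : G)⁻¹ v)) = v) ∧
      ∀ v, ∑ g, ρ g (θ (ρ g⁻¹ v)) = v := by
  have hk : ∀ a : O, ϖ ∣ a → ∀ v : V, a • v = 0 := by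
    rintro _ ⟨c, rfl⟩ v
    rw [mul_comm, mul_smul, hV, smul_zero]
  haveI := ss_of_kill (V := V) (Ideal.span {ϖ}) fun a ha => hk a (Ideal.mem_span_singleton.1 ha)
  exact hig_ss (fun v => by rw [← two_smul O v]; exact hk 2 h2 v) ρ S hS hi h

end Vale.Agent.P022D.Fm
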