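import Vale.Agent.P022D.Fm.Defs
import Vale.Agent.P022D.V.All1

/-!
# P022D, forms side: basic facts on the Hecke algebra, the carrier and the levels
-/

set_option linter.all false

open scoped MatrixGroups

noncomputable section

namespace Vale.Agent.P022D.Fm

open Vale.Agent.P022 Vale.Agent.P022D.V Vale.Agent.P027M.M
open Vale.Agent.P022D.G (Wd wT wS Inert)

/-! ### abstract part -/

section abs

variable {O A : Type} [CommRing O] [AddCommGroup A] [Module O A]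

theorem Nl_map {e f : Module.End O A} (h : Commute f e) {v : A} (hv : v ∈ Nl e) : f v ∈ Nl e := by
  obtain ⟨k, hk⟩ := mem_Nl.1 hv
  exact mem_Nl.2 ⟨k, by
    rw [← Module.End.mul_apply, ← (h.pow_right k).eq, Module.End.mul_apply, hk, map_zero]⟩

theorem mem_Pm {N : ℕ} {β : Wd N →+* Module.End O A} {a : Gen N → O} {S : Finset ℕ} {v : A} :
    v ∈ Pm β a S ↔ ∀ ℓ : PA N, ℓ.1 ∉ S → v ∈ Nl (β (wT ℓ) - algebraMap O _ (a (Sum.inl ℓ))) ∧
      v ∈ Nl (β (wS ℓ) - algebraMap O _ (a (Sum.inr ℓ))) := by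
  simp only [Pm, Submodule.mem_iInf, Submodule.mem_inf]

theorem Pm_map {N : ℕ} {β : Wd N →+* Module.End O A} {a : Gen N → O} {S : Finset ℕ}
    {f : Module.End O A} (h : ∀ X, Commute f (β X)) {v : A} (hv : v ∈ Pm β a S) :
    f v ∈ Pm β a S := mem_Pm.2 fun ℓ hl =>
  ⟨Nl_map ((h _).sub_right (Algebra.commutes _ f).symm) (mem_Pm.1 hv ℓ hl).1,
    Nl_map ((h _).sub_right (Algebra.commutes _ f).symm) (mem_Pm.1 hv ℓ hl).2⟩

/-- `Y` is stable under `H` -/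
def Stb (H : Subalgebra O (Module.End O A)) (Y : Submodule O A) : Prop :=
  ∀ h ∈ H, ∀ v ∈ Y, h v ∈ Y

variable {H : Subalgebra O (Module.End O A)} {G Y Y' : Submodule O A}

theorem Stb.inf (h : Stb H Y) (h' : Stb H Y') : Stb H (Y ⊓ Y') :=
  fun e he v hv => ⟨h e he v hv.1, h' e he v hv.2⟩

theorem Stb.iInf {ι : Sort*} {Y : ι → Submodule O A} (h : ∀ i, Stb H (Y i)) : Stb H (⨅ i, Y i) :=
  fun e he v hv => (Submodule.mem_iInf _).2 fun i => h i e he v ((Submodule.mem_iInf _).1 hv i)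

theorem Stb.sup (h : Stb H Y) (h' : Stb H Y') : Stb H (Y ⊔ Y') := fun e he v hv => by
  obtain ⟨a, ha, b, hb, rfl⟩ := Submodule.mem_sup.1 hv
  rw [map_add]
  exact Submodule.add_mem_sup (h e he a ha) (h' e he b hb)

theorem Stb.ker {f : Module.End O A} (h : ∀ e ∈ H, Commute f e) : Stb H (LinearMap.ker f) :=
  fun e he v hv => by
    rw [LinearMap.mem_ker] at hv ⊢
    rw [← Module.End.mul_apply, (h e he).eq, Module.End.mul_apply, hv, map_zero]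

theorem stb_tor (c : O) : Stb H (Tor A c) := Stb.ker fun e _ => Algebra.commutes c e

theorem stb_adjoin {s : Set (Module.End O A)} (h : ∀ e ∈ s, ∀ v ∈ Y, e v ∈ Y) :
    Stb (Algebra.adjoin O s) Y := by
  intro e he
  induction he using Algebra.adjoin_induction with
  | mem x hx => exact h x hx
  | algebraMap r => exact fun v hv => Y.smul_mem r hv
  | add x y _ _ hx hy => exact fun v hv => Y.add_mem (hx v hv) (hy v hv)
  | mul x y _ _ hx hy => exact fun v hv => hx _ (hy v hv)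

theorem BT.mul_smul (e e' : BT H G) (v : G) : (e * e') • v = e • e' • v := rfl

/-- naturality: if `f` intertwines `h` with `h` on `v` for all `h` of the algebra, then it
intertwines the completed ring -/
theorem BT.nat {f : A → A} {v v' : G} (e : BT H G) (hv : (v' : A) = f v)
    (hf : ∀ h ∈ cm H, f (h v) = h (f v)) : ((e • v' : G) : A) = f (e • v : G) := by
  classical
  obtain ⟨h, a, b⟩ := e.loc {v, v'}
  rw [BT.smul_def, BT.smul_def, b v (by simp), b v' (by simp), hv, hf h a]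

/-- an operator which commutes with the algebra and preserves `G` -/
def BT.lin (f : Module.End O A) (hf : ∀ h ∈ cm H, Commute f h) (hG : ∀ v ∈ G, f v ∈ G) :
    G →ₗ[BT H G] G where
  toFun v := ⟨f v, hG _ v.2⟩
  map_add' v w := Subtype.ext (map_add f _ _)
  map_smul' e v := Subtype.ext (BT.nat e rfl fun h hh =>
    LinearMap.congr_fun (hf h hh).eq _).symm

theorem BT.lin_coe (f : Module.End O A) (hf : ∀ h ∈ cm H, Commute f h) (hG : ∀ v ∈ G, f v ∈ G)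
    (v : G) : ((BT.lin f hf hG v : G) : A) = f v := rfl

theorem BT.smul_mem (e : BT H G) (hY : Stb (cm H) Y) {v : G} (hv : (v : A) ∈ Y) :
    ((e • v : G) : A) ∈ Y :=
  mem_of_sub ((sub H G Y).smul_mem e ((mem_sub hY).2 hv))

end abs

/-! ### groups -/

section grp

variable {M N K : ℕ}

theorem cg_refl (x : ZMod M) : V.Cg M N x x := ⟨0, by simp⟩

theorem cg_symm {x y : ZMod M} (h : V.Cg M N x y) : V.Cg M N y x := by
  obtain ⟨t, rfl⟩ := h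
  exact ⟨-t, by ring⟩

theorem cg_trans {x y z : ZMod M} (h : V.Cg M N x y) (h' : V.Cg M N y z) : V.Cg M N x z := by
  obtain ⟨t, rfl⟩ := h
  obtain ⟨s, rfl⟩ := h'
  exact ⟨s + t, by ring⟩

theorem cg_mul2 {x y x' y' : ZMod M} (h : V.Cg M N x y) (h' : V.Cg M N x' y') :
    V.Cg M N (x * x') (y * y') := by
  obtain ⟨t, rfl⟩ := h
  obtain ⟨s, rfl⟩ := h'
  exact ⟨y * s + t * y' + N * t * s, by ring⟩

theorem cg_pow {x y : ZMod M} (h : V.Cg M N x y) (n : ℕ) : V.Cg M N (x ^ n) (y ^ n) := by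
  induction n with
  | zero => simpa using cg_refl 1
  | succ n ih => rw [pow_succ, pow_succ]; exact cg_mul2 ih h

theorem cg_inv {a d : (ZMod M)ˣ} (h : V.Cg M N a d) :
    V.Cg M N (a⁻¹ : (ZMod M)ˣ) (d⁻¹ : (ZMod M)ˣ) := by
  have h1 := cg_mul2 (cg_symm h) (cg_refl ((a⁻¹ * d⁻¹ : (ZMod M)ˣ) : ZMod M))
  rwa [← Units.val_mul, ← Units.val_mul, mul_inv_cancel_left, mul_left_comm, mul_inv_cancel,
    mul_one] at h1

theorem cg_inv1 {a : (ZMod M)ˣ} (h : V.Cg M N a 1) : V.Cg M N (a⁻¹ : (ZMod M)ˣ) 1 := by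
  simpa using cg_inv (d := 1) h

theorem cg_dvd2 (h : N ∣ K) {x y : ZMod M} (hx : V.Cg M K x y) : V.Cg M N x y := Gn.Cg.of_dvd h hx

theorem cg_mod (hN : N ∣ M) {x y : ℕ} (h : V.Cg M N x y) : x ≡ y [MOD N] := by
  obtain ⟨t, ht⟩ := h
  have h1 := congrArg (ZMod.castHom hN (ZMod N)) ht
  rw [map_add, map_mul, map_natCast, map_natCast, map_natCast, ZMod.natCast_self, zero_mul,
    add_zero] at h1
  exact (ZMod.natCast_eq_natCast_iff _ _ _).1 h1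

theorem cg_of_mod {x y : ℕ} (h : x ≡ y [MOD N]) : V.Cg M N x y := by
  obtain ⟨t, ht⟩ := h.symm.dvd
  have h1 := congrArg (Int.cast : ℤ → ZMod M) ht
  push_cast at h1
  exact ⟨t, by linear_combination h1⟩

theorem dg_inv (a d : (ZMod M)ˣ) : (dg a d)⁻¹ = dg a⁻¹ d⁻¹ :=
  inv_eq_of_mul_eq_one_right (by rw [dg_mul, mul_inv_cancel, mul_inv_cancel, dg_one])

theorem dg_pow2 (a d : (ZMod M)ˣ) (n : ℕ) : dg a d ^ n = dg (a ^ n) (d ^ n) := by
  induction n with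
  | zero => rw [pow_zero, pow_zero, pow_zero, dg_one]
  | succ n ih => rw [pow_succ, ih, dg_mul, ← pow_succ, ← pow_succ]

theorem mem_Kq {g : GM M} : g ∈ Kq M K ↔ ∃ y : Matrix (Fin 2) (Fin 2) (ZMod M),
    (g : Matrix (Fin 2) (Fin 2) (ZMod M)) = 1 + (K : ZMod M) • y := by
  refine ⟨fun h => ?_, fun ⟨y, h⟩ i j => ⟨y i j, by rw [h]; rfl⟩⟩
  choose y hy using h
  exact ⟨Matrix.of y, Matrix.ext fun i j => hy i j⟩

theorem Kq_conj {g : GM M} (hg : g ∈ Kq M K) (h : GM M) : h⁻¹ * g * h ∈ Kq M K := by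
  obtain ⟨y, hy⟩ := mem_Kq.1 hg
  refine mem_Kq.2 ⟨(h⁻¹ : GM M) * y * h, ?_⟩
  rw [Units.val_mul, Units.val_mul, hy, mul_add, add_mul, mul_one, Units.inv_mul, Matrix.mul_smul,
    Matrix.smul_mul]

theorem Kq_mono (h : N ∣ K) : Kq M K ⊆ Kq M N := fun g hg i j => by
  obtain ⟨t, rfl⟩ := h
  obtain ⟨y, hy⟩ := hg i j
  exact ⟨t * y, by rw [hy, Nat.cast_mul, mul_assoc]⟩

theorem Bq_conj {g : GM M} (hg : g ∈ Bq M K) (a d : (ZMod M)ˣ) :
    (dg a d)⁻¹ * g * dg a d ∈ Bq M K := by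
  refine ⟨Kq_conj hg.1 _, ?_⟩
  rw [dg_inv, Units.val_mul, Units.val_mul, dg_coe, dg_coe]
  simp [Matrix.mul_apply, Matrix.vecMul, dotProduct, Fin.sum_univ_two, hg.2]

theorem un_dg' (a d : (ZMod M)ˣ) (x : ZMod M) :
    un x * dg a d = dg a d * un (x * ((d * a⁻¹ : (ZMod M)ˣ) : ZMod M)) := by
  rw [Gn.dg_un, mul_assoc x, ← Units.val_mul, mul_assoc, inv_mul_cancel_left, mul_inv_cancel,
    Units.val_one, mul_one]

/-- the elements which are `1` modulo `K` commute with the diagonal elements which are scalar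
modulo `N`, if `M ∣ K N` -/
theorem Kq_dg (h : M ∣ K * N) {g : GM M} (hg : g ∈ Kq M K) {a d : (ZMod M)ˣ}
    (had : V.Cg M N a d) : g * dg a d = dg a d * g := by
  obtain ⟨t, ht⟩ := had
  have h0 : (K : ZMod M) * N = 0 := by rw [← Nat.cast_mul, ZMod.natCast_eq_zero_iff]; exact h
  obtain ⟨x, hx⟩ := hg 0 1
  obtain ⟨y, hy⟩ := hg 1 0
  simp only [ne_eq, zero_ne_one, one_ne_zero, not_false_eq_true, Matrix.one_apply_ne,
    zero_add] at hx hy
  apply Units.ext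
  rw [Units.val_mul, Units.val_mul, dg_coe]
  ext i j
  fin_cases i <;> fin_cases j <;> simp [Matrix.mul_apply, Fin.sum_univ_two, mul_comm]
  · rw [hx, ht]; linear_combination (-x * t) * h0
  · rw [hy, ht]; linear_combination (y * t) * h0

end grp

/-! ### the Hecke algebra -/

section hecke

variable {O : Type} [CommRing O] [Co O] {M N i : ℕ}

theorem uP_coe (ℓ : PA M) : (uP ℓ : ZMod M) = ℓ.1 := ZMod.coe_unitOfCoprime _ _

theorem PA_two (ℓ : PA M) : ℓ.1 ≠ 2 := fun e => ℓ.2.2 (by rw [e]; exact dvd_mul_right 2 M)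

theorem bw_T (ℓ : PA M) : bw O M i (wT ℓ) = T2 O (RD O) i ℓ.1 (uP ℓ) :=
  FreeAlgebra.lift_ι_apply _ _

theorem bw_S (ℓ : PA M) : bw O M i (wS ℓ) = S2 O (RD O) i ℓ.1 (uP ℓ) :=
  FreeAlgebra.lift_ι_apply _ _

theorem rD_apply (g : GM M) (v : AM O M) : rD O g v = rt O (RD O) g v := rfl

theorem rD_mul (g h : GM M) : rD O (g * h) = rD O g * rD O h :=
  LinearMap.ext fun v => (V.rt_rt (S := O) g h v).symm

theorem rD_one : rD O (1 : GM M) = 1 := LinearMap.ext fun v => V.rt_one (S := O) v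

theorem rD_comm {g h : GM M} (e : g * h = h * g) : Commute (rD O g) (rD O h) := by
  rw [Commute, SemiconjBy, ← rD_mul, ← rD_mul, e]

/-- induction over the words -/
theorem bw_ind {p : Module.End O (AM O M) → Prop} (hT : ∀ ℓ : PA M, p (T2 O (RD O) i ℓ.1 (uP ℓ)))
    (hS : ∀ ℓ : PA M, p (S2 O (RD O) i ℓ.1 (uP ℓ))) (hc : ∀ c : O, p (algebraMap O _ c))
    (ha : ∀ x y, p x → p y → p (x + y)) (hm : ∀ x y, p x → p y → p (x * y)) (X : Wd M) :
    p (bw O M i X) := by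
  induction X using FreeAlgebra.induction with
  | grade0 r =>
    rw [eq_intCast, map_intCast, ← map_intCast (algebraMap O (Module.End O (AM O M)))]
    exact hc _
  | grade1 x =>
    rcases x with ℓ | ℓ
    · exact (bw_T (O := O) (i := i) ℓ).symm ▸ hT ℓ
    · exact (bw_S (O := O) (i := i) ℓ).symm ▸ hS ℓ
  | mul a b h1 h2 => rw [map_mul]; exact hm _ _ h1 h2
  | add a b h1 h2 => rw [map_add]; exact ha _ _ h1 h2

/-- induction over the Hecke algebra -/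
theorem HA_ind {p : Module.End O (AM O M) → Prop} (hT : ∀ ℓ : PA M, p (T2 O (RD O) i ℓ.1 (uP ℓ)))
    (hS : ∀ ℓ : PA M, p (S2 O (RD O) i ℓ.1 (uP ℓ)))
    (hd : ∀ a d : (ZMod M)ˣ, V.Cg M N a d → p (rD O (dg a d))) (hc : ∀ c : O, p (algebraMap O _ c))
    (ha : ∀ x y, p x → p y → p (x + y)) (hm : ∀ x y, p x → p y → p (x * y)) :
    ∀ h ∈ HA O M N i, p h := by
  intro h hh
  induction hh using Algebra.adjoin_induction with
  | mem x hx =>
    rcases hx with ⟨X, rfl⟩ | ⟨a, d, h1, rfl⟩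
    · exact bw_ind hT hS hc ha hm X
    · exact hd a d h1
  | algebraMap r => exact hc r
  | add x y _ _ hx hy => exact ha _ _ hx hy
  | mul x y _ _ hx hy => exact hm _ _ hx hy

theorem bw_comm {f : Module.End O (AM O M)} (hT : ∀ ℓ : PA M, Commute f (T2 O (RD O) i ℓ.1 (uP ℓ)))
    (hS : ∀ ℓ : PA M, Commute f (S2 O (RD O) i ℓ.1 (uP ℓ))) (X : Wd M) : Commute f (bw O M i X) :=
  bw_ind (p := Commute f) hT hS (fun c => (Algebra.commutes c f).symm)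
    (fun _ _ => Commute.add_right) (fun _ _ => Commute.mul_right) X

theorem HA_comm {f : Module.End O (AM O M)} (hw : ∀ X, Commute f (bw O M i X))
    (hd : ∀ a d : (ZMod M)ˣ, V.Cg M N a d → Commute f (rD O (dg a d))) :
    ∀ h ∈ HA O M N i, Commute f h :=
  HA_ind (p := Commute f) (fun ℓ => bw_T (O := O) (i := i) ℓ ▸ hw _)
    (fun ℓ => bw_S (O := O) (i := i) ℓ ▸ hw _) hd (fun c => (Algebra.commutes c f).symm)
    (fun _ _ => Commute.add_right) fun _ _ => Commute.mul_right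

theorem rD_bw (g : GM M) (X : Wd M) : Commute (rD O g) (bw O M i X) :=
  bw_comm (fun _ => LinearMap.ext fun v => rt_T2 g _ _ _ v)
    (fun _ => LinearMap.ext fun v => rt_S2 g _ _ _ v) X

theorem bw_bw (X Y : Wd M) : Commute (bw O M i X) (bw O M i Y) :=
  bw_comm (fun ℓ => (bw_comm (fun ℓ' => T2_comm i ℓ.2.1 ℓ'.2.1 (uP_coe ℓ) (uP_coe ℓ'))
      (fun _ => T2_S2_comm _ _ _ _ _ _) X).symm)
    (fun ℓ => (bw_comm (fun _ => (T2_S2_comm _ _ _ _ _ _).symm)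
      (fun _ => S2_comm _ _ _ _ _ _) X).symm) Y

theorem bw_mem (X : Wd M) : bw O M i X ∈ HA O M N i := Algebra.subset_adjoin (Or.inl ⟨X, rfl⟩)

theorem dg_HA {a d : (ZMod M)ˣ} (h : V.Cg M N a d) : rD O (dg a d) ∈ HA O M N i :=
  Algebra.subset_adjoin (Or.inr ⟨a, d, h, rfl⟩)

theorem ep_HA (k : ℕ) : ep O (RD O) M k ∈ HA O M N i :=
  (HA O M N i).zsmul_mem (dg_HA (cg_refl _)) _

theorem bw_HA (X : Wd M) : ∀ h ∈ HA O M N i, Commute (bw O M i X) h :=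
  HA_comm (bw_bw X) fun _ _ _ => (rD_bw _ X).symm

/-- translations which commute with the diagonal elements -/
theorem rD_HA {g : GM M} (hg : ∀ a d : (ZMod M)ˣ, V.Cg M N a d → g * dg a d = dg a d * g) :
    ∀ h ∈ HA O M N i, Commute (rD O g) h :=
  HA_comm (rD_bw g) fun a d h => rD_comm (hg a d h)

theorem HA_HA : ∀ a ∈ HA O M N i, ∀ b ∈ HA O M N i, a * b = b * a := fun a ha =>
  HA_comm (fun X => (bw_HA X a ha).symm) fun x y _ =>
    (rD_HA (fun _ _ _ => dg_comm _ _ _ _) a ha).symm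

/-- **the Hecke algebra is commutative** -/
theorem cm_HA : cm (HA O M N i) = HA O M N i := cm_eq HA_HA

theorem stb_HA {Y : Submodule O (AM O M)}
    (hT : ∀ ℓ : PA M, ∀ v ∈ Y, T2 O (RD O) i ℓ.1 (uP ℓ) v ∈ Y)
    (hS : ∀ ℓ : PA M, ∀ v ∈ Y, S2 O (RD O) i ℓ.1 (uP ℓ) v ∈ Y)
    (hd : ∀ a d : (ZMod M)ˣ, V.Cg M N a d → ∀ v ∈ Y, rD O (dg a d) v ∈ Y) :
    Stb (HA O M N i) Y :=
  HA_ind (p := fun h => ∀ v ∈ Y, h v ∈ Y) hT hS hd (fun c _ hv => Y.smul_mem c hv)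
    (fun _ _ hx hy v hv => Y.add_mem (hx v hv) (hy v hv)) fun _ _ hx hy v hv => hx _ (hy v hv)

/-- commutation on a stable submodule -/
theorem HA_on {P : Submodule O (AM O M)} (hP : Stb (HA O M N i) P) (f : Module.End O (AM O M))
    (hT : ∀ ℓ : PA M, ∀ v ∈ P, f (T2 O (RD O) i ℓ.1 (uP ℓ) v) = T2 O (RD O) i ℓ.1 (uP ℓ) (f v))
    (hS : ∀ ℓ : PA M, ∀ v ∈ P, f (S2 O (RD O) i ℓ.1 (uP ℓ) v) = S2 O (RD O) i ℓ.1 (uP ℓ) (f v))
    (hd : ∀ a d : (ZMod M)ˣ, V.Cg M N a d → ∀ v ∈ P, f (rD O (dg a d) v) = rD O (dg a d) (f v)) :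
    ∀ h ∈ HA O M N i, ∀ v ∈ P, f (h v) = h (f v) := fun h hh =>
  (HA_ind (p := fun h => h ∈ HA O M N i ∧ ∀ v ∈ P, f (h v) = h (f v))
    (fun ℓ => ⟨bw_T (O := O) (i := i) ℓ ▸ bw_mem _, hT ℓ⟩)
    (fun ℓ => ⟨bw_S (O := O) (i := i) ℓ ▸ bw_mem _, hS ℓ⟩) (fun a d h => ⟨dg_HA h, hd a d h⟩)
    (fun c => ⟨Subalgebra.algebraMap_mem _ c, fun v _ => map_smul f c v⟩)
    (fun x y hx hy => ⟨add_mem hx.1 hy.1, fun v hv => by
      rw [LinearMap.add_apply, LinearMap.add_apply, map_add, hx.2 v hv, hy.2 v hv]⟩)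
    (fun x y hx hy => ⟨mul_mem hx.1 hy.1, fun v hv => by
      rw [Module.End.mul_apply, Module.End.mul_apply, hx.2 _ (hP y hy.1 v hv), hy.2 v hv]⟩)
    h hh).2

theorem stb_Eg {H : Set (GM M)} {χ : GM M → O} (hH : ∀ a d : (ZMod M)ˣ, V.Cg M N a d →
    ∀ h ∈ H, ∃ h' ∈ H, χ h' = χ h ∧ h * dg a d = dg a d * h') :
    Stb (HA O M N i) (Eg O (RD O) H χ) :=
  stb_HA (fun _ _ hv => Eg_T2 _ _ _ hv) (fun _ _ hv => Eg_S2 _ _ _ hv) fun a d had v hv h hh => by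
    obtain ⟨h', h1, h2, h3⟩ := hH a d had h hh
    rw [rD_apply, V.rt_rt, h3, ← V.rt_rt, hv h' h1, map_smul, h2]

theorem stb_Iv {H : Set (GM M)} (hH : ∀ a d : (ZMod M)ˣ, V.Cg M N a d →
    ∀ h ∈ H, (dg a d)⁻¹ * h * dg a d ∈ H) : Stb (HA O M N i) (Iv O (RD O) H) :=
  stb_Eg fun a d had h hh => ⟨_, hH a d had h hh, rfl, by group⟩

theorem stb_Kq (K : ℕ) : Stb (HA O M N i) (Iv O (RD O) (Kq M K)) :=
  stb_Iv fun _ _ _ _ hh => Kq_conj hh _

theorem stb_Bq (K : ℕ) : Stb (HA O M N i) (Iv O (RD O) (Bq M K)) :=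
  stb_Iv fun _ _ _ _ hh => Bq_conj hh _ _

theorem stb_Uq (K : ℕ) : Stb (HA O M N i) (Iv O (RD O) (Uq M K)) :=
  stb_Eg fun a d _ _ ⟨x, hx⟩ => ⟨_, ⟨x * ((d * a⁻¹ : (ZMod M)ˣ) : ZMod M), rfl⟩, rfl, by
    rw [← hx, un_dg', mul_assoc]⟩

/-- eigenvectors of sets of diagonal elements -/
theorem stb_dg {H : Set (GM M)} (χ : GM M → O) (hH : ∀ h ∈ H, ∃ a d, h = dg a d) :
    Stb (HA O M N i) (Eg O (RD O) H χ) :=
  stb_Eg fun _ _ _ h hh => ⟨h, hh, rfl, by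
    obtain ⟨a, d, rfl⟩ := hH h hh
    exact dg_comm _ _ _ _⟩

theorem stb_Od : Stb (HA O M N i) (Od O M (RD O)) :=
  stb_HA (fun ℓ _ hv => Od_T2 _ (ℓ.2.1.odd_of_ne_two (PA_two ℓ)) _ hv)
    (fun _ _ hv => Od_S2 _ _ _ hv) fun _ _ _ _ hv => Od_rt _ hv

theorem stb_wh [NeZero M] (hN : N ∣ M) {z : O} (hz : z ^ N = 1) (c : ℕ) : Stb (HA O M N i)
    (⨅ x : ℕ, LinearMap.ker (z ^ (c * x) • rD O (un ((c * x : ℕ) : ZMod M)) - 1)) := by
  have key : ∀ X v, v ∈ (⨅ x : ℕ, LinearMap.ker (z ^ (c * x) • rD O (un ((c * x : ℕ) : ZMod M)) - 1)) →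
      bw O M i X v ∈ ⨅ x : ℕ, LinearMap.ker (z ^ (c * x) • rD O (un ((c * x : ℕ) : ZMod M)) - 1) :=
    fun X v hv => (Submodule.mem_iInf _).2 fun x => by
      have h := (Submodule.mem_iInf _).1 hv x
      rw [LinearMap.mem_ker] at h ⊢
      rw [← Module.End.mul_apply, (((rD_bw _ X).smul_left _).sub_left (Commute.one_left _)).eq,
        Module.End.mul_apply, h, map_zero]
  refine stb_HA (fun ℓ v hv => bw_T (O := O) (i := i) ℓ ▸ key _ v hv)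
    (fun ℓ v hv => bw_S (O := O) (i := i) ℓ ▸ key _ v hv) fun a d had v hv =>
      (Submodule.mem_iInf _).2 fun x => ?_
  have h := (Submodule.mem_iInf _).1 hv ((x : ZMod M) * ((d * a⁻¹ : (ZMod M)ˣ) : ZMod M)).val
  have e : x ≡ ((x : ZMod M) * ((d * a⁻¹ : (ZMod M)ˣ) : ZMod M)).val [MOD N] := cg_mod hN (by
    have h1 := cg_mul2 (cg_refl (x : ZMod M)) (cg_mul2 had (cg_refl ((a⁻¹ : (ZMod M)ˣ) : ZMod M)))
    rwa [Units.mul_inv, mul_one, ← Units.val_mul, ← ZMod.natCast_zmod_val ((x : ZMod M) * _)] at h1)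
  rw [LinearMap.mem_ker, LinearMap.sub_apply, LinearMap.smul_apply, sub_eq_zero,
    Module.End.one_apply] at h ⊢
  rw [← Module.End.mul_apply, ← rD_mul, un_dg', rD_mul, Module.End.mul_apply, ← map_smul,
    pow_eq_pow_of_modEq (e.mul_left c) hz, Nat.cast_mul, mul_assoc]
  rw [Nat.cast_mul, ZMod.natCast_zmod_val] at h
  rw [h]

theorem Wh_eq (z : O) : Wh O (RD O) M z =
    ⨅ x : ℕ, LinearMap.ker (z ^ (1 * x) • rD O (un ((1 * x : ℕ) : ZMod M)) - 1) := by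
  ext v
  simp only [one_mul, Submodule.mem_iInf, LinearMap.mem_ker, LinearMap.sub_apply,
    LinearMap.smul_apply, sub_eq_zero, Module.End.one_apply]
  rfl

theorem stb_Wh [NeZero M] (hN : N ∣ M) {z : O} (hz : z ^ N = 1) :
    Stb (HA O M N i) (Wh O (RD O) M z) := Wh_eq (M := M) z ▸ stb_wh hN hz 1

theorem XD_rD (hM : Odd M) (h3 : 3 ≤ M) (g : GM M) : ∀ v ∈ XD O M i, rD O g v ∈ XD O M i :=
  fun v hv => ((All.div O M hM h3).2.2.2.1 i v hv).2.1 g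

theorem stb_XD (hM : Odd M) (h3 : 3 ≤ M) : Stb (HA O M N i) (XD O M i) :=
  stb_HA (fun ℓ v hv => ((All.hkv O M i ℓ.1 _ hM ℓ.2.1 (PA_two ℓ) (uP_coe ℓ)).2.2 v hv).1)
    (fun ℓ v hv => ((All.hkv O M i ℓ.1 _ hM ℓ.2.1 (PA_two ℓ) (uP_coe ℓ)).2.2 v hv).2)
    fun _ _ _ => XD_rD hM h3 _

theorem stb_Pm (a : Gen M → O) (S : Finset ℕ) : Stb (HA O M N i) (Pm (bw O M i) a S) :=
  fun h hh _ hv => Pm_map (fun X => (bw_HA X h hh).symm) hv

end hecke

/-! ### the carrier -/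

section car

variable {O F : Type} [CommRing O] [Field F] [Co O] {U : Su O F} {M : ℕ}

theorem stb_XP (hM : Odd M) (h3 : 3 ≤ M) (N : ℕ) (S : Finset ℕ) :
    Stb (HA O M N U.i) (U.XP M S) := (stb_XD hM h3).inf (stb_Pm _ _)

theorem stb_GG (hM : Odd M) (h3 : 3 ≤ M) (N : ℕ) : Stb (HA O M N U.i) (U.GG M) :=
  stb_XP hM h3 N ∅

theorem XP_rD (hM : Odd M) (h3 : 3 ≤ M) (S : Finset ℕ) (g : GM M) :
    ∀ v ∈ U.XP M S, rD O g v ∈ U.XP M S :=
  fun v hv => ⟨XD_rD hM h3 g v hv.1, Pm_map (rD_bw g) hv.2⟩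

theorem GG_rD (hM : Odd M) (h3 : 3 ≤ M) (g : GM M) : ∀ v ∈ U.GG M, rD O g v ∈ U.GG M :=
  XP_rD hM h3 ∅ g

theorem GG_ep (hM : Odd M) (h3 : 3 ≤ M) (k : ℕ) : ∀ v ∈ U.GG M, ep O (RD O) M k v ∈ U.GG M :=
  stb_GG hM h3 0 _ (ep_HA k)

theorem GG_le : U.GG M ≤ XD O M U.i := inf_le_left

theorem GG_tor (hM : Odd M) (h3 : 3 ≤ M) (v : U.GG M) : ∃ n : ℕ, (2 : O) ^ n • v = 0 := by
  obtain ⟨n, hn⟩ := ((All.div O M hM h3).2.2.2.1 U.i v v.2.1).1
  exact ⟨n, Subtype.ext hn⟩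

theorem mem_sb {Y : Submodule O (AM O M)} (hY : Stb (HA O M U.N U.i) Y) {v : U.GG M} :
    v ∈ U.sb M Y ↔ (v : AM O M) ∈ Y := mem_sub (by rw [cm_HA]; exact hY)

theorem smul_stb {Y : Submodule O (AM O M)} (hY : Stb (HA O M U.N U.i) Y) (e : U.B M)
    {v : U.GG M} (hv : (v : AM O M) ∈ Y) : ((e • v : U.GG M) : AM O M) ∈ Y :=
  (mem_sb hY).1 ((U.sb M Y).smul_mem e ((mem_sb hY).2 hv))

theorem B_loc (e : U.B M) (s : Finset (U.GG M)) :
    ∃ h ∈ HA O M U.N U.i, ∀ v ∈ s, ((e • v : U.GG M) : AM O M) = h v := by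
  have h := e.loc s
  rwa [cm_HA] at h

theorem B_nat {f : AM O M → AM O M} {v v' : U.GG M} (e : U.B M) (hv : (v' : AM O M) = f v)
    (hf : ∀ h ∈ HA O M U.N U.i, f (h v) = h (f v)) :
    ((e • v' : U.GG M) : AM O M) = f (e • v : U.GG M) := BT.nat e hv (by rw [cm_HA]; exact hf)

/-- translations commute with the ring -/
theorem B_rD {g : GM M} (hg : ∀ a d : (ZMod M)ˣ, V.Cg M U.N a d → g * dg a d = dg a d * g)
    {v v' : U.GG M} (e : U.B M) (hv : (v' : AM O M) = rD O g v) :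
    ((e • v' : U.GG M) : AM O M) = rD O g (e • v : U.GG M) :=
  B_nat e hv fun h hh => LinearMap.congr_fun (rD_HA hg h hh).eq _

/-- an element of the Hecke algebra as an element of the ring -/
def toB (hM : Odd M) (h3 : 3 ≤ M) (h : Module.End O (AM O M)) (hh : h ∈ HA O M U.N U.i) : U.B M :=
  BT.res h (by rw [cm_HA]; exact hh) (stb_GG hM h3 _ h hh)

theorem toB_smul (hM : Odd M) (h3 : 3 ≤ M) (h : Module.End O (AM O M)) (hh : h ∈ HA O M U.N U.i)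
    (v : U.GG M) : ((toB hM h3 h hh • v : U.GG M) : AM O M) = h v := rfl

variable (U) in
/-- a translation as a linear map over the ring -/
def rB (hM : Odd M) (h3 : 3 ≤ M) (g : GM M)
    (hg : ∀ a d : (ZMod M)ˣ, V.Cg M U.N a d → g * dg a d = dg a d * g) :
    U.GG M →ₗ[U.B M] U.GG M :=
  BT.lin (rD O g) (by rw [cm_HA]; exact rD_HA hg) (GG_rD hM h3 g)

theorem rB_coe (hM : Odd M) (h3 : 3 ≤ M) (g : GM M)
    (hg : ∀ a d : (ZMod M)ˣ, V.Cg M U.N a d → g * dg a d = dg a d * g) (v : U.GG M) :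
    ((rB U hM h3 g hg v : U.GG M) : AM O M) = rD O g v := rfl

theorem Kq_NC (hN : U.N ∣ M) {g : GM M} (hg : g ∈ Kq M (M / U.NC)) (a d : (ZMod M)ˣ)
    (h : V.Cg M U.N a d) : g * dg a d = dg a d * g := by
  refine Kq_dg ?_ hg h
  rw [Su.N, mul_comm U.NW, ← mul_assoc, Nat.div_mul_cancel ((dvd_mul_left _ _).trans hN)]
  exact dvd_mul_right _ _

theorem stb_Ce (N K : ℕ) : Stb (HA O M N U.i) (U.Ce M K) :=
  stb_dg _ fun _ ⟨a, _, h⟩ => ⟨a, a, h⟩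

theorem stb_TQ (N n : ℕ) : Stb (HA O M N U.i) (Iv O (RD O) (U.TQ M n)) :=
  stb_dg _ fun _ ⟨_, _, _, _, h⟩ => ⟨_, _, h⟩

theorem mem_WhP {v : AM O M} : v ∈ U.WhP M ↔
    ∀ x : ℕ, U.z ^ (U.NC * x) • rD O (un ((U.NC * x : ℕ) : ZMod M)) v = v := by
  simp only [Su.WhP, Submodule.mem_iInf, LinearMap.mem_ker, LinearMap.sub_apply,
    LinearMap.smul_apply, sub_eq_zero, Module.End.one_apply]

theorem mem_Ce {K : ℕ} {v : AM O M} : v ∈ U.Ce M K ↔
    ∀ a : (ZMod M)ˣ, V.Cg M K a 1 → rD O (dg a a) v = U.om (a : ZMod M).val • v :=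
  ⟨fun h a ha => h _ ⟨a, ha, rfl⟩, fun h _ ⟨a, ha, e⟩ => e ▸ h a ha⟩

theorem mem_TQ {n : ℕ} {v : AM O M} : v ∈ Iv O (RD O) (U.TQ M n) ↔
    ∀ a d : (ZMod M)ˣ, V.Cg M U.N a 1 → V.Cg M U.N d 1 →
      rD O (dg (a ^ 2 ^ n) (d ^ 2 ^ n)) v = v :=
  V.mem_Iv.trans ⟨fun h a d ha hd => h _ ⟨a, d, ha, hd, rfl⟩,
    fun h _ ⟨a, d, ha, hd, e⟩ => e ▸ h a d ha hd⟩

theorem Wh_le_WhP : Wh O (RD O) M U.z ≤ U.WhP M := fun _ hv => mem_WhP.2 fun _ => hv _

theorem Zw_le_Zp (n : ℕ) : U.Zw M n ≤ U.Zp M n := fun _ hv => ⟨⟨hv.1.1, Wh_le_WhP hv.1.2⟩, hv.2⟩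

theorem stb_WhP [NeZero M] (hN : U.N ∣ M) (hz : U.z ^ U.N = 1) :
    Stb (HA O M U.N U.i) (U.WhP M) := stb_wh hN hz _

theorem stb_Zp [NeZero M] (hN : U.N ∣ M) (hz : U.z ^ U.N = 1) (n : ℕ) :
    Stb (HA O M U.N U.i) (U.Zp M n) := ((stb_Ce _ _).inf (stb_WhP hN hz)).inf (stb_TQ _ _)

theorem stb_Zw [NeZero M] (hN : U.N ∣ M) (hz : U.z ^ U.N = 1) (n : ℕ) :
    Stb (HA O M U.N U.i) (U.Zw M n) := ((stb_Ce _ _).inf (stb_Wh hN hz)).inf (stb_TQ _ _)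

theorem mem_Wb [NeZero M] (hN : U.N ∣ M) (hz : U.z ^ U.N = 1) {n : ℕ} {v : U.GG M} :
    v ∈ U.Wb M n ↔ (v : AM O M) ∈ U.Zp M n ∧ U.ϖ • (v : AM O M) = 0 :=
  mem_sb ((stb_Zp hN hz n).inf (stb_tor _))

theorem exists_isU (hM : Odd M) (h3 : 3 ≤ M) {a d : (ZMod M)ˣ} (h : V.Cg M U.N a d) :
    ∃ e : U.B M, Su.IsU e (dg a d) := ⟨toB hM h3 _ (dg_HA h), fun _ => rfl⟩

namespace Su.IsU

variable {e e' : U.B M} {g g' : GM M}

theorem one : Su.IsU (1 : U.B M) 1 := fun v => by rw [one_smul, rD_one]; rfl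

theorem mul (h : Su.IsU e g) (h' : Su.IsU e' g') : Su.IsU (e * e') (g * g') := fun v => by
  rw [BT.mul_smul, h, h', rD_mul]; rfl

theorem pow (h : Su.IsU e g) (n : ℕ) : Su.IsU (e ^ n) (g ^ n) := by
  induction n with
  | zero => rw [pow_zero, pow_zero]; exact one
  | succ n ih => rw [pow_succ, pow_succ]; exact ih.mul h

theorem uniq (h : Su.IsU e g) (h' : Su.IsU e' g) : e = e' :=
  BT.ext fun v => Subtype.ext ((h v).trans (h' v).symm)

theorem mul_eq_one (h : Su.IsU e g) (h' : Su.IsU e' g⁻¹) : e * e' = 1 :=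
  (h.mul h').uniq (by rw [mul_inv_cancel]; exact one)

theorem inv (h : Su.IsU e g) (h' : e' * e = 1) : Su.IsU e' g⁻¹ := fun v => by
  have h1 : ((e • e' • v : U.GG M) : AM O M) = v := by rw [← mul_smul, mul_comm, h', one_smul]
  rw [← h1, h, ← Module.End.mul_apply, ← rD_mul, inv_mul_cancel, rD_one]
  rfl

theorem prod {ι : Type} (s : Finset ι) {e : ι → U.B M} {a d : ι → (ZMod M)ˣ}
    (h : ∀ j ∈ s, Su.IsU (e j) (dg (a j) (d j))) :
    Su.IsU (∏ j ∈ s, e j) (dg (∏ j ∈ s, a j) (∏ j ∈ s, d j)) := by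
  classical
  induction s using Finset.induction_on with
  | empty => rw [Finset.prod_empty, Finset.prod_empty, Finset.prod_empty, dg_one]; exact one
  | insert j s hj ih =>
    rw [Finset.prod_insert hj, Finset.prod_insert hj, Finset.prod_insert hj, ← dg_mul]
    exact (h j (Finset.mem_insert_self _ _)).mul (ih fun k hk => h k (Finset.mem_insert_of_mem hk))

end Su.IsU

theorem isU_unit (hM : Odd M) (h3 : 3 ≤ M) {a d : (ZMod M)ˣ} (h : V.Cg M U.N a d) {e : U.B M}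
    (he : Su.IsU e (dg a d)) : IsUnit e := by
  obtain ⟨e', he'⟩ := exists_isU (U := U) hM h3 (cg_inv h)
  exact IsUnit.of_mul_eq_one e' (he.mul_eq_one (dg_inv a d ▸ he'))

end car

/-! ### levels -/

section lev

variable {O F : Type} [CommRing O] [Field F] [IsLocalRing O] [Co O] {U : Su O F}

namespace Su.Ok

variable (h : U.Ok)
include h

theorem prC {l : ℕ} (hl : l ∈ U.L.C) : l.Prime ∧ l ≠ 2 :=
  h.ok.pr l (Finset.mem_union_right _ hl)

theorem prW {l : ℕ} (hl : l ∈ U.L.W) : l.Prime ∧ l ≠ 2 :=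
  h.ok.pr l (Finset.mem_union_left _ hl)

theorem dvdNC {l : ℕ} (hp : l.Prime) : l ∣ U.NC ↔ l ∈ U.L.C := by
  rw [h.NC, hp.prime.dvd_finset_prod_iff]
  exact ⟨fun ⟨a, ha, e⟩ => (Nat.prime_dvd_prime_iff_eq hp (h.prC ha).1).1 e ▸ ha,
    fun hl => ⟨l, hl, dvd_rfl⟩⟩

theorem dvdN {l : ℕ} (hp : l.Prime) : l ∣ U.N ↔ l ∈ U.L.W ∪ U.L.C := by
  rw [Su.N, hp.dvd_mul, h.NW l hp, h.dvdNC hp, Finset.mem_union]

theorem memT {l : ℕ} (hp : l.Prime) : l ∈ U.S.T ↔ l ∣ 2 * U.N := by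
  rw [h.ok.hT, hp.dvd_mul, h.dvdN hp, Nat.prime_dvd_prime_iff_eq hp Nat.prime_two,
    Finset.mem_insert, Finset.mem_insert]
  exact or_iff_right hp.ne_zero

theorem NCne : U.NC ≠ 0 := by
  rw [h.NC]; exact Finset.prod_ne_zero_iff.2 fun l hl => (h.prC hl).1.ne_zero

theorem Nne : U.N ≠ 0 := mul_ne_zero h.NW0 h.NCne

theorem odd : Odd U.N := Nat.not_even_iff_odd.1 fun e =>
  (h.ok.pr 2 ((h.dvdN Nat.prime_two).1 e.two_dvd)).2 rfl

theorem three : 3 ≤ U.N := by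
  have key : ∀ l ∈ U.L.W ∪ U.L.C, 3 ≤ U.N := fun l hl => by
    obtain ⟨p1, p2⟩ := h.ok.pr l hl
    have h1 := Nat.le_of_dvd (Nat.pos_of_ne_zero h.Nne) ((h.dvdN p1).2 hl)
    have h2 := p1.two_le
    omega
  rcases h.W3 with ⟨l, hl⟩ | ⟨l, hl, -⟩
  · exact key l (Finset.mem_union_left _ hl)
  · exact key l (Finset.mem_union_right _ hl)

theorem cop : Nat.Coprime U.NW U.NC := Nat.coprime_of_dvd fun l hp h1 h2 =>
  Finset.disjoint_left.1 h.ok.dj ((h.NW l hp).1 h1) ((h.dvdNC hp).1 h2)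

theorem zN : U.z ^ U.N = 1 := by
  obtain ⟨r1, r2, -⟩ := root O U.N h.odd
  apply (Co.inj : Function.Injective (Co.j : O →+* ℂ))
  rw [map_pow, h.z, ← r1, ← map_pow, r2.pow, map_one, map_one]

theorem sq_NC {l : ℕ} (hl : l ∈ U.L.C) : ¬ l ∣ U.NC / l := by
  classical
  have p := (h.prC hl).1
  rw [h.NC, ← Finset.mul_prod_erase _ (fun l => l) hl, Nat.mul_div_cancel_left _ p.pos,
    p.prime.dvd_finset_prod_iff]
  rintro ⟨a, ha, e⟩
  obtain ⟨a1, a2⟩ := Finset.mem_erase.1 ha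
  exact a1 ((Nat.prime_dvd_prime_iff_eq p (h.prC a2).1).1 e).symm

/-- the primes of `C` divide every level exactly once -/
theorem spC {M Q : ℕ} (hM : Odd M) (e : M = U.N * Q) (hQ : Nat.Coprime U.N Q) {l : ℕ}
    (hl : l ∈ U.L.C) : Sp M (M / l) l := by
  have p := (h.prC hl).1
  have d := (h.dvdNC p).2 hl
  have d' : l ∣ U.N := d.mul_left _
  refine ⟨(Nat.div_mul_cancel (e ▸ d'.mul_right Q)).symm, ?_, p, hM⟩
  rw [e, Su.N, mul_right_comm, Nat.mul_div_assoc _ d, Nat.coprime_comm, p.coprime_iff_not_dvd,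
    p.dvd_mul, p.dvd_mul]
  rintro ((h1 | h1) | h1)
  · exact Finset.disjoint_left.1 h.ok.dj ((h.NW l p).1 h1) hl
  · exact p.ne_one (Nat.eq_one_of_dvd_coprimes hQ d' h1)
  · exact h.sq_NC hl h1

end Su.Ok

namespace Lv

variable {r n M : ℕ} {q : Fin r → ℕ} {b : Fin r → (ZMod M)ˣ} {τ : Fin r → GQ}
  (h : U.Ok) (H : Lv U r n M q b τ)

include H in
theorem dvd : U.N ∣ M := ⟨_, H.eq⟩

include H in
theorem div_eq (i : Fin r) : M / q i = U.N * ∏ j ∈ Finset.univ.erase i, q j := by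
  rw [H.eq, ← Finset.mul_prod_erase _ q (Finset.mem_univ i), mul_left_comm,
    Nat.mul_div_cancel_left _ (H.pr i).1.pos]

include H in
theorem dvd_div (i : Fin r) : U.N ∣ M / q i := ⟨_, H.div_eq i⟩

include H in
theorem q_dvd (i : Fin r) : q i ∣ M :=
  H.eq ▸ (Finset.dvd_prod_of_mem q (Finset.mem_univ i)).mul_left _

include H in
theorem q_dvd_div {i j : Fin r} (e : i ≠ j) : q i ∣ M / q j :=
  H.div_eq j ▸ (Finset.dvd_prod_of_mem q (Finset.mem_erase.2 ⟨e, Finset.mem_univ i⟩)).mul_left _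

include H in
theorem bN (i : Fin r) : V.Cg M U.N (b i) 1 := cg_dvd2 (H.dvd_div i) (H.b1 i)

include h H

theorem nd (i : Fin r) : ¬ q i ∣ 2 * U.N := fun e => (H.pr i).2 ((h.memT (H.pr i).1).2 e)

theorem q_two (i : Fin r) : q i ≠ 2 := fun e => H.nd h i (by rw [e]; exact dvd_mul_right _ _)

theorem q_odd (i : Fin r) : Odd (q i) := (H.pr i).1.odd_of_ne_two (H.q_two h i)

theorem odd : Odd M := by
  rw [H.eq]
  exact h.odd.mul (Finset.prod_induction q Odd (fun _ _ => Odd.mul) odd_one fun i _ => H.q_odd h i)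

theorem three : 3 ≤ M := h.three.trans (Nat.le_of_dvd (H.odd h).pos H.dvd)

theorem cop : Nat.Coprime U.N (∏ i, q i) := Nat.Coprime.prod_right fun i _ =>
  ((H.pr i).1.coprime_iff_not_dvd.2 fun e => H.nd h i (e.mul_left 2)).symm

theorem sp (i : Fin r) : Sp M (M / q i) (q i) := by
  have p := (H.pr i).1
  refine ⟨(Nat.div_mul_cancel (H.q_dvd i)).symm, ?_, p, H.odd h⟩
  rw [H.div_eq, Nat.coprime_comm, p.coprime_iff_not_dvd, p.dvd_mul, p.prime.dvd_finset_prod_iff]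
  rintro (e | ⟨j, hj, e⟩)
  · exact H.nd h i (e.mul_left 2)
  · exact (Finset.mem_erase.1 hj).1 (H.inj ((Nat.prime_dvd_prime_iff_eq p (H.pr j).1).1 e)).symm

theorem three_div (i : Fin r) : 3 ≤ M / q i := h.three.trans
  (Nat.le_of_dvd (Nat.pos_of_mul_pos_right ((H.sp h i).eq ▸ (H.odd h).pos)) (H.dvd_div i))

theorem spC {l : ℕ} (hl : l ∈ U.L.C) : Sp M (M / l) l := h.spC (H.odd h) H.eq (H.cop h) hl

theorem exists_isDia : ∃ u : Fin r ⊕ Fin r → U.B M, IsDia b u := by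
  choose u1 h1 using fun i => exists_isU (U := U) (H.odd h) (H.three h) (a := 1) (d := b i)
    (cg_symm (H.bN i))
  choose u2 h2 using fun i => exists_isU (U := U) (H.odd h) (H.three h) (a := b i) (d := (b i)⁻¹)
    (cg_trans (H.bN i) (cg_symm (cg_inv1 (H.bN i))))
  exact ⟨Sum.elim u1 u2, fun i => ⟨h1 i, h2 i⟩⟩

end Lv

/-- the base level is a level -/
theorem lv_zero (n : ℕ) (q : Fin 0 → ℕ) (b : Fin 0 → (ZMod U.N)ˣ) (τ : Fin 0 → GQ) :
    Lv U 0 n U.N q b τ :=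
  ⟨fun i => i.elim0, fun i => i.elim0, by simp, fun i => i.elim0, fun i => i.elim0,
    fun i => i.elim0, fun i => i.elim0, fun i => i.elim0, fun i => i.elim0⟩

end lev

end Vale.Agent.P022D.Fm
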