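import Vale.Agent.P022D.Fm.Rows
import Vale.Agent.P022D.Fm.Det
import Vale.Agent.P022D.W.CutB

/-!
# P022D, forms side: the projectors on the components and the grading of the carrier
-/

set_option linter.all false

noncomputable section

namespace Vale.Agent.P022D.Fm

open Classical Finset
open Vale.Agent.P022 Vale.Agent.P022.H853 Vale.Agent.P022D.V Vale.Agent.P027M.M
open Vale.Agent.P022D.G (Wd wT wS Inert)
open Vale.Agent.P022D.W.Step (kl Cs Deg law_deg mem_kl1)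
open Vale.Agent.P022D.Loc (Cw Sy)

section abs

theorem nil2 {B X Δ : Type*} [CommRing B] [AddCommGroup X] [Module B X] [CommGroup Δ]
    {pj : Δ → X →+ X} {x y : B} {δ : Δ} {a : ℕ} (hδ : δ ^ 2 ^ a = 1) (hx : Deg ⊤ pj x δ)
    (hy : Deg ⊤ pj y 1) (c : Δ) {v : X} (h2 : ∃ s : ℕ, 2 ^ s • v = 0)
    (h0 : ∃ n : ℕ, (x - y) ^ n • v = 0) : ∃ n : ℕ, (x - y) ^ n • pj c v = 0 := by
  obtain ⟨n, hn⟩ := h0
  obtain ⟨s, hs⟩ := h2
  have e : ∀ j : ℕ, (2 : B) ∣ (x - y) ^ 2 ^ j - (x ^ 2 ^ j - y ^ 2 ^ j) := fun j => by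
    induction j with
    | zero => simp
    | succ j ih =>
      obtain ⟨c, hc⟩ := ih
      refine ⟨2 * c ^ 2 + 2 * c * (x ^ 2 ^ j - y ^ 2 ^ j) + (y ^ 2 ^ j) ^ 2 -
        x ^ 2 ^ j * y ^ 2 ^ j, ?_⟩
      rw [pow_succ, pow_mul, pow_mul, pow_mul, eq_add_of_sub_eq hc]
      ring
  have h1 := hx.pow (2 ^ a)
  have h3 := hy.pow (2 ^ a)
  rw [hδ] at h1
  rw [one_pow] at h3
  have h4 := (h1.sub h3).pow n
  rw [one_pow] at h4
  let I := Ideal.torsionOf B X (pj c v)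
  have r1 : x ^ 2 ^ a - y ^ 2 ^ a ∈ I.radical := ⟨n, (Ideal.mem_torsionOf_iff _ _).2 (by
    refine h4.ker c trivial ?_
    obtain ⟨z, hz⟩ := sub_dvd_pow_sub_pow x y (2 ^ a)
    rw [hz, mul_pow, mul_comm, mul_smul, hn, smul_zero])⟩
  have r2 : (2 : B) ∈ I.radical := ⟨s, (Ideal.mem_torsionOf_iff _ _).2 (by
    rw [show (2 : B) ^ s = ((2 ^ s : ℕ) : B) by push_cast; rfl, Nat.cast_smul_eq_nsmul,
      ← map_nsmul, hs, map_zero])⟩
  obtain ⟨z, hz⟩ := e a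
  have r3 : (x - y) ^ 2 ^ a ∈ I.radical := by
    rw [eq_add_of_sub_eq hz]
    exact I.radical.add_mem (I.radical.mul_mem_right _ r2) r1
  obtain ⟨k, hk⟩ := r3
  exact ⟨2 ^ a * k, by rw [pow_mul]; exact (Ideal.mem_torsionOf_iff _ _).1 hk⟩

variable {O A Δ : Type} [CommRing O] [AddCommGroup A] [Module O A] [CommGroup Δ]

theorem Nl_pj (P : Δ → Module.End O A) {T : Module.End O A} {δ : Δ} {a : ℕ} (hδ : δ ^ 2 ^ a = 1)
    (hT : ∀ c v, P (c * δ) (T v) = T (P c v)) (o : O) (c : Δ) {v : A}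
    (h2 : ∃ s : ℕ, 2 ^ s • v = 0) (hv : v ∈ Nl (T - algebraMap O _ o)) :
    P c v ∈ Nl (T - algebraMap O _ o) := by
  letI : Module (Polynomial O) A := Module.compHom A (Polynomial.aeval T).toRingHom
  have e : ∀ (p : Polynomial O) (v : A), p • v = Polynomial.aeval T p v := fun _ _ => rfl
  have k : ∀ (n : ℕ) (v : A), (Polynomial.X - Polynomial.C o : Polynomial O) ^ n • v =
      ((T - algebraMap O _ o) ^ n) v := fun n v => by
    rw [e, map_pow, map_sub, Polynomial.aeval_X, Polynomial.aeval_C]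
  rw [mem_Nl] at hv ⊢
  simp only [← k] at hv ⊢
  exact nil2 (pj := fun c => (P c).toAddMonoidHom) hδ
    (fun c v _ => by rw [e, e, Polynomial.aeval_X]; exact hT c v)
    (fun c v _ => by
      rw [e, e, Polynomial.aeval_C, mul_one]
      exact (P c).map_smul o v) c h2 hv

/-- the operators of the completed Hecke ring -/
def BT.opR (H : Subalgebra O (Module.End O A)) (G : Submodule O A) : BT H G →+* Module.End O G :=
  (LS (cm H) G).val.toRingHom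

end abs

variable {O F : Type} [CommRing O] [Field F] [Co O]

theorem bw_T' {M i : ℕ} (ℓ : PA M) : bw O M i (wT ℓ) = T2 O (RD O) i ℓ.1 (uP ℓ) :=
  FreeAlgebra.lift_ι_apply _ _

theorem bw_S' {M i : ℕ} (ℓ : PA M) : bw O M i (wS ℓ) = S2 O (RD O) i ℓ.1 (uP ℓ) :=
  FreeAlgebra.lift_ι_apply _ _

section gen

variable {M : ℕ} {Δ : Type} [CommGroup Δ] (ν : (ZMod M)ˣ →* Δ)

variable (U : Su O F)

/-- the projectors on the carrier -/
def pjG (δ : Δ) : U.GG M →+ U.GG M :=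
  if h : ∀ v ∈ U.GG M, pj O (RD O) ν δ v ∈ U.GG M then
    ((pj O (RD O) ν δ).restrict h).toAddMonoidHom else 0

variable {ν U}

theorem pj_GG [NeZero M] (hz : Co.j U.z = ze U.N 1) (hN : U.N ∣ M)
    (h1 : ∀ a, ZMod.unitsMap hN a = 1 → ν a = 1) {a : ℕ} (h2 : ∀ x, ν x ^ 2 ^ a = 1)
    (ht : ∀ v ∈ U.GG M, ∃ s : ℕ, (2 : O) ^ s • v = 0) (δ : Δ) :
    ∀ v ∈ U.GG M, pj O (RD O) ν δ v ∈ U.GG M := by
  intro v hv
  have hM := NeZero.ne M
  have hN0 : U.N ≠ 0 := ne_zero_of_dvd_ne_zero hM hN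
  haveI : NeZero U.N := ⟨hN0⟩
  refine ⟨XD_tw (gi_ind ν δ fun σ hσ x hx => h1 x ?_) hv.1, ?_⟩
  · obtain ⟨Q, hQ⟩ := hN
    have hQ0 : Q ≠ 0 := by rintro rfl; exact hM (by rw [hQ, mul_zero])
    have e : ze M 1 ^ Q = ze U.N 1 := by
      rw [ze, ze, ← Complex.exp_nat_mul, hQ]
      congr 1
      have : (Q : ℂ) ≠ 0 := Nat.cast_ne_zero.2 hQ0
      push_cast
      field_simp
    have p : IsPrimitiveRoot (ze U.N 1) U.N := by
      simpa [ze] using Complex.isPrimitiveRoot_exp U.N hN0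
    have e2 : ze U.N 1 ^ (x : ZMod M).val = ze U.N 1 ^ 1 := by
      rw [pow_one]
      conv_rhs => rw [← hz, ← hσ, hz, ← e, map_pow, hx, ← pow_mul, mul_comm, pow_mul, e]
    have e3 := (p.isOfFinOrder hN0).pow_eq_pow_iff_modEq.1 e2
    rw [← p.eq_orderOf] at e3
    apply Units.ext
    rw [ZMod.unitsMap_val, ← ZMod.natCast_val, (ZMod.natCast_eq_natCast_iff _ _ _).2 e3]
    simp
  · have t2 : ∃ s : ℕ, 2 ^ s • v = 0 := (ht v hv).imp fun s hs => by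
      rw [← Nat.cast_smul_eq_nsmul O, Nat.cast_pow, Nat.cast_ofNat, hs]
    have hv2 : v ∈ Pm (bw O M U.i) (U.sys M) ∅ := hv.2
    show _ ∈ Pm (bw O M U.i) (U.sys M) ∅
    simp only [Pm, Submodule.mem_iInf, Submodule.mem_inf, bw_T', bw_S'] at hv2 ⊢
    intro ℓ hℓ
    exact ⟨Nl_pj (pj O (RD O) ν) (δ := (ν (uP ℓ))⁻¹) (a := a) (by rw [inv_pow, h2, inv_one])
        (fun c v => pj_T2 ν c _ _ _ v) _ δ t2 (hv2 ℓ hℓ).1,
      Nl_pj (pj O (RD O) ν) (δ := (ν (uP ℓ))⁻¹ * (ν (uP ℓ))⁻¹) (a := a)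
        (by rw [mul_pow, inv_pow, h2, inv_one, mul_one])
        (fun c v => by rw [← mul_assoc]; exact pj_S2 ν c _ _ _ v) _ δ t2 (hv2 ℓ hℓ).2⟩

theorem pjG_coe {δ : Δ} (h : ∀ v ∈ U.GG M, pj O (RD O) ν δ v ∈ U.GG M) (v : U.GG M) :
    (pjG ν U δ v : AM O M) = pj O (RD O) ν δ v := by
  rw [pjG, dif_pos h]; rfl

end gen

section op

variable {U : Su O F} {M : ℕ} {t : GQ → U.B M} {d : GQ →* (U.B M)ˣ}

/-- the symbols -/
def syB (t : GQ → U.B M) (d : GQ →* (U.B M)ˣ) : Sy O (U.B M) :=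
  ⟨algebraMap O _, t, fun g => d g⟩

theorem Su.Op.gv0 (h : U.Op t d) (v : U.GG M) : (syB t d).Gv U.L.r v := by
  obtain ⟨V, -, hV, -, e⟩ := h.opn v
  exact ⟨h.fin v, fun g => (h.nil g v).imp fun _ k => k.1, fun g => (h.nil g v).imp fun _ k => k.2,
    congrArg (· • v) h.tf.one, fun g k => congrArg (· • v) (h.tf.comm g k),
    fun g k => congrArg (· • v) (h.tf.mul g k),
    by show (d 1 : U.B M) • v = v; rw [map_one, Units.val_one, one_smul],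
    fun g k => by show (d (g * k) : U.B M) • v = _; rw [map_mul, Units.val_mul]; rfl,
    V, hV, fun u hu => (e u hu).2⟩

theorem Su.Op.law' (h : U.Op t d) :
    G.Law (fun g => BT.opR _ _ (t g)) fun g => BT.opR _ _ (d g : U.B M) where
  one := by rw [h.tf.one, map_ofNat]
  comm g k := by rw [h.tf.comm]
  mul g k := by rw [← map_mul, h.tf.mul, map_add, map_mul]
  d1 := by rw [map_one, Units.val_one, map_one]
  dm g k := by rw [map_mul, Units.val_mul, map_mul]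
  opn v := by
    obtain ⟨V, n, hV, -, e⟩ := h.opn v
    exact ⟨V, n, hV, e⟩

theorem Su.Op.deg0 [NeZero M] (h : U.Op t d) {Δ : Type} [CommGroup Δ] {ν : (ZMod M)ˣ →* Δ}
    (hG : ∀ δ, ∀ v ∈ U.GG M, pj O (RD O) ν δ v ∈ U.GG M) (g : GQ) (c : Δ) (v : U.GG M) :
    pjG ν U (c * (ν (cyc M g))⁻¹) (t g • v) = t g • pjG ν U c v ∧
      pjG ν U (c * (ν (cyc M g))⁻¹ * (ν (cyc M g))⁻¹) ((d g : U.B M) • v) =
        (d g : U.B M) • pjG ν U c v := by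
  have := H443.galQb
  refine law_deg h.law' (pjG ν U) (ν.comp (cyc M))⁻¹ (Subgroup.isOpen_mono (fun g hg => ?_)
    (isOpen_cyc M)) (2 * M).primeFactors (fun ℓ φ hℓ hS hφ c v => ?_) g c v
  · rw [MonoidHom.mem_ker] at hg ⊢
    show (ν (cyc M g))⁻¹ = 1
    rw [hg, map_one, inv_one]
  · have nd : ¬ ℓ ∣ 2 * M := fun e =>
      hS (Nat.mem_primeFactors.2 ⟨hℓ, e, mul_ne_zero two_ne_zero (NeZero.ne M)⟩)
    have e : cyc M φ = uP (⟨ℓ, hℓ, nd⟩ : PA M) := Units.ext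
      ((cyc_frob hℓ (fun e => nd (e.mul_left 2)) hφ).trans (ZMod.coe_unitOfCoprime _ _).symm)
    constructor <;> apply Subtype.ext
    · show (pjG ν U (c * (ν (cyc M φ))⁻¹) (t φ • v) : AM O M) = (t φ • pjG ν U c v : U.GG M)
      rw [pjG_coe (hG _), h.frT ⟨ℓ, hℓ, nd⟩ φ hφ, h.frT ⟨ℓ, hℓ, nd⟩ φ hφ, pjG_coe (hG _), e, pj_T2]
    · show (pjG ν U (c * (ν (cyc M φ))⁻¹ * (ν (cyc M φ))⁻¹) ((d φ : U.B M) • v) : AM O M) =
        ((d φ : U.B M) • pjG ν U c v : U.GG M)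
      rw [pjG_coe (hG _), h.frS ⟨ℓ, hℓ, nd⟩ φ hφ, h.frS ⟨ℓ, hℓ, nd⟩ φ hφ, pjG_coe (hG _), e, pj_S2]

end op

/-! ### the two-primary part of the units modulo `l` -/

section nu

variable {U : Su O F} (c : Cw U.S U.L)

/-- the odd part of `l - 1` -/
def mo (l : ℕ) : ℕ := (l - 1) / 2 ^ c.a l

theorem mo_spec {l : ℕ} (hl : l ∈ U.L.W) : Odd (mo c l) ∧ l = 2 ^ c.a l * mo c l + 1 := by
  obtain ⟨m, hm, e⟩ := c.ha l (mem_union_left _ hl)
  have : mo c l = m := by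
    rw [mo, show l - 1 = 2 ^ c.a l * m by omega, Nat.mul_div_cancel_left _ (by positivity)]
  rw [this]
  exact ⟨hm, e⟩

/-- the projection on the two-primary part of the units modulo `l` -/
def nu (M l : ℕ) : (ZMod M)ˣ →* (ZMod l)ˣ :=
  if h : l ∣ M then (powMonoidHom (mo c l)).comp (ZMod.unitsMap h) else 1

theorem nu_apply {M l : ℕ} (h : l ∣ M) (x : (ZMod M)ˣ) :
    nu c M l x = ZMod.unitsMap h x ^ mo c l := by
  rw [nu, dif_pos h]; rfl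

theorem pw_l {l : ℕ} (hp : l.Prime) (hl : l ∈ U.L.W) (x : (ZMod l)ˣ) :
    (x ^ mo c l) ^ 2 ^ c.a l = 1 := by
  haveI := Fact.mk hp
  have e := (mo_spec c hl).2
  rw [← pow_mul, mul_comm, show 2 ^ c.a l * mo c l = l - 1 by omega, ZMod.units_pow_card_sub_one_eq_one]

variable [IsLocalRing O] (hU : U.Ok)
include hU

theorem Su.Ok.l_dvd {l : ℕ} (hl : l ∈ U.L.W) : l ∣ U.N :=
  ((hU.NW l (hU.ok.pr l (mem_union_left _ hl)).1).2 hl).mul_right _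

/-- the class of `τ l` generates the two-primary part -/
theorem tau_gen {l : ℕ} (hl : l ∈ U.L.W) [NeZero l] (x : (ZMod l)ˣ) :
    ∃ j : ℕ, x ^ mo c l = (cyc l (U.L.τ l) ^ mo c l) ^ j := by
  have hl' := mem_union_left U.L.C hl
  have hp := (hU.ok.pr l hl').1
  obtain ⟨j, p, ⟨e, he, hpe⟩, rfl⟩ := cyc_tau (m := l) (k := 1) (m' := 1) hp (by simp) (by simp)
    (hU.ok.hP l hl').1 (hU.ok.hP l hl').2 (hU.ok.tm l hl') x (Nat.modEq_one)
  have h1 : (p ^ mo c l) ^ e = 1 := by rw [← pow_mul, mul_comm, pow_mul, hpe, one_pow]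
  have := Nat.dvd_gcd (orderOf_dvd_of_pow_eq_one h1) (orderOf_dvd_of_pow_eq_one (pw_l c hp hl p))
  rw [((Nat.coprime_two_right.2 he).pow_right _).gcd_eq_one, Nat.dvd_one, orderOf_eq_one_iff]
    at this
  exact ⟨j, by rw [mul_pow, this, mul_one, ← pow_mul, ← pow_mul, mul_comm]⟩

theorem tau_ord {l : ℕ} (hl : l ∈ U.L.W) [NeZero l] :
    orderOf (cyc l (U.L.τ l) ^ mo c l) = 2 ^ c.a l := by
  have hp := (hU.ok.pr l (mem_union_left U.L.C hl)).1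
  haveI := Fact.mk hp
  obtain ⟨g, hg⟩ := IsCyclic.exists_ofOrder_eq_natCard (α := (ZMod l)ˣ)
  rw [Nat.card_eq_fintype_card, ZMod.card_units] at hg
  obtain ⟨hm, e⟩ := mo_spec c hl
  obtain ⟨j, hj⟩ := tau_gen c hU hl g
  refine Nat.dvd_antisymm (orderOf_dvd_of_pow_eq_one (pw_l c hp hl _)) ?_
  have h1 : orderOf (g ^ mo c l) = 2 ^ c.a l := by
    rw [orderOf_pow_of_dvd hm.pos.ne' (by rw [hg]; exact ⟨2 ^ c.a l, by rw [mul_comm]; omega⟩), hg,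
      show l - 1 = 2 ^ c.a l * mo c l by omega, Nat.mul_div_cancel _ hm.pos]
  rw [← h1, hj]
  exact orderOf_pow_dvd j

variable {M : ℕ} [NeZero M] (hN : U.N ∣ M) (ht : ∀ v ∈ U.GG M, ∃ s : ℕ, (2 : O) ^ s • v = 0)
include hN ht

theorem nu_GG {l : ℕ} (hl : l ∈ U.L.W) (δ : (ZMod l)ˣ) :
    ∀ v ∈ U.GG M, pj O (RD O) (nu c M l) δ v ∈ U.GG M := by
  have hd := hU.l_dvd hl
  refine pj_GG hU.z hN (fun a ha => ?_) (a := c.a l) (fun x => ?_) ht δ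
  · rw [nu_apply c (hd.trans hN), ← ZMod.unitsMap_comp hd hN, MonoidHom.comp_apply, ha, map_one,
      one_pow]
  · rw [nu_apply c (hd.trans hN)]
    exact pw_l c (hU.ok.pr l (mem_union_left _ hl)).1 hl _

/-- **the grading** of the forms modulo `ϖ` -/
theorem gr [CharP F 2] {t : GQ → U.B M} {d : GQ →* (U.B M)ˣ} (h : U.Op t d) :
    Loc.Cb.Gr (syB t d) c (kl ⊤ {algebraMap O (U.B M) U.ϖ}) (fun l => pjG (nu c M l) U)
      fun l => ((nu c M l).comp (cyc M))⁻¹ := by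
  have G := fun l (h1 : U.L.Sp l) => nu_GG c hU hN ht h1.1
  have ev : ∀ l (h1 : U.L.Sp l) [NeZero l] g, nu c M l (cyc M g) = cyc l g ^ mo c l :=
    fun l h1 _ g => by rw [nu_apply c ((hU.l_dvd h1.1).trans hN), cyc_map]
  have pr := fun l (h1 : U.L.Sp l) => (hU.ok.pr l (mem_union_left _ h1.1)).1
  have ord : ∀ l, U.L.Sp l → orderOf (nu c M l (cyc M (U.L.τ l)))⁻¹ = 2 ^ c.a l := fun l h1 => by
    haveI : NeZero l := ⟨(pr l h1).ne_zero⟩
    rw [orderOf_inv, ev l h1, tau_ord c hU h1.1]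
  refine ⟨fun v hv => ?_, fun l h1 => Loc.open_of (f := cyc M) (fun g hg => ?_) cyc_open, ord,
    fun l h1 g => ⟨c.a l, ?_⟩, fun l h1 l' hl' e => ?_,
    fun l h1 g δ v _ => (h.deg0 (G l h1) g δ v).1,
    fun l h1 g δ v _ => by rw [← mul_assoc]; exact (h.deg0 (G l h1) g δ v).2,
    fun l h1 o δ v _ => Subtype.ext ?_, fun l h1 v _ => Subtype.ext ?_,
    fun l h1 δ hδ v _ => Subtype.ext ?_, fun l h1 v _ => Subtype.ext ?_⟩
  · obtain ⟨z, hz⟩ := hU.uni.dvd 2 (fun e => by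
      have := e.map U.S.red
      rw [map_ofNat, CharTwo.two_eq_zero] at this
      exact not_isUnit_zero this)
    have e : U.ϖ • v = 0 := (mem_kl1.1 hv).2
    rw [← map_ofNat (algebraMap O (U.B M)) 2, BT.alg_smul, hz, mul_comm, mul_smul, e, smul_zero]
  · show (nu c M l (cyc M g))⁻¹ = 1
    rw [hg, map_one, inv_one]
  · show (nu c M l (cyc M g))⁻¹ ^ _ = 1
    rw [inv_pow, nu_apply c ((hU.l_dvd h1.1).trans hN), pw_l c (pr l h1) h1.1, inv_one]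
  · haveI : NeZero l := ⟨(pr l h1).ne_zero⟩
    have k := mem_union_left U.L.C hl'
    show (nu c M l (cyc M (U.L.τ l')))⁻¹ = 1
    rw [ev l h1, cyc_inert (hU.ok.pr l' k).1 (fun e' =>
      e ((Nat.prime_dvd_prime_iff_eq (hU.ok.pr l' k).1 (pr l h1)).1 e').symm) (hU.ok.hP l' k).1
      (hU.ok.hP l' k).2 (hU.ok.tm l' k).tau, one_pow, inv_one]
  · show (pjG _ U (δ * 1) (o • v) : AM O M) = o • (pjG _ U δ v : AM O M)
    rw [mul_one, pjG_coe (G l h1 _), pjG_coe (G l h1 _), Submodule.coe_smul, map_smul]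
  · rw [pjG_coe (G l h1 _), pjG_coe (G l h1 _), pj_id]
  · rw [pjG_coe (G l h1 _), pjG_coe (G l h1 _), pj_or _ hδ]; rfl
  · haveI : NeZero l := ⟨(pr l h1).ne_zero⟩
    rw [Submodule.coe_sum]
    simp only [pjG_coe (G l h1 _)]
    refine pj_sum _ (by positivity) (ord l h1) (fun x => ?_) _
    obtain ⟨j, hj⟩ := tau_gen c hU h1.1 (ZMod.unitsMap ((hU.l_dvd h1.1).trans hN) x)⁻¹
    exact ⟨j, by rw [nu_apply c ((hU.l_dvd h1.1).trans hN), ev l h1, inv_pow, ← hj, inv_pow, inv_inv]⟩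

theorem nu_one {l : ℕ} (hl : l ∈ U.L.W) {x : (ZMod M)ˣ} (hx : V.Cg M U.NW x 1) :
    nu c M l x = 1 := by
  have hd := (hU.l_dvd hl).trans hN
  obtain ⟨k, hk⟩ := (hU.NW l (hU.ok.pr l (mem_union_left _ hl)).1).2 hl
  obtain ⟨y, hy⟩ := hx
  have : ZMod.unitsMap hd x = 1 := Units.ext (by
    have e := congrArg (ZMod.castHom hd (ZMod l)) hy
    rw [map_add, map_mul, map_natCast, map_one, hk, Nat.cast_mul, ZMod.natCast_self, zero_mul,
      zero_mul, add_zero] at e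
    exact e)
  rw [nu_apply c hd, this, one_pow]

omit ht hN hU in
theorem cg_of_dvd {K K' : ℕ} (h : K ∣ K') {x y : ZMod M} (a : V.Cg M K' x y) : V.Cg M K x y := by
  obtain ⟨k, rfl⟩ := h
  obtain ⟨t, rfl⟩ := a
  exact ⟨k * t, by push_cast; ring⟩

theorem pj_Eg {l : ℕ} (hl : l ∈ U.L.W) (δ : (ZMod l)ˣ) {H : Set (GM M)} {χ : GM M → O}
    (h : ∀ g ∈ H, V.Cg M U.NW (g : Matrix (Fin 2) (Fin 2) (ZMod M)).det 1) {v : AM O M}
    (hv : v ∈ Eg O (RD O) H χ) : pj O (RD O) (nu c M l) δ v ∈ Eg O (RD O) H χ :=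
  Eg_tw (fun g hg x => by
    rw [ind, ind, map_mul (nu c M l),
      nu_one c hU hN ht hl (x := Matrix.GeneralLinearGroup.det g) (h g hg), mul_one]) hv

theorem pj_Zp {l : ℕ} (hl : l ∈ U.L.W) (δ : (ZMod l)ˣ) (hC : U.NC ≠ 0) {n : ℕ} {v : AM O M}
    (hv : v ∈ U.Zp M n) : pj O (RD O) (nu c M l) δ v ∈ U.Zp M n := by
  have dd : ∀ a d : (ZMod M)ˣ, V.Cg M U.NW a 1 → V.Cg M U.NW d 1 →
      V.Cg M U.NW (dg a d : Matrix (Fin 2) (Fin 2) (ZMod M)).det 1 := by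
    rintro a d ⟨x, hx⟩ ⟨y, hy⟩
    refine ⟨x + y + U.NW * x * y, ?_⟩
    rw [dg_coe, Matrix.det_fin_two_of, hx, hy]
    ring
  have pw : ∀ (a : (ZMod M)ˣ) (k : ℕ), V.Cg M U.NW a 1 → V.Cg M U.NW (a ^ k : (ZMod M)ˣ) 1 := by
    rintro a k ⟨x, hx⟩
    induction k with
    | zero => exact ⟨0, by simp⟩
    | succ k ih =>
      obtain ⟨y, hy⟩ := ih
      exact ⟨x + y + U.NW * x * y, by rw [pow_succ, Units.val_mul, hx, hy]; ring⟩
  have d1 : U.NW ∣ M / U.NC := by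
    obtain ⟨Q, rfl⟩ := hN
    rw [Su.N, mul_right_comm, Nat.mul_div_cancel _ (Nat.pos_of_ne_zero hC)]
    exact dvd_mul_right _ _
  refine ⟨⟨pj_Eg c hU hN ht hl δ ?_ hv.1.1, ?_⟩, pj_Eg c hU hN ht hl δ ?_ hv.2⟩
  · rintro _ ⟨a, ha, rfl⟩
    exact dd a a (cg_of_dvd d1 ha) (cg_of_dvd d1 ha)
  · have h : v ∈ U.WhP M := hv.1.2
    show _ ∈ U.WhP M
    simp only [Su.WhP, Submodule.mem_iInf, LinearMap.mem_ker, LinearMap.sub_apply,
      LinearMap.smul_apply, sub_eq_zero, Module.End.one_apply] at h ⊢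
    intro x
    conv_rhs => rw [← h x]
    rw [map_smul]
    exact congrArg _ (pj_rt' _ δ (by rw [det_un', map_one]) v).symm
  · rintro _ ⟨a, d, ha, hd, rfl⟩
    exact dd _ _ (pw a _ (cg_of_dvd (dvd_mul_right _ _) ha))
      (pw d _ (cg_of_dvd (dvd_mul_right _ _) hd))

end nu

theorem prod_congr_on {B X ι : Type*} [CommRing B] [AddCommGroup X] [Module B X]
    {K : Submodule B X} (s : Finset ι) {x y : ι → B} (h : ∀ i ∈ s, ∀ v ∈ K, x i • v = y i • v) :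
    ∀ v ∈ K, (∏ i ∈ s, x i) • v = (∏ i ∈ s, y i) • v := by
  induction s using Finset.induction_on with
  | empty => simp
  | insert i s hi ih =>
    intro v hv
    rw [prod_insert hi, prod_insert hi, mul_smul, mul_smul,
      ih (fun j hj => h j (mem_insert_of_mem hj)) v hv,
      h i (mem_insert_self _ _) _ (K.smul_mem _ hv)]

theorem cs_of {O F B X : Type} [CommRing O] [Field F] [CommRing B] [AddCommGroup X] [Module B X]
    {S : R.Dat O F} {L : Loc.Pl O} (c : Cw S L) (s : Sy O B) {K : Submodule B X}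
    (h2 : ∀ v ∈ K, (2 : B) • v = 0) (hx : ∀ l ∈ L.W, ∀ v ∈ K, s.ι (c.x l) • v = v)
    (h : Cs K {p | ∃ l ∈ L.W, p = s.d (L.τ l) - 1}
      (∏ l ∈ L.W, ∑ j ∈ range (2 ^ c.a l), s.d (L.τ l) ^ j)) :
    Cs K (Loc.Cb.w s c '' (L.W : Set ℕ)) (∏ l ∈ L.W, Loc.Cb.w s c l ^ (2 ^ c.a l - 1)) := by
  have e : ∀ l ∈ L.W, ∀ v ∈ K, Loc.Cb.w s c l • v = (s.d (L.τ l) - 1) • v := fun l hl v hv => by
    rw [Loc.Cb.w, Loc.Cb.dl, sub_smul, sub_smul, mul_smul, hx l hl v hv]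
  refine h.congr (fun v hv h0 => ?_) (prod_congr_on _ fun l hl v hv => ?_)
  · rintro _ ⟨l, hl, rfl⟩
    rw [← e l hl v hv]
    exact h0 _ ⟨l, hl, rfl⟩
  · rw [W.Step.pow_congr (e l hl) _ v hv, W.Step.eq_of_two (h2 v hv) (W.Step.sub_one_norm _ _)]

section fin

variable [IsLocalRing O] [CharP F 2] {U : Su O F} (hU : U.Ok)
include hU

theorem Su.Ok.two_dvd0 : U.ϖ ∣ 2 := hU.uni.dvd 2 fun e => by
  have := e.map U.S.red
  rw [map_ofNat, CharTwo.two_eq_zero] at this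
  exact not_isUnit_zero this

theorem Su.Ok.x_dvd (c : Cw U.S U.L) (l : ℕ) : U.ϖ ∣ c.x l - 1 := hU.uni.dvd _ fun e => by
  have h1 := congrArg U.S.red (c.hx l)
  rw [map_mul, RingHom.map_det, RingHom.mapMatrix_apply, hU.ok.lift, hU.ok.det, mul_one,
    map_one] at h1
  have := e.map U.S.red
  rw [map_sub, h1, map_one, sub_self] at this
  exact not_isUnit_zero this

theorem Su.Ok.cw : Nonempty (Cw U.S U.L) := by
  choose! e u v hw using hU.wc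
  exact Loc.exists_cw hU.ok hw

theorem Su.Hc.tor2 {M : ℕ} (hc : U.Hc M) : ∀ v ∈ U.GG M, ∃ s : ℕ, (2 : O) ^ s • v = 0 := by
  intro v hv
  obtain ⟨z, hz⟩ := hU.two_dvd0
  obtain ⟨k, hk⟩ := hc.tor ⟨v, hv⟩
  rw [← map_pow, BT.alg_smul] at hk
  exact ⟨k, by
    rw [hz, mul_pow, mul_comm, mul_smul, show U.ϖ ^ k • v = 0 from congrArg Subtype.val hk,
      smul_zero]⟩

theorem cut_K {M n : ℕ} (lm : U.Lm M) (hc : U.Hc M) (c : Cw U.S U.L) {t : GQ → U.B M}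
    {d : GQ →* (U.B M)ˣ} (op : U.Op t d) {K : Submodule (U.B M) (U.GG M)} {H : Set (GM M)}
    {χ : GM M → O} (hH : ∀ g ∈ H, V.Cg M U.NW (g : Matrix (Fin 2) (Fin 2) (ZMod M)).det 1)
    (hK : ∀ v, v ∈ K ↔ v ∈ U.Wb M n ∧ (v : AM O M) ∈ Eg O (RD O) H χ)
    (h : Cs K {p | ∃ l ∈ U.L.W, p = (syB t d).d (U.L.τ l) - 1}
      (∏ l ∈ U.L.W, ∑ j ∈ range (2 ^ c.a l), (syB t d).d (U.L.τ l) ^ j)) :
    Cs K ((syB t d).JW U.L) (Loc.Cb.NN (syB t d) c) := by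
  haveI : NeZero M := ⟨lm.odd.pos.ne'⟩
  have ht := hc.tor2 hU
  have G := gr c hU lm.dvd ht op
  have wb := fun v hv => (hc.wb lm n v).1 ((hK v).1 hv).1
  have le : K ≤ kl ⊤ {algebraMap O (U.B M) U.ϖ} := fun v hv =>
    mem_kl1.2 ⟨trivial, Subtype.ext (wb v hv).2⟩
  refine G.cs hU.ok (fun v _ => op.gv0 v) le (fun l h1 v hv => ?_)
    (cs_of c (syB t d) (fun v hv => G.two v (le hv)) (fun l hl v hv => ?_) h)
  · have k := pjG_coe (nu_GG c hU lm.dvd ht h1.1 1) v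
    have C0 : U.NC ≠ 0 := fun e => by
      have := lm.le
      rw [Su.N, e] at this
      omega
    rw [hK, hc.wb lm, k]
    exact ⟨⟨pj_Zp c hU lm.dvd ht h1.1 1 C0 (wb v hv).1, by
      rw [← map_smul, (wb v hv).2, map_zero]⟩, pj_Eg c hU lm.dvd ht h1.1 1 hH ((hK v).1 hv).2⟩
  · obtain ⟨y, hy⟩ := hU.x_dvd c l
    have e0 : U.ϖ • v = 0 := Subtype.ext (wb v hv).2
    show c.x l • v = v
    rw [eq_add_of_sub_eq hy, add_smul, mul_comm, mul_smul, e0, smul_zero, zero_add, one_smul]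

/-- **row CUT** -/
theorem cutC [∀ l : U.L.C, Fact l.1.Prime] (hH : HC U) (hL : LQ U) : CUT U := by
  intro r n q P
  obtain ⟨c⟩ := hU.cw
  have lm := hL.1 _ _ _ _ _ _ P.lv
  have hc := hH P.M lm.odd (lm.le.trans (Nat.le_of_dvd lm.odd.pos lm.dvd))
  refine ⟨Loc.Cb.NN (syB P.X.t P.X.d) c, c.a, fun l hl => c.ha l (mem_union_left _ hl),
    fun p hp v _ => Loc.Cb.annJW (s := syB P.X.t P.X.d) c hU.ok (Z := ⊤)
      (fun v _ => P.ok.op.gv0 v) p hp v trivial, ?_⟩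
  rintro K ⟨H, χ, hH, hK⟩ h
  exact cut_K hU lm hc c P.ok.op hH hK h

end fin

end Vale.Agent.P022D.Fm
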