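import Vale.Agent.P022D.V.Spec2
import Vale.Agent.P022D.Loc.Cls
import Vale.Agent.P022D.Rep.Rs
import Vale.Agent.P022D.W.Step
import Vale.Agent.P022D.W.Ring
import Vale.Agent.P022D.As.Defs2

/-!
# P022D, forms side: the modules of forms with their Galois operators (definitions)
-/

set_option linter.all false

open scoped MatrixGroups

noncomputable section

namespace Vale.Agent.P022D.Fm

open Vale.Agent.P022 Vale.Agent.P022D.V Vale.Agent.P027M.M
open Vale.Agent.P022D.G (Wd wT wS Inert)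
open Vale.Agent.P022D.W.Step (kl Cs)
open Vale.Agent.P027M.S (mx)

/-! ### abstract part -/

section abs

variable {O A : Type} [CommRing O] [AddCommGroup A] [Module O A]

open Classical in
/-- `H` if it is commutative -/
def cm (H : Subalgebra O (Module.End O A)) : Subalgebra O (Module.End O A) :=
  if ∀ a ∈ H, ∀ b ∈ H, a * b = b * a then H else ⊥

theorem cm_comm (H : Subalgebra O (Module.End O A)) :
    ∀ a ∈ cm H, ∀ b ∈ cm H, a * b = b * a := by
  unfold cm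
  split_ifs with h
  · exact h
  · intro a ha b _
    obtain ⟨c, rfl⟩ := Algebra.mem_bot.1 ha
    exact Algebra.commutes c b

theorem cm_eq {H : Subalgebra O (Module.End O A)} (h : ∀ a ∈ H, ∀ b ∈ H, a * b = b * a) :
    cm H = H := if_pos h

/-- the operators on `G` which agree with an element of `H` on every finite set -/
def LS (H : Subalgebra O (Module.End O A)) (G : Submodule O A) :
    Subalgebra O (Module.End O G) where
  carrier := {e | ∀ s : Finset G, ∃ h ∈ H, ∀ v ∈ s, (e v : A) = h v}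
  mul_mem' := by
    classical
    intro e e' he he' s
    obtain ⟨h', a', b'⟩ := he' s
    obtain ⟨h, a, b⟩ := he (s.image e')
    exact ⟨h * h', H.mul_mem a a', fun v hv => by
      rw [Module.End.mul_apply, b _ (Finset.mem_image_of_mem _ hv), b' v hv, Module.End.mul_apply]⟩
  add_mem' := by
    intro e e' he he' s
    obtain ⟨h', a', b'⟩ := he' s
    obtain ⟨h, a, b⟩ := he s
    exact ⟨h + h', H.add_mem a a', fun v hv => by
      rw [LinearMap.add_apply, Submodule.coe_add, b v hv, b' v hv, LinearMap.add_apply]⟩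
  algebraMap_mem' c s := ⟨algebraMap O _ c, H.algebraMap_mem c, fun v _ => rfl⟩

/-- **the completed Hecke ring** -/
def BT (H : Subalgebra O (Module.End O A)) (G : Submodule O A) : Type := LS (cm H) G

variable {H : Subalgebra O (Module.End O A)} {G : Submodule O A}

/-- the underlying operator -/
def BT.op (e : BT H G) : Module.End O G := (show LS (cm H) G from e).1

theorem BT.loc (e : BT H G) (s : Finset G) : ∃ h ∈ cm H, ∀ v ∈ s, (e.op v : A) = h v :=
  (show LS (cm H) G from e).2 s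

instance : CommRing (BT H G) :=
  { (inferInstance : Ring (LS (cm H) G)) with
    mul_comm := fun e e' => by
      classical
      refine Subtype.ext (LinearMap.ext fun v => Subtype.ext ?_)
      obtain ⟨h, a, b⟩ := e.loc {v, e'.op v}
      obtain ⟨h', a', b'⟩ := e'.loc {v, e.op v}
      change (e.op (e'.op v) : A) = e'.op (e.op v)
      rw [b _ (by simp), b' _ (by simp), b' (e.op v) (by simp), b _ (by simp),
        ← Module.End.mul_apply, cm_comm H h a h' a', Module.End.mul_apply] }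

instance : Algebra O (BT H G) := (inferInstance : Algebra O (LS (cm H) G))

instance : Module (BT H G) G := (inferInstance : Module (LS (cm H) G) G)

theorem BT.smul_def (e : BT H G) (v : G) : e • v = e.op v := rfl

theorem BT.alg_smul (c : O) (v : G) : algebraMap O (BT H G) c • v = c • v := rfl

instance : IsScalarTower O (BT H G) G := ⟨fun _ _ _ => rfl⟩

theorem BT.ext {e e' : BT H G} (h : ∀ v : G, e • v = e' • v) : e = e' :=
  Subtype.ext (LinearMap.ext h)

/-- an element of `cm H` which preserves `G` -/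
def BT.res (h : Module.End O A) (h1 : h ∈ cm H) (h2 : ∀ v ∈ G, h v ∈ G) : BT H G :=
  (⟨h.restrict h2, fun _ => ⟨h, h1, fun _ _ => rfl⟩⟩ : LS (cm H) G)

theorem BT.res_smul (h : Module.End O A) (h1 : h ∈ cm H) (h2 : ∀ v ∈ G, h v ∈ G) (v : G) :
    ((BT.res h h1 h2 • v : G) : A) = h v := rfl

variable (H G) in
/-- the largest stable part of `Y` -/
def sub (Y : Submodule O A) : Submodule (BT H G) G where
  carrier := {v | ∀ h ∈ cm H, h (v : A) ∈ Y}
  zero_mem' h _ := by simp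
  add_mem' := fun {v w} a b h hh => by
    rw [Submodule.coe_add, map_add]
    exact Y.add_mem (a h hh) (b h hh)
  smul_mem' := fun e v a h hh => by
    obtain ⟨h', a', b'⟩ := e.loc {v}
    rw [BT.smul_def, b' v (by simp), ← Module.End.mul_apply]
    exact a _ ((cm H).mul_mem hh a')

theorem mem_of_sub {Y : Submodule O A} {v : G} (h : v ∈ sub H G Y) : (v : A) ∈ Y :=
  h 1 (cm H).one_mem

theorem mem_sub {Y : Submodule O A} (hY : ∀ h ∈ cm H, ∀ v ∈ Y, h v ∈ Y) {v : G} :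
    v ∈ sub H G Y ↔ (v : A) ∈ Y := ⟨mem_of_sub, fun a h hh => hY h hh _ a⟩

variable {N : ℕ}

/-- `e` is nilpotent on `v` -/
def Nl (e : Module.End O A) : Submodule O A := ⨆ k : ℕ, LinearMap.ker (e ^ k)

theorem mem_Nl {e : Module.End O A} {v : A} : v ∈ Nl e ↔ ∃ k : ℕ, (e ^ k) v = 0 :=
  Submodule.mem_iSup_of_directed _ (Monotone.directed_le e.iterateKer.monotone)

/-- the primary part for the system `a`, with the primes of `S` left out -/
def Pm (β : Wd N →+* Module.End O A) (a : Gen N → O) (S : Finset ℕ) : Submodule O A :=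
  ⨅ ℓ : PA N, ⨅ _ : ℓ.1 ∉ S, Nl (β (wT ℓ) - algebraMap O _ (a (Sum.inl ℓ))) ⊓
    Nl (β (wS ℓ) - algebraMap O _ (a (Sum.inr ℓ)))

/-- the vectors killed by `c` -/
def Tor (A : Type) [AddCommGroup A] [Module O A] (c : O) : Submodule O A :=
  LinearMap.ker (algebraMap O (Module.End O A) c)

theorem mem_Tor {c : O} {v : A} : v ∈ Tor A c ↔ c • v = 0 := Iff.rfl

end abs

/-! ### the fixed data -/

/-- the fixed data: `N = NW * NC` is the base level, `i + 1` the weight, `z = e(1 / N)`, `om` the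
central character, `N0` the residual level -/
structure Su (O F : Type) [CommRing O] [Field F] where
  S : R.Dat O F
  L : Loc.Pl O
  ϖ : O
  i : ℕ
  NW : ℕ
  NC : ℕ
  N0 : ℕ
  z : O
  om : ℕ → O

variable {O F : Type} [CommRing O] [Field F]

/-- the base level -/
def Su.N (U : Su O F) : ℕ := U.NW * U.NC

/-- the trace of the point -/
def Su.tr (U : Su O F) (g : GQ) : O := (U.L.r g).trace

/-- the determinant of the point -/
def Su.dt (U : Su O F) (g : GQ) : O := (U.L.r g).det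

/-- a Frobenius element -/
def fr (l : ℕ) : GQ := Classical.epsilon (IsFrob l)

/-- the system of the point -/
def Su.sys (U : Su O F) (M : ℕ) : Gen M → O :=
  Sum.elim (fun ℓ => U.tr (fr ℓ.1)) fun ℓ => U.dt (fr ℓ.1)

/-- `g` acts on the `n`-th roots of unity by `x` -/
def Cy (n : ℕ) (g : GQ) (x : ℕ) : Prop := ∀ ζ : Qb, ζ ^ n = 1 → g ζ = ζ ^ x

/-- the hypotheses on the fixed data -/
structure Su.Ok [IsLocalRing O] [Co O] (U : Su O F) : Prop where
  ok : U.L.Ok U.S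
  uni : Unif U.ϖ
  hi : 1 ≤ U.i
  NC : U.NC = ∏ l ∈ U.L.C, l
  NW0 : U.NW ≠ 0
  NW : ∀ l : ℕ, l.Prime → (l ∣ U.NW ↔ l ∈ U.L.W)
  W3 : U.L.W.Nonempty ∨ ∃ l ∈ U.L.C, mx U.S.rb (U.L.τ l) ≠ 1
  z : Co.j U.z = ze U.N 1
  two : ∀ l ∈ U.L.W, ∃ y : O, IsPrimitiveRoot y (l ^ 2 - 1)
  om1 : U.om 1 = 1
  omm : ∀ x y, U.om (x * y) = U.om x * U.om y
  omp : ∀ x y, x ≡ y [MOD U.N] → U.om x = U.om y
  det : ∀ j : ℕ, ∃ a : ℕ, ∀ (g : GQ) (x : ℕ), Nat.Coprime x U.N → Cy (2 ^ a * U.N) g x →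
    U.ϖ ^ j ∣ U.dt g - U.om x * (x : O) ^ U.i
  unr : ∀ l : ℕ, l.Prime → l ∉ U.S.T → ∀ g, Inert l g → U.L.r g = 1
  wc : ∀ l ∈ U.L.W, ∃ e u v, Loc.Wc U.S U.L l e u v
  omr : ∀ x, Nat.Coprime x U.N → U.ϖ ∣ U.om x - 1
  lam : U.S.red U.S.lam = mx U.S.rb U.S.g1 0 1
  N0 : U.N0 ∣ U.N
  res : ∀ [NeZero U.N0], ∃ k : ℕ, ∀ X : Wd U.N0, (∀ j < k, G.sg U.N0 j X = 0) →
    U.ϖ ∣ FreeAlgebra.lift ℤ (U.sys U.N0) X
  ram : ∀ l ∈ U.L.C, l ∣ U.N0 → mx U.S.rb (U.L.τ l) ≠ 1

/-- a level: auxiliary primes `q`, generators `b` of the units at `q`, inertia elements `τ` -/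
structure Lv (U : Su O F) (r n M : ℕ) (q : Fin r → ℕ) (b : Fin r → (ZMod M)ˣ) (τ : Fin r → GQ) :
    Prop where
  inj : Function.Injective q
  pr : ∀ i, (q i).Prime ∧ q i ∉ U.S.T
  eq : M = U.N * ∏ i, q i
  one : ∀ i, 2 ^ (n + 1) ∣ q i - 1
  two : ∀ i, ∃ x : ZMod (q i), x ^ 2 ^ n = 2
  b1 : ∀ i, V.Cg M (M / q i) (b i) 1
  gen : ∀ (i) (a : (ZMod M)ˣ), V.Cg M (M / q i) a 1 →
    ∃ (k : ℕ) (c : (ZMod M)ˣ), V.Cg M (M / q i) c 1 ∧ a = b i ^ k * c ^ 2 ^ n
  ine : ∀ i, Inert (q i) (τ i)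
  cyc : ∀ i, Cy M (τ i) (b i : ZMod M).val

variable [Co O]

/-- the ambient module -/
abbrev AM (O : Type) [CommRing O] [Co O] (M : ℕ) : Type := FT M (RD O)

/-- the class of a prime -/
def uP {M : ℕ} (ℓ : PA M) : (ZMod M)ˣ := ZMod.unitOfCoprime ℓ.1 ℓ.coprime

/-- the words on the ambient module -/
def bw (O : Type) [CommRing O] [Co O] (M i : ℕ) : Wd M →+* Module.End O (AM O M) :=
  (FreeAlgebra.lift ℤ (Sum.elim (fun ℓ => T2 O (RD O) i ℓ.1 (uP ℓ))
    fun ℓ => S2 O (RD O) i ℓ.1 (uP ℓ)) : Wd M →ₐ[ℤ] Module.End O (AM O M))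

/-- right translation -/
abbrev rD (O : Type) [CommRing O] [Co O] {M : ℕ} (g : GM M) : Module.End O (AM O M) :=
  (rt O (RD O) g).toLinearMap

/-- the Hecke algebra: words and the diagonal elements which are scalar modulo `N` -/
def HA (O : Type) [CommRing O] [Co O] (M N i : ℕ) : Subalgebra O (Module.End O (AM O M)) :=
  Algebra.adjoin O (Set.range (bw O M i) ∪
    {e | ∃ a d : (ZMod M)ˣ, V.Cg M N a d ∧ e = rD O (dg a d)})

namespace Su

variable (U : Su O F) (M : ℕ)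

/-- the primary part -/
def XP (S : Finset ℕ) : Submodule O (AM O M) := XD O M U.i ⊓ Pm (bw O M U.i) (U.sys M) S

/-- **the carrier of the Galois operators** -/
def GG : Submodule O (AM O M) := U.XP M ∅

/-- its ring of operators -/
abbrev B : Type := BT (HA O M U.N U.i) (U.GG M)

/-- stable parts -/
abbrev sb (Y : Submodule O (AM O M)) : Submodule (U.B M) (U.GG M) := sub _ _ Y

/-- the scalars which are `1` modulo `K` act by `om` -/
def Ce (K : ℕ) : Submodule O (AM O M) :=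
  Eg O (RD O) {g | ∃ a : (ZMod M)ˣ, V.Cg M K a 1 ∧ g = dg a a}
    fun g => U.om ((g : Matrix (Fin 2) (Fin 2) (ZMod M)) 0 0).val

/-- Whittaker at the primes of `NW`, invariant under the unipotent groups outside `N` -/
def WhP : Submodule O (AM O M) :=
  ⨅ x : ℕ, LinearMap.ker (U.z ^ (U.NC * x) • rD O (un ((U.NC * x : ℕ) : ZMod M)) - 1)

/-- the `2 ^ n`-th powers in the torus at the auxiliary primes -/
def TQ (n : ℕ) : Set (GM M) :=
  {g | ∃ a d : (ZMod M)ˣ, V.Cg M U.N a 1 ∧ V.Cg M U.N d 1 ∧ g = dg (a ^ 2 ^ n) (d ^ 2 ^ n)}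

/-- the group conditions, nothing at the primes of `NC` except the centre -/
def Zp (n : ℕ) : Submodule O (AM O M) :=
  U.Ce M (M / U.NC) ⊓ U.WhP M ⊓ Iv O (RD O) (U.TQ M n)

/-- the group conditions of the Whittaker part -/
def Zw (n : ℕ) : Submodule O (AM O M) :=
  U.Ce M (M / U.NC) ⊓ Wh O (RD O) M U.z ⊓ Iv O (RD O) (U.TQ M n)

/-- the forms modulo `ϖ` on which the projective groups act -/
def Wb (n : ℕ) : Submodule (U.B M) (U.GG M) := U.sb M (U.Zp M n ⊓ Tor (AM O M) U.ϖ)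

variable {U M} in
/-- the element `e` acts as the translation by `g` -/
def IsU (e : U.B M) (g : GM M) : Prop := ∀ v : U.GG M, ((e • v : U.GG M) : AM O M) = rD O g v

variable {M} in
/-- **the Galois operators** -/
structure Op (t : GQ → U.B M) (d : GQ →* (U.B M)ˣ) : Prop where
  tf : H346.TF t d
  opn : ∀ v : U.GG M, ∃ V : Subgroup GQ, V.Normal ∧ IsOpen (V : Set GQ) ∧
    (∀ ℓ : PA M, ∀ g, Inert ℓ.1 g → g ∈ V) ∧
    ∀ u ∈ V, (d u : U.B M) • v = v ∧ ∀ g, t (g * u) • v = t g • v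
  frT : ∀ (ℓ : PA M) φ, IsFrob ℓ.1 φ → ∀ v : U.GG M,
    ((t φ • v : U.GG M) : AM O M) = T2 O (RD O) U.i ℓ.1 (uP ℓ) v
  frS : ∀ (ℓ : PA M) φ, IsFrob ℓ.1 φ → ∀ v : U.GG M,
    (((d φ : U.B M) • v : U.GG M) : AM O M) = S2 O (RD O) U.i ℓ.1 (uP ℓ) v
  fin : ∀ v : U.GG M, Finite (Submodule.span (U.B M) {v})
  nil : ∀ (g : GQ) (v : U.GG M), ∃ k : ℕ, (t g - algebraMap O _ (U.tr g)) ^ k • v = 0 ∧
    ((d g : U.B M) - algebraMap O _ (U.dt g)) ^ k • v = 0
  dF : ∀ v : U.GG M, ∃ a : ℕ, ∀ (g : GQ) (x : ℕ) (u : (ZMod M)ˣ), Odd x → (u : ZMod M) = x →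
    Cy (2 ^ a * M) g x → (((d g : U.B M) • v : U.GG M) : AM O M) = S2 O (RD O) U.i x u v
  dI : ∀ l : ℕ, l.Prime → l ≠ 2 → ∀ s, Inert l s → ∀ u : (ZMod M)ˣ, Cy M s (u : ZMod M).val →
    IsU (d s : U.B M) (dg u u)
  dc : ∀ c, IsConj c → (d c : U.B M) = -1
  i1 : ∀ M₀ q, Sp M M₀ q → ∀ s, Inert q s → ∀ u : (ZMod M)ˣ, Cy M s (u : ZMod M).val →
    ∀ v : U.GG M, (v : AM O M) ∈ Iv O (RD O) (Uq M M₀) →
      ((t s • v : U.GG M) : AM O M) = rD O (dg u 1) v + rD O (dg 1 u) v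
  ur : ∀ M₀ q, Sp M M₀ q → ∀ s, Inert q s → ∀ v : U.GG M,
    (v : AM O M) ∈ Iv O (RD O) (Kq M M₀) → ∀ g, t (g * s) • v = t g • v

end Su

instance fintypePG (l : ℕ) [Fact l.Prime] : Fintype (Rep.PG (ZMod l)) := Fintype.ofFinite _

section lev

variable (U : Su O F) [hC : ∀ l : U.L.C, Fact l.1.Prime] [CharP F 2]

/-- the groups -/
abbrev Su.Gam : U.L.C → Type := fun l => Rep.PG (ZMod l.1)

/-- their `BN` structures -/
abbrev Su.bn : ∀ l : U.L.C, Rep.BN (ZMod l.1) (U.Gam l) := fun l => Rep.bnP (ZMod l.1)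

/-- the additive characters which belong to `z` -/
def Su.IsCh (Cc : ∀ l : U.L.C, Rep.Ch (ZMod l.1) F) : Prop :=
  ∀ (l : U.L.C) (x : ℕ), (Cc l).ψ ((U.N / l.1 * x : ℕ) : ZMod l.1) *
    U.S.red U.z ^ (U.N / l.1 * x) = 1

/-- the operators of a level -/
structure Dt (M n : ℕ) where
  t : GQ → U.B M
  d : GQ →* (U.B M)ˣ
  E : Rep.Act F U.Gam (U.B M) (U.Wb M n)

variable {U} {M n : ℕ} (X : Dt U M n)

/-- the operators are the right ones -/
structure Dt.Ok : Prop where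
  op : U.Op X.t X.d
  sc : ∀ (c : O) (w : U.Wb M n), X.E.sc (U.S.red c) w = algebraMap O (U.B M) c • w
  act : ∀ h ∈ Kq M (M / U.NC), ∀ γ : ∀ l, U.Gam l,
    (∀ (l : U.L.C) (hl : l.1 ∣ M), γ l = QuotientGroup.mk (pr hl h)) →
      ∀ w : U.Wb M n, (((X.E.ρ γ w : U.Wb M n) : U.GG M) : AM O M) = rD O h (w : U.GG M)

/-- the elements of the cut -/
def Dt.JW : Set (U.B M) :=
  {c | (∃ g ∈ U.L.TT, c = X.t g - algebraMap O _ (U.tr g)) ∨
    ∃ l ∈ U.L.W, c = (X.d (U.L.τ l) : U.B M) - algebraMap O _ (U.dt (U.L.τ l))}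

/-- the forms of type `I` before the cut -/
def Dt.Y1 (I : Rep.Tu F U.Gam) : Submodule (U.B M) (U.GG M) := (X.E.Y I).map (U.Wb M n).subtype

/-- **the forms of type `I`** -/
def Dt.Y (I : Rep.Tu F U.Gam) : Submodule (U.B M) (U.GG M) := kl (X.Y1 I) X.JW

/-- all forms after the cut -/
def Dt.Z : Submodule (U.B M) (U.GG M) := kl (U.sb M (U.Zp M n)) X.JW

/-- **the Whittaker forms** -/
def Dt.Wh : Submodule (U.B M) (U.GG M) := kl (U.sb M (U.Zw M n)) X.JW

/-- the congruence element at `p` -/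
def Dt.D (p : ℕ) (φ : GQ) : U.B M := (p : U.B M) * X.t φ ^ 2 - ((p : U.B M) + 1) ^ 2 * X.d φ

/-- the Whittaker forms killed by `ϖ ^ j` -/
def Dt.Wc (j : ℕ) : Submodule (U.B M) (U.GG M) := kl X.Wh {algebraMap O _ (U.ϖ ^ j)}

/-- the action of the symbols -/
def Dt.ev {r : ℕ} (u : Fin r ⊕ Fin r → U.B M) : As.Tg O →+* U.B M :=
  MvPolynomial.eval₂Hom (algebraMap O _) (Sum.elim X.t (Sum.elim (fun g => (X.d g : U.B M))
    fun i => if h : i < r then u (Sum.inl ⟨i, h⟩) - 1 else 0))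

end lev

/-- the diamond operators: `d₁` and `d₂ / d₁` -/
def IsDia {U : Su O F} {M r : ℕ} (b : Fin r → (ZMod M)ˣ) (u : Fin r ⊕ Fin r → U.B M) : Prop :=
  ∀ i, Su.IsU (u (Sum.inl i)) (dg 1 (b i)) ∧ Su.IsU (u (Sum.inr i)) (dg (b i) (b i)⁻¹)

/-- a submodule as a module over the symbols -/
def Mt {T B G : Type} [CommRing T] [CommRing B] [AddCommGroup G] [Module B G] (_ : T →+* B)
    (Y : Submodule B G) : Type := Y

instance {T B G : Type} [CommRing T] [CommRing B] [AddCommGroup G] [Module B G] (φ : T →+* B)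
    (Y : Submodule B G) : AddCommGroup (Mt φ Y) := (inferInstance : AddCommGroup Y)

instance {T B G : Type} [CommRing T] [CommRing B] [AddCommGroup G] [Module B G] (φ : T →+* B)
    (Y : Submodule B G) : Module T (Mt φ Y) := Module.compHom Y φ

end Vale.Agent.P022D.Fm
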