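import Vale.Agent.P022D.Fm.Rows

/-!
# P022D, forms side: row DT0
-/

set_option linter.all false

noncomputable section

namespace Vale.Agent.P022D.Fm.H74

open Vale.Agent.P022 Vale.Agent.P022D.V Vale.Agent.P027M.M
open Vale.Agent.P022D.As (Tg cc dd)

variable {O F : Type} [CommRing O] [IsLocalRing O] [Co O] [Field F] [CharP F 2] {U : Su O F}

theorem dt_one (hU : U.Ok) (g : GQ) : U.ϖ ∣ U.dt g - 1 := by
  refine hU.uni.dvd _ ?_
  rw [← mem_nonunits_iff, ← IsLocalRing.mem_maximalIdeal, ← hU.ok.ker, Su.dt, map_sub, map_one,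
    RingHom.map_det, RingHom.mapMatrix_apply, hU.ok.lift, hU.ok.det, sub_self]

variable [hC : ∀ l : U.L.C, Fact l.1.Prime] {Cc : ∀ l : U.L.C, Rep.Ch (ZMod l.1) F}

/-- **row DT0** -/
theorem dt0 (hU : U.Ok) (hK : CLS U) (hR : RED U Cc) : DT0 U Cc := by
  intro P i g w
  obtain ⟨⟨z, -, -⟩, r, -⟩ := hR 0 0 _ P
  obtain ⟨c, hc⟩ := dt_one hU g
  have e1 : P.ev (dd g) = P.X.d g := MvPolynomial.eval₂Hom_X' _ _ _
  have e2 : ∀ x : O, P.ev (cc x) = algebraMap O _ x := fun x => MvPolynomial.eval₂Hom_C _ _ _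
  have h := ((hK 0 0 _ P _ (z i.v (show P.X.Y i.v from w).2)).2.2.2.2
    (fun s => by rcases s with s | s <;> exact s.elim0)).2.2 g
  have h1 : (dd g : Tg O) • w = (cc (U.dt g) : Tg O) • w := by
    refine Subtype.ext ?_
    show P.ev (dd g) • (show P.X.Y i.v from w).1 = P.ev (cc (U.dt g)) • (show P.X.Y i.v from w).1
    rw [e1, e2]
    exact h
  have h2 : (cc (U.dt g) : Tg O) = 1 + cc c * cc U.ϖ := by
    rw [sub_eq_iff_eq_add.1 hc]
    simp only [cc, map_add, map_mul, map_one]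
    ring
  rw [pow_one, h1, h2, add_smul, one_smul, mul_smul, r i w, smul_zero, add_zero]

end Vale.Agent.P022D.Fm.H74
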