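import Vale.Agent.P022D.Fm.Hc

/-!
# P022D, forms side: the Whittaker average
-/

set_option linter.all false

noncomputable section

namespace Vale.Agent.P022D.Fm.H49

open Vale.Agent.P022 Vale.Agent.P022D.V Vale.Agent.P027M.M

section avg

variable {O : Type} [CommRing O] [Co O] {M N : ℕ} [NeZero M]

theorem un_add (x y : ZMod M) : un (x + y) = un x * un y := by
  apply Units.ext
  rw [Units.val_mul, un_coe, un_coe, un_coe]
  ext i j; fin_cases i <;> fin_cases j <;> simp [Matrix.mul_apply, Fin.sum_univ_two, add_comm]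

/-- the twisted sum over the unipotent group -/
def sm (M : ℕ) [NeZero M] (z : O) : Module.End O (AM O M) :=
  ∑ x : ZMod M, z ^ x.val • rD O (un x)

theorem pw_cg (hN : N ∣ M) {z : O} (hz : z ^ N = 1) {x : ZMod M} {y : ℕ} (h : V.Cg M N x y) :
    z ^ x.val = z ^ y :=
  pow_eq_pow_of_modEq (cg_mod hN (by rwa [ZMod.natCast_zmod_val])) hz

theorem sm_un (hN : N ∣ M) {z : O} (hz : z ^ N = 1) (x : ℕ) :
    z ^ x • rD O (un (x : ZMod M)) * sm M z = sm M z := by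
  rw [sm, Finset.mul_sum]
  refine Fintype.sum_equiv (Equiv.addLeft (x : ZMod M)) _ _ fun y => ?_
  rw [smul_mul_smul_comm, ← rD_mul, ← un_add, ← pow_add, Equiv.coe_addLeft,
    pw_cg hN hz (x := x + y) (y := x + y.val) (by
      rw [Nat.cast_add, ZMod.natCast_zmod_val]; exact cg_refl _)]

theorem sm_dg (hN : N ∣ M) {z : O} (hz : z ^ N = 1) {a d : (ZMod M)ˣ} (h : V.Cg M N a d) :
    sm M z * rD O (dg a d) = rD O (dg a d) * sm M z := by
  rw [sm, Finset.mul_sum, Finset.sum_mul]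
  refine Fintype.sum_equiv (Units.mulRight (d * a⁻¹)) _ _ fun y => ?_
  have h1 := cg_mul2 (cg_refl y) (cg_mul2 (cg_symm h) (cg_refl ((a⁻¹ : (ZMod M)ˣ) : ZMod M)))
  rw [Units.mul_inv, mul_one, ← Units.val_mul] at h1
  rw [smul_mul_assoc, mul_smul_comm, ← rD_mul, ← rD_mul, un_dg', Units.mulRight_apply,
    pw_cg hN hz (x := y * _) (y := y.val) (by rwa [ZMod.natCast_zmod_val])]

theorem sm_wh {z : O} {v : AM O M} (hv : v ∈ Wh O (RD O) M z) : sm M z v = (M : O) • v := by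
  rw [sm, LinearMap.sum_apply, Finset.sum_congr rfl (g := fun _ => v) fun x _ => by
    have h := hv x.val
    rwa [ZMod.natCast_zmod_val] at h, Finset.sum_const, Finset.card_univ, ZMod.card,
    Nat.cast_smul_eq_nsmul]

theorem sm_mem {Y : Submodule O (AM O M)} (hY : ∀ g, ∀ v ∈ Y, rD O g v ∈ Y) (z : O) {v : AM O M}
    (hv : v ∈ Y) : sm M z v ∈ Y := by
  rw [sm, LinearMap.sum_apply]
  exact Y.sum_mem fun x _ => Y.smul_mem _ (hY _ v hv)

theorem sm_Eg (hN : N ∣ M) {z : O} (hz : z ^ N = 1) {H : Set (GM M)} {χ : GM M → O}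
    (hH : ∀ h ∈ H, ∃ a d : (ZMod M)ˣ, V.Cg M N a d ∧ h = dg a d) {v : AM O M}
    (hv : v ∈ Eg O (RD O) H χ) : sm M z v ∈ Eg O (RD O) H χ := fun h hh => by
  obtain ⟨a, d, k, e⟩ := hH h hh
  have h1 := LinearMap.congr_fun (sm_dg hN hz k) v
  rw [Module.End.mul_apply, Module.End.mul_apply, ← e, rD_apply, hv h hh, map_smul] at h1
  exact h1.symm

end avg

variable {O F : Type} [CommRing O] [IsLocalRing O] [Co O] [Field F] [CharP F 2] {U : Su O F}
  {M : ℕ}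

theorem odd_unit (h : U.Ok) {e : ℕ} (he : Odd e) : IsUnit (e : O) := by
  obtain ⟨k, rfl⟩ := he
  by_contra hn
  have h2 : (2 : O) ∈ IsLocalRing.maximalIdeal O :=
    (h.ok.ker 2).1 (by rw [map_ofNat]; exact CharTwo.two_eq_zero)
  have h1 := (IsLocalRing.maximalIdeal O).sub_mem
    (show ((2 * k + 1 : ℕ) : O) ∈ IsLocalRing.maximalIdeal O from hn)
    ((IsLocalRing.maximalIdeal O).mul_mem_right (k : O) h2)
  push_cast at h1
  rw [add_sub_cancel_left] at h1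
  exact h1 isUnit_one

/-- **the Whittaker average** -/
theorem whAvg (hU : U.Ok) (hM : U.Lm M) : ∃ e : Module.End O (AM O M),
    (∀ v, e v ∈ Wh O (RD O) M U.z) ∧ (∀ v ∈ Wh O (RD O) M U.z, e v = v) ∧
    (∀ v ∈ U.GG M, e v ∈ U.GG M) ∧ (∀ K, ∀ v ∈ U.Ce M K, e v ∈ U.Ce M K) ∧
    (∀ n, ∀ v ∈ Iv O (RD O) (U.TQ M n), e v ∈ Iv O (RD O) (U.TQ M n)) ∧
    ∀ (H : Set (GM M)) (χ : GM M → O),
      (∀ h ∈ H, ∃ a d : (ZMod M)ˣ, V.Cg M U.N a d ∧ h = dg a d) →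
      ∀ v ∈ Eg O (RD O) H χ, e v ∈ Eg O (RD O) H χ := by
  haveI : NeZero M := ⟨hM.odd.pos.ne'⟩
  obtain ⟨c, hc⟩ := (odd_unit hU hM.odd).exists_left_inv
  have k : ∀ (H : Set (GM M)) (χ : GM M → O),
      (∀ h ∈ H, ∃ a d : (ZMod M)ˣ, V.Cg M U.N a d ∧ h = dg a d) →
      ∀ v ∈ Eg O (RD O) H χ, (c • sm M U.z) v ∈ Eg O (RD O) H χ := fun H χ hH v hv =>
    Submodule.smul_mem _ c (sm_Eg hM.dvd hU.zN hH hv)
  refine ⟨c • sm M U.z, fun v => Submodule.smul_mem _ c fun x =>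
      LinearMap.congr_fun (sm_un hM.dvd hU.zN x) v, fun v hv => ?_,
    fun v hv => Submodule.smul_mem _ c (sm_mem (GG_rD hM.odd hM.three) _ hv),
    fun K => k _ _ fun _ ⟨a, _, h⟩ => ⟨a, a, cg_refl _, h⟩,
    fun n => k _ _ fun _ ⟨a, d, ha, hd, h⟩ => ⟨_, _, ?_, h⟩, k⟩
  · rw [LinearMap.smul_apply, sm_wh hv, smul_smul, hc, one_smul]
  · rw [Units.val_pow_eq_pow_val, Units.val_pow_eq_pow_val]
    exact cg_pow (cg_trans ha (cg_symm hd)) _

end Vale.Agent.P022D.Fm.H49
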