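import Vale.Agent.P022D.Fm.Rows

/-!
# P022D, forms side: row EXF
-/

set_option linter.all false

open scoped MatrixGroups

noncomputable section

namespace Vale.Agent.P022D.Fm

open Vale.Agent.P022 Vale.Agent.P022D.V Vale.Agent.P027M.M
open Vale.Agent.P022D.W.Step (kl Cs Dv)
open Vale.Agent.P022D.As (Tg cc tt dd yy dl nD)

namespace Exf

section abs

variable {ι : Type} [Fintype ι] [DecidableEq ι] {F : Type} {Γ : ι → Type} {B W : Type} [Field F]
  [∀ i, Group (Γ i)] [∀ i, Fintype (Γ i)] [CommRing B] [AddCommGroup W] [Module B W]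
  (E : Rep.Act F Γ B W) (J : Set B)

theorem cut_al (i : ι) (r : MonoidAlgebra F (Γ i)) (w : kl (⊤ : Submodule B W) J) :
    (((cutA E J).al i r w : kl (⊤ : Submodule B W) J) : W) = E.al i r w := by
  induction r using MonoidAlgebra.induction_linear with
  | zero => simp
  | add x y hx hy =>
    rw [map_add, map_add, LinearMap.add_apply, LinearMap.add_apply, Submodule.coe_add, hx, hy]
  | single g c =>
    rw [Rep.Act.al_single, Rep.Act.al_single]
    rfl

theorem cut_mem (I : Rep.Tu F Γ) (w : kl (⊤ : Submodule B W) J) :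
    w ∈ (cutA E J).Y I ↔ (w : W) ∈ E.Y I :=
  forall_congr' fun i => forall₂_congr fun r _ => by
    rw [← cut_al E J i r w]
    exact (Submodule.coe_eq_zero).symm

end abs

section sub

variable {ι : Type} [Fintype ι] [DecidableEq ι] {F : Type} {Γ : ι → Type} {B G : Type} [Field F]
  [∀ i, Group (Γ i)] [∀ i, Fintype (Γ i)] [CommRing B] [AddCommGroup G] [Module B G]
  {W : Submodule B G} (E : Rep.Act F Γ B W) (J : Set B)

/-- the map to the ambient module -/
def toG (I : Rep.Tu F Γ) : (cutA E J).Y I →ₗ[B] kl ((E.Y I).map W.subtype) J where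
  toFun w := ⟨((w.1 : kl (⊤ : Submodule B W) J) : W),
    ⟨_, (cut_mem E J I w.1).1 w.2, rfl⟩, fun c hc => congrArg Subtype.val (w.1.2.2 c hc)⟩
  map_add' _ _ := rfl
  map_smul' _ _ := rfl

theorem toG_bij (I : Rep.Tu F Γ) : Function.Bijective (toG E J I) := by
  refine ⟨fun v w h => Subtype.ext (Subtype.ext (Subtype.ext (congrArg Subtype.val h :))), ?_⟩
  rintro ⟨_, ⟨w, hw, rfl⟩, h⟩
  exact ⟨⟨⟨w, trivial, fun c hc => Subtype.ext (h c hc)⟩, (cut_mem E J I _).2 hw⟩, rfl⟩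

/-- a linear map between modules over the symbols -/
def mt {T : Type} [CommRing T] (φ : T →+* B) {Y Y' : Submodule B G} (f : Y →ₗ[B] Y') :
    Mt φ Y →ₗ[T] Mt φ Y' where
  toFun := f
  map_add' := f.map_add
  map_smul' c w := f.map_smul (φ c) w

theorem ses {T : Type} [CommRing T] (φ : T →+* B) {a b c : Rep.Tu F Γ}
    (h : ∃ (f : (cutA E J).Y a →ₗ[B] (cutA E J).Y b) (g : (cutA E J).Y b →ₗ[B] (cutA E J).Y c),
      Function.Injective f ∧ Function.Exact f g ∧ Function.Surjective g) :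
    ∃ (f : Mt φ (kl ((E.Y a).map W.subtype) J) →ₗ[T] Mt φ (kl ((E.Y b).map W.subtype) J))
      (g : Mt φ (kl ((E.Y b).map W.subtype) J) →ₗ[T] Mt φ (kl ((E.Y c).map W.subtype) J)),
      Function.Injective f ∧ Function.Exact f g ∧ Function.Surjective g := by
  obtain ⟨f, g, h1, h2, h3⟩ := h
  let e (I : Rep.Tu F Γ) := LinearEquiv.ofBijective _ (toG_bij E J I)
  refine ⟨mt φ ((e b).toLinearMap ∘ₗ f ∘ₗ (e a).symm.toLinearMap),
    mt φ ((e c).toLinearMap ∘ₗ g ∘ₗ (e b).symm.toLinearMap),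
    (e b).injective.comp (h1.comp (e a).symm.injective), fun w => ?_,
    (e c).surjective.comp (h3.comp (e b).symm.surjective)⟩
  change e c (g ((e b).symm w)) = (0 : kl _ _) ↔ ∃ v, e b (f ((e a).symm v)) = w
  rw [(e c).map_eq_zero_iff, h2]
  constructor
  · rintro ⟨v, hv⟩
    exact ⟨e a v, by rw [(e a).symm_apply_apply, hv]; exact (e b).apply_symm_apply _⟩
  · rintro ⟨v, hv⟩
    exact ⟨(e a).symm v, by rw [← hv, (e b).symm_apply_apply]⟩

end sub

variable {O F : Type} [CommRing O] [IsLocalRing O] [Co O] [Field F] [CharP F 2] {U : Su O F}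
  [hC : ∀ l : U.L.C, Fact l.1.Prime]

theorem y_le {M n : ℕ} (X : Dt U M n) (I : Rep.Tu F U.Gam) : X.Y I ≤ U.sb M (U.Zp M n) := by
  rintro _ ⟨⟨w, -, rfl⟩, -⟩ h hh
  exact (w.2 h hh).1

end Exf

variable {O F : Type} [CommRing O] [IsLocalRing O] [Co O] [Field F] [CharP F 2] {U : Su O F}
  [hC : ∀ l : U.L.C, Fact l.1.Prime]

/-- **row EXF** -/
theorem exfC (Cc : ∀ l : U.L.C, Rep.Ch (ZMod l.1) F) (hZ : HZ U) (hD : DIA U) : EXF U Cc := by
  intro r n q P
  obtain ⟨⟨θ, hθ⟩, h2⟩ := hZ r n q P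
  refine ⟨fun i j k s => Exf.ses P.X.E P.X.JW P.ev (Rep.Act.sesH _ hθ s), ?_⟩
  rintro i ⟨w, hw⟩ h
  have d := (hD r n q P).1
  obtain ⟨v, hv, e⟩ := h2 _ w hw fun s =>
    ((d w (Exf.y_le _ _ hw)).1 s).symm.trans (congrArg Subtype.val (h s))
  exact ⟨⟨v, hv⟩, Subtype.ext (e.trans (d v (Exf.y_le _ _ hv)).2.1.symm)⟩

end Vale.Agent.P022D.Fm
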