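import Mathlib

/-!
P022D, forms side: old forms fill the Iwahori level up to the congruence ideal (pure algebra).
-/

set_option linter.all false

noncomputable section

namespace Vale.Agent.P022D.Fm

variable {B : Type} [CommRing B]

/-- kernel and cokernel are killed by `D` -/
def Qi {X Y : Type} [AddCommGroup X] [Module B X] [AddCommGroup Y] [Module B Y] (D : B)
    (β : X →ₗ[B] Y) : Prop :=
  (∀ x, β x = 0 → D • x = 0) ∧ ∀ y, D • y ∈ LinearMap.range β

section

variable {X Y Z : Type} [AddCommGroup X] [Module B X] [AddCommGroup Y] [Module B Y]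
  [AddCommGroup Z] [Module B Z]

theorem Qi.of_dvd {D D' : B} {β : X →ₗ[B] Y} (h : Qi D β) (e : D ∣ D') : Qi D' β := by
  obtain ⟨u, rfl⟩ := e
  refine ⟨fun x hx => ?_, fun y => ?_⟩
  · rw [mul_comm, mul_smul, h.1 x hx, smul_zero]
  · rw [mul_smul]
    exact h.2 _

theorem Qi.comp {D D' : B} {β : X →ₗ[B] Y} {β' : Y →ₗ[B] Z} (h' : Qi D' β') (h : Qi D β) :
    Qi (D * D') (β' ∘ₗ β) := by
  refine ⟨fun x hx => ?_, fun z => ?_⟩
  · rw [mul_smul]
    exact h.1 _ (by rw [map_smul]; exact h'.1 _ hx)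
  · obtain ⟨y, hy⟩ := h'.2 z
    obtain ⟨x, hx⟩ := h.2 y
    exact ⟨x, by rw [LinearMap.comp_apply, hx, map_smul, hy, mul_smul]⟩

theorem Qi.of_bij {β : X →ₗ[B] Y} (h : Function.Bijective β) : Qi (1 : B) β :=
  ⟨fun x hx => by rw [one_smul]; exact h.1 (hx.trans (map_zero β).symm), fun y => h.2 _⟩

theorem Qi.prod {D : B} {β : X →ₗ[B] Y} (h : Qi D β) : Qi D (β.prodMap β) := by
  refine ⟨fun x hx => Prod.ext (h.1 _ (congrArg Prod.fst hx)) (h.1 _ (congrArg Prod.snd hx)),
    fun y => ?_⟩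
  obtain ⟨a, ha⟩ := h.2 y.1
  obtain ⟨b, hb⟩ := h.2 y.2
  exact ⟨(a, b), Prod.ext ha hb⟩

/-- one prime -/
theorem qi_step (inc : X →ₗ[B] Y) (W : Y →ₗ[B] Y) (Tr : Y →ₗ[B] X) (a b e D : B)
    (h1 : ∀ f, Tr (inc f) = a • f) (h2 : ∀ f, Tr (W (inc f)) = b • f)
    (h3 : ∀ f, W (W (inc f)) = e • inc f)
    (hn : ∀ v, Tr v = 0 → Tr (W v) = 0 → D • v = 0) :
    Qi (D * (a ^ 2 * e - b ^ 2)) (inc.coprod (W ∘ₗ inc)) := by
  have k1 : ∀ x : X × X, Tr (inc.coprod (W ∘ₗ inc) x) = a • x.1 + b • x.2 := fun x => by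
    rw [LinearMap.coprod_apply, map_add, h1, LinearMap.comp_apply, h2]
  have k2 : ∀ x : X × X, Tr (W (inc.coprod (W ∘ₗ inc) x)) = b • x.1 + (a * e) • x.2 := fun x => by
    rw [LinearMap.coprod_apply, map_add, map_add, h2, LinearMap.comp_apply, h3, map_smul, h1,
      ← mul_smul, mul_comm e]
  refine ⟨fun x hx => ?_, fun v => ?_⟩
  · have a1 := k1 x
    have a2 := k2 x
    rw [hx] at a1 a2
    simp only [map_zero] at a1 a2
    have : (a ^ 2 * e - b ^ 2) • x = 0 := Prod.ext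
      (by rw [Prod.smul_fst, Prod.fst_zero]
          linear_combination (norm := module) b • a2 - (a * e) • a1)
      (by rw [Prod.smul_snd, Prod.snd_zero]
          linear_combination (norm := module) b • a1 - a • a2)
    rw [mul_smul, this, smul_zero]
  · let x : X × X := ((a * e) • Tr v - b • Tr (W v), a • Tr (W v) - b • Tr v)
    have := hn ((a ^ 2 * e - b ^ 2) • v - inc.coprod (W ∘ₗ inc) x)
      (by rw [map_sub, map_smul, k1]; simp only [x]; module)
      (by rw [map_sub, map_sub, map_smul, map_smul, k2]; simp only [x]; module)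
    rw [smul_sub, sub_eq_zero, ← mul_smul, ← map_smul] at this
    exact ⟨_, this.symm⟩

end

/-- splitting off the first sign -/
def spl (B X : Type) [CommRing B] [AddCommGroup X] [Module B X] (j : ℕ) :
    ((Fin (j + 1) → Bool) → X) →ₗ[B] ((Fin j → Bool) → X) × ((Fin j → Bool) → X) :=
  (LinearMap.funLeft B X fun ε => Fin.cons false ε).prod
    (LinearMap.funLeft B X fun ε => Fin.cons true ε)

theorem spl_bij (X : Type) [AddCommGroup X] [Module B X] (j : ℕ) :
    Function.Bijective (spl B X j) := by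
  refine ⟨fun f g h => funext fun ε => ?_, fun x =>
    ⟨fun ε => cond (ε 0) (x.2 (Fin.tail ε)) (x.1 (Fin.tail ε)), rfl⟩⟩
  rw [← Fin.cons_self_tail ε]
  cases ε 0
  · exact congrFun (congrArg Prod.fst h) _
  · exact congrFun (congrArg Prod.snd h) _

/-- a chain of primes -/
theorem qi_chain (V : ℕ → Type) [∀ j, AddCommGroup (V j)] [∀ j, Module B (V j)] (D : ℕ → B)
    (r : ℕ) (h : ∀ j < r, ∃ β : V j × V j →ₗ[B] V (j + 1), Qi (D j) β) :
    ∃ β : ((Fin r → Bool) → V 0) →ₗ[B] V r, Qi (∏ j ∈ Finset.range r, D j) β := by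
  induction r with
  | zero =>
    refine ⟨LinearMap.proj default, ?_⟩
    rw [Finset.prod_range_zero]
    exact Qi.of_bij ⟨fun f g e => funext fun ε => by rwa [Subsingleton.elim ε default],
      fun v => ⟨fun _ => v, rfl⟩⟩
  | succ r ih =>
    obtain ⟨β, hβ⟩ := ih fun j hj => h j (hj.trans r.lt_succ_self)
    obtain ⟨β', hβ'⟩ := h r r.lt_succ_self
    have := (hβ'.comp hβ.prod).comp (Qi.of_bij (spl_bij (B := B) (V 0) r))
    rw [one_mul, ← Finset.prod_range_succ] at this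
    exact ⟨_, this⟩

/-- the same, indexed by subsets -/
theorem qi_chainF (V : ℕ → Type) [∀ j, AddCommGroup (V j)] [∀ j, Module B (V j)] (D : ℕ → B)
    (r : ℕ) (h : ∀ j < r, ∃ β : V j × V j →ₗ[B] V (j + 1), Qi (D j) β) :
    ∃ β : (Finset (Fin r) → V 0) →ₗ[B] V r, Qi (∏ j : Fin r, D j) β := by
  obtain ⟨β, hβ⟩ := qi_chain V D r h
  let e : (Fin r → Bool) ≃ Finset (Fin r) := Fintype.equivOfCardEq (by simp)
  have := hβ.comp (Qi.of_bij (B := B) (LinearEquiv.funCongrLeft B (V 0) e).bijective)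
  rw [one_mul, Finset.prod_range] at this
  exact ⟨_, this⟩

end Vale.Agent.P022D.Fm
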