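import Vale.Agent.P022D.V.Wf2
import Vale.Agent.P022D.V.Form
import Vale.Agent.P022D.V.Grp

/-!
# P022D, forms side: group theory for the comparison of two levels
-/

set_option linter.all false

noncomputable section

namespace Vale.Agent.P022D.Fm

open Vale.Agent.P022D.V Vale.Agent.P022D.V.GrpP

/-- `M = N Q` with `Q` prime to `N` -/
structure Lc (N M : ℕ) : Prop where
  dvd : N ∣ M
  ne : M ≠ 0
  cop : Nat.Coprime N (M / N)

theorem cg_cop {M K Q : ℕ} (h : Nat.Coprime K Q) {x y : ZMod M} (a : Cg M K x y)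
    (b : Cg M Q x y) : Cg M (K * Q) x y := by
  obtain ⟨u, v, huv⟩ := Nat.isCoprime_iff_coprime.2 h
  have h1 : (u : ZMod M) * K + v * Q = 1 := by
    have := congrArg (Int.cast : ℤ → ZMod M) huv
    simpa using this
  obtain ⟨s, hs⟩ := a
  obtain ⟨t, ht⟩ := b
  refine ⟨u * t + v * s, ?_⟩
  push_cast
  linear_combination (y - x) * h1 + (u * K : ZMod M) * ht + (v * Q : ZMod M) * hs

theorem cg_dvd {M K K' : ℕ} (h : K ∣ K') {x y : ZMod M} (a : Cg M K' x y) : Cg M K x y := by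
  obtain ⟨c, rfl⟩ := h
  obtain ⟨t, ht⟩ := a
  exact ⟨c * t, by rw [ht, Nat.cast_mul, mul_assoc]⟩

theorem kq_dvd {M K K' : ℕ} (h : K ∣ K') {g : GM M} (a : g ∈ Kq M K') : g ∈ Kq M K :=
  fun i j => cg_dvd h (a i j)

theorem pr_pr {K N M : ℕ} (h : K ∣ N) (h' : N ∣ M) (g : GM M) :
    pr h (pr h' g) = pr (h.trans h') g := by
  apply Units.ext
  ext i j
  rw [pr_coe, pr_coe, pr_coe, ← RingHom.comp_apply, ZMod.castHom_comp]

theorem pr_self {N : ℕ} (g : GM N) : pr (dvd_refl N) g = g := by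
  apply Units.ext
  ext i j
  rw [pr_coe, ZMod.castHom_self, RingHom.id_apply]

namespace Lc

variable {N M : ℕ} (L : Lc N M)
include L

theorem self : Lc N N :=
  have h : N ≠ 0 := ne_zero_of_dvd_ne_zero L.ne L.dvd
  ⟨dvd_refl N, h, by rw [Nat.div_self (Nat.pos_of_ne_zero h)]; exact Nat.coprime_one_right N⟩

theorem dat : ∃ e f, Dat M N (M / N) e f := by
  obtain ⟨u, v, huv⟩ := Nat.isCoprime_iff_coprime.2 L.cop
  have h1 : (u : ZMod M) * N + v * (M / N : ℕ) = 1 := by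
    have := congrArg (Int.cast : ℤ → ZMod M) huv
    rwa [Int.cast_add, Int.cast_mul, Int.cast_mul, Int.cast_natCast, Int.cast_natCast,
      Int.cast_one] at this
  have h0 : (N : ZMod M) * (M / N : ℕ) = 0 := by
    rw [← Nat.cast_mul, Nat.mul_div_cancel' L.dvd, ZMod.natCast_self]
  exact ⟨N * u, (M / N : ℕ) * v, by linear_combination h1,
    by linear_combination (u * v : ZMod M) * h0, ⟨_, rfl⟩, ⟨_, rfl⟩,
    by linear_combination (v : ZMod M) * h0, by linear_combination (u : ZMod M) * h0⟩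

theorem pr_eq {e f : ZMod M} (D : Dat M N (M / N) e f) {g g' : GM M}
    (h : f • (g : Mt M) = f • (g' : Mt M)) : pr L.dvd g = pr L.dvd g' := by
  apply Units.ext
  ext i j
  rw [pr_coe, pr_coe, Wq.cast_eq]
  exact D.cg.2 (congrFun (congrFun h i) j)

theorem uniq {g g' : GM M} (a : g ∈ Kq M (M / N)) (b : g' ∈ Kq M (M / N))
    (h : pr L.dvd g = pr L.dvd g') : g = g' := by
  obtain ⟨e, f, D⟩ := L.dat
  refine D.ext ((D.symm.kq.1 a).trans (D.symm.kq.1 b).symm) (Matrix.ext fun i j => D.cg.1 ?_)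
  rw [← Wq.cast_eq L.dvd, ← pr_coe, ← pr_coe, h]

theorem lift {K : ℕ} (hK : K ∣ N) {g₀ : GM N} (h : g₀ ∈ Kq N K) :
    ∃ g ∈ Kq M (K * (M / N)), pr L.dvd g = g₀ := by
  obtain ⟨e, f, D⟩ := L.dat
  obtain ⟨g', rfl⟩ := pr_surj L.dvd L.ne g₀
  have e1 : pr L.dvd (mix D 1 g') = pr L.dvd g' := L.pr_eq D (mix_f D 1 g')
  have e2 : mix D 1 g' ∈ Kq M K := by
    rw [Wq.mem_Kq (hK.trans L.dvd), ← pr_pr hK L.dvd, e1, ← Wq.mem_Kq]
    exact h
  exact ⟨_, fun i j => cg_cop (Nat.Coprime.coprime_dvd_left hK L.cop) (e2 i j)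
    (D.symm.kq.2 (mix_e D 1 g') i j), e1⟩

theorem unit {K : ℕ} (hK : K ∣ N) {a₀ : (ZMod N)ˣ} (h : Cg N K a₀ 1) :
    ∃ a : (ZMod M)ˣ, Cg M (K * (M / N)) a 1 ∧ ZMod.castHom L.dvd (ZMod N) a = a₀ := by
  obtain ⟨g, a, b⟩ := L.lift hK (Wq.dg_K h (⟨0, by simp⟩ : Cg N K ((1 : (ZMod N)ˣ) : ZMod N) 1))
  refine ⟨Matrix.GeneralLinearGroup.det g, ?_, ?_⟩
  · obtain ⟨x, hx⟩ := a 0 0
    obtain ⟨y, hy⟩ := a 0 1
    obtain ⟨z, hz⟩ := a 1 1
    rw [det_val, hx, hy, hz]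
    refine ⟨x + z + (K * (M / N) : ℕ) * x * z - y * (g : Mt M) 1 0, ?_⟩
    simp only [Matrix.one_apply_eq, Matrix.one_apply_ne (show (0 : Fin 2) ≠ 1 by decide)]
    ring
  · rw [det_val, map_sub, map_mul, map_mul, ← pr_coe, ← pr_coe, ← pr_coe, ← pr_coe, b, dg_coe]
    simp

/-- an element which is upper triangular outside `N` -/
theorem red {g : GM M} (h : (N : ZMod M) * (g : Mt M) 1 0 = 0) :
    ∃ g' ∈ Kq M (M / N), ∃ b ∈ Bq M N, pr L.dvd g' = pr L.dvd g ∧ g = g' * b := by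
  obtain ⟨e, f, D⟩ := L.dat
  have k1 := mix_e D 1 g
  have k2 := mix_f D 1 g
  have k3 := mix_e D g 1
  have k4 := mix_f D g 1
  refine ⟨mix D 1 g, D.symm.kq.2 k1, mix D g 1, ⟨D.kq.2 k4, ?_⟩, L.pr_eq D k2, D.ext ?_ ?_⟩
  · have e1 : e * (g : Mt M) 1 0 = e * 0 := D.mm.1 (by rw [h, mul_zero])
    show (e • (g : Mt M) + f • ((1 : GM M) : Mt M)) 1 0 = 0
    rw [Matrix.add_apply, Matrix.smul_apply, Matrix.smul_apply, smul_eq_mul, e1, Units.val_one,
      Matrix.one_apply_ne (by decide), smul_zero, mul_zero, add_zero]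
  · rw [Units.val_mul, ← Matrix.smul_mul, k1, Matrix.smul_mul, ← Matrix.mul_smul, k3, Units.val_one,
      Matrix.one_mul]
  · rw [Units.val_mul, ← Matrix.mul_smul, k4, Matrix.mul_smul, ← Matrix.smul_mul, k2, Units.val_one,
      Matrix.mul_one]

/-- the two factors commute -/
theorem comm {g k : GM M} (a : g ∈ Kq M (M / N)) (b : k ∈ Kq M N) : g * k = k * g := by
  obtain ⟨e, f, D⟩ := L.dat
  have k1 := D.symm.kq.1 a
  have k2 := D.kq.1 b
  refine D.ext ?_ ?_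
  · rw [Units.val_mul, Units.val_mul, ← Matrix.smul_mul, ← Matrix.mul_smul (k : Mt M), k1,
      Matrix.smul_mul, Matrix.mul_smul, Matrix.one_mul, Matrix.mul_one]
  · rw [Units.val_mul, Units.val_mul, ← Matrix.mul_smul, ← Matrix.smul_mul f (k : Mt M), k2,
      Matrix.smul_mul, Matrix.mul_smul, Matrix.one_mul, Matrix.mul_one]

end Lc

end Vale.Agent.P022D.Fm
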