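import Vale.Agent.P022D.Fm.Defs
import Vale.Agent.P022D.Nw.Fml
import Vale.Agent.P022D.Nw.Alg
import Vale.Agent.P022D.Gt.Nat

/-!
# P022D, forms side: the Galois operators and the operators at a prime of the level
-/

set_option linter.all false

open scoped MatrixGroups

noncomputable section

namespace Vale.Agent.P022D.Fm.N6

open Vale.Agent.P022 Vale.Agent.P022D.V Vale.Agent.P027M.M
open Vale.Agent.P022D.G (Wd wT wS Inert)
open Vale.Agent.P027M.S (mx)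

section abs

variable {O A : Type} [CommRing O] [AddCommGroup A] [Module O A]
  {H : Subalgebra O (Module.End O A)} {G : Submodule O A}

/-- the underlying operator as a ring homomorphism -/
def opH : BT H G →+* Module.End O G where
  toFun := BT.op
  map_one' := rfl
  map_mul' _ _ := rfl
  map_zero' := rfl
  map_add' _ _ := rfl

theorem mul_sm (a b : BT H G) (v : G) : (a * b) • v = a • b • v := rfl

theorem rad_unit {B X : Type} [CommRing B] [AddCommGroup X] [Module B X] {v : X} {u : B}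
    (hu : IsUnit u) (h : u ∈ (Ideal.torsionOf B X v).radical) : v = 0 := by
  obtain ⟨k, hk⟩ := h
  exact (hu.pow k).smul_eq_zero.1 ((Ideal.mem_torsionOf_iff _ _).1 hk)

theorem Nl_map {e Φ : Module.End O A} {P : Submodule O A}
    (h : ∀ v ∈ P, e v ∈ P ∧ Φ (e v) = e (Φ v)) {v : A} (hv : v ∈ P) (hn : v ∈ Nl e) :
    Φ v ∈ Nl e := by
  have k : ∀ (k : ℕ), ∀ v ∈ P, Φ ((e ^ k) v) = (e ^ k) (Φ v) := by
    intro k
    induction k with
    | zero => exact fun _ _ => rfl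
    | succ k ih =>
      intro v hv
      rw [pow_succ, Module.End.mul_apply, Module.End.mul_apply, ih _ (h v hv).1, (h v hv).2]
  obtain ⟨n, hn⟩ := mem_Nl.1 hn
  exact mem_Nl.2 ⟨n, by rw [← k n v hv, hn, map_zero]⟩

theorem Nl_map' {e Φ : Module.End O A} {P : Submodule O A} (c : O)
    (h : ∀ v ∈ P, e v ∈ P ∧ Φ (e v) = e (Φ v)) {v : A} (hv : v ∈ P)
    (hn : v ∈ Nl (e - algebraMap O _ c)) : Φ v ∈ Nl (e - algebraMap O _ c) :=
  Nl_map (P := P) (fun v hv => by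
    simp only [LinearMap.sub_apply, Module.algebraMap_end_apply, map_sub, map_smul, (h v hv).2,
      and_true]
    exact P.sub_mem (h v hv).1 (P.smul_mem c hv)) hv hn

end abs

section gal

variable {O F : Type} [CommRing O] [Field F] [IsLocalRing O] {U : Su O F}

theorem red_tr (hL : U.L.Ok U.S) (g : GQ) : U.S.red (U.tr g) = (mx U.S.rb g).trace := by
  rw [← hL.lift g, Su.tr, Matrix.trace_fin_two, Matrix.trace_fin_two, map_add]
  rfl

theorem unit_of_red (hL : U.L.Ok U.S) {c : O} (h : U.S.red c ≠ 0) : IsUnit c := by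
  by_contra hn
  exact h ((hL.ker c).2 hn)

variable [CharP F 2]

/-- a Frobenius element with unit trace -/
theorem ex_l0 (hL : U.L.Ok U.S) (S : Finset ℕ) :
    ∃ (p : ℕ) (φ : GQ), p.Prime ∧ p ∉ S ∧ IsFrob p φ ∧ IsUnit (U.tr φ) := by
  have h2 : (2 : F) = 0 := CharTwo.two_eq_zero
  obtain ⟨g, hg, hne⟩ := hL.dh.irr
  obtain ⟨p, φ, k, h1, h3, h4, h5⟩ := G.frob U.S.rb.ker inferInstance hL.dh.opn g S
  refine ⟨p, φ, h1, h3, h4, unit_of_red hL fun ht => hne ?_⟩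
  rw [red_tr hL] at ht
  have hd := hL.det φ
  have e : mx U.S.rb g = mx U.S.rb φ ^ k := by
    rw [MonoidHom.mem_ker, map_mul, map_inv, inv_mul_eq_one, map_pow] at h5
    show ((U.S.rb g : GL (Fin 2) F) : Matrix (Fin 2) (Fin 2) F) = _
    rw [h5, Units.val_pow_eq_pow_val]
  generalize mx U.S.rb φ = A at ht hd e
  have sq : A * A = 1 := by
    rw [Matrix.trace_fin_two] at ht
    rw [Matrix.det_fin_two] at hd
    ext i j
    fin_cases i <;> fin_cases j <;> simp [Matrix.mul_apply, Fin.sum_univ_two]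
    · linear_combination A 0 0 * ht - hd - h2
    · linear_combination A 0 1 * ht
    · linear_combination A 1 0 * ht
    · linear_combination A 1 1 * ht - hd - h2
  have tz : ∀ k : ℕ, (A ^ k).trace = 0 ∧ (A ^ (k + 1)).trace = 0 := by
    intro k
    induction k with
    | zero => exact ⟨by rw [pow_zero, Matrix.trace_fin_two]; simpa using one_add_one_eq_two.trans h2,
        by rw [zero_add, pow_one, ht]⟩
    | succ k ih => exact ⟨ih.2, by rw [pow_succ, pow_succ, mul_assoc, sq, mul_one, ih.1]⟩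
  have := (tz k).1
  rw [← e, Matrix.trace_fin_two] at this
  linear_combination this - mx U.S.rb g 1 1 * h2

/-- the traces see the non trivial elements -/
theorem ex_tr (hL : U.L.Ok U.S) {s : GQ} (hs : mx U.S.rb s ≠ 1) :
    ∃ g, IsUnit (U.tr (g * s) - U.tr g) := by
  have h2 : (2 : F) = 0 := CharTwo.two_eq_zero
  by_contra hn
  have k : ∀ g, (mx U.S.rb (g * s)).trace = (mx U.S.rb g).trace := fun g => by
    by_contra e
    refine hn ⟨g, unit_of_red hL ?_⟩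
    rwa [map_sub, red_tr hL, red_tr hL, sub_ne_zero]
  obtain ⟨g, hg, hne⟩ := hL.dh.irr
  by_cases h : s ∈ U.L.H
  · have a := k 1
    have b := k g
    have c := hL.dh.dg s h
    have c' := hL.dh.dg g hg
    have e : mx U.S.rb (g * s) = mx U.S.rb g * mx U.S.rb s := by
      simp only [mx, map_mul, Units.val_mul]
    have e1 : mx U.S.rb 1 = 1 := by simp only [mx, map_one, Units.val_one]
    rw [one_mul, e1] at a
    rw [e] at b
    simp only [Matrix.trace_fin_two, Matrix.mul_apply, Fin.sum_univ_two, c.1, c.2, c'.1, c'.2,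
      Matrix.one_apply_eq, mul_zero, add_zero, zero_add] at a b
    have x : mx U.S.rb s 0 0 = 1 := by
      refine mul_left_cancel₀ (sub_ne_zero.2 hne) ?_
      linear_combination b - mx U.S.rb g 1 1 * a
    refine hs ?_
    ext i j
    fin_cases i <;> fin_cases j
    · simpa using x
    · simpa using c.1
    · simpa using c.2
    · have : mx U.S.rb s 1 1 = 1 := by linear_combination a - x
      simpa using this
  · have a := k (g * s⁻¹)
    have c := hL.dh.ad (g * s⁻¹) fun e => h (by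
      simpa using U.L.H.mul_mem (U.L.H.inv_mem e) hg)
    rw [inv_mul_cancel_right, Matrix.trace_fin_two, Matrix.trace_fin_two, c.1, c.2] at a
    exact hne (by linear_combination a - mx U.S.rb g 1 1 * h2)

end gal

variable {O F : Type} [CommRing O] [Field F] [Co O] {U : Su O F} {M : ℕ}

theorem uP_coe (ℓ : PA M) : (uP ℓ : ZMod M) = ℓ.1 := ZMod.coe_unitOfCoprime _ _

theorem bw_wT (i : ℕ) (ℓ : PA M) : bw O M i (wT ℓ) = T2 O (RD O) i ℓ.1 (uP ℓ) :=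
  FreeAlgebra.lift_ι_apply _ _

theorem bw_wS (i : ℕ) (ℓ : PA M) : bw O M i (wS ℓ) = S2 O (RD O) i ℓ.1 (uP ℓ) :=
  FreeAlgebra.lift_ι_apply _ _

/-- `Φ` commutes with the Hecke operators on the stable part `P` -/
def Ch (i : ℕ) (P : Submodule O (AM O M)) (Φ : Module.End O (AM O M)) : Prop :=
  ∀ ℓ : PA M, ∀ v ∈ P,
    (T2 O (RD O) i ℓ.1 (uP ℓ) v ∈ P ∧
      Φ (T2 O (RD O) i ℓ.1 (uP ℓ) v) = T2 O (RD O) i ℓ.1 (uP ℓ) (Φ v)) ∧
    (S2 O (RD O) i ℓ.1 (uP ℓ) v ∈ P ∧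
      Φ (S2 O (RD O) i ℓ.1 (uP ℓ) v) = S2 O (RD O) i ℓ.1 (uP ℓ) (Φ v))

theorem Ch.gg {P : Submodule O (AM O M)} {Φ : Module.End O (AM O M)} (h : Ch U.i P Φ)
    {v : AM O M} (hv : v ∈ P) (hg : v ∈ U.GG M) (hx : Φ v ∈ XD O M U.i) : Φ v ∈ U.GG M := by
  refine ⟨hx, (Submodule.mem_iInf _).2 fun ℓ => (Submodule.mem_iInf _).2 fun hl => ?_⟩
  have a := (Submodule.mem_iInf _).1 ((Submodule.mem_iInf _).1 hg.2 ℓ) hl
  rw [bw_wT, bw_wS] at a ⊢
  exact ⟨Nl_map' _ (fun v hv => (h ℓ v hv).1) hv a.1, Nl_map' _ (fun v hv => (h ℓ v hv).2) hv a.2⟩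

theorem ch_rt (i : ℕ) (g : GM M) : Ch i ⊤ (rD O g) := fun ℓ v _ =>
  ⟨⟨trivial, rt_T2 g i _ _ v⟩, trivial, rt_S2 g i _ _ v⟩

theorem ch_id (i : ℕ) (H : Set (GM M)) : Ch i (Iv O (RD O) H) 1 := fun ℓ v hv =>
  ⟨⟨Iv_T2 i _ _ hv, rfl⟩, Iv_S2 i _ _ hv, rfl⟩

section op

variable {t : GQ → U.B M} {d : GQ →* (U.B M)ˣ} (h : U.Op t d)
include h

theorem op_law : G.Law (fun g => (t g).op) (fun g => (d g : U.B M).op) where
  one := by
    show opH (t 1) = 2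
    rw [h.tf.one, map_ofNat]
  comm g k := congrArg BT.op (h.tf.comm g k)
  mul g k := congrArg BT.op (h.tf.mul g k)
  d1 := by
    show opH _ = 1
    rw [map_one d, Units.val_one, map_one]
  dm g k := by
    show opH _ = opH _ * opH _
    rw [map_mul d, Units.val_mul, map_mul]
  opn v := let ⟨V, a, b, _, e⟩ := h.opn v; ⟨V, a, b, e⟩

theorem op_fr {p : ℕ} (hp : p.Prime) (hM : ¬ p ∣ 2 * M) {u : (ZMod M)ˣ} (hu : (u : ZMod M) = p)
    {φ : GQ} (hφ : IsFrob p φ) (v : U.GG M) :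
    ((t φ • v : U.GG M) : AM O M) = T2 O (RD O) U.i p u v ∧
      (((d φ : U.B M) • v : U.GG M) : AM O M) = S2 O (RD O) U.i p u v := by
  obtain rfl : u = uP ⟨p, hp, hM⟩ := Units.ext (hu.trans (uP_coe ⟨p, hp, hM⟩).symm)
  exact ⟨h.frT ⟨p, hp, hM⟩ φ hφ v, h.frS ⟨p, hp, hM⟩ φ hφ v⟩

theorem op_rad (g : GQ) (v : U.GG M) :
    t g - algebraMap O _ (U.tr g) ∈ (Ideal.torsionOf (U.B M) _ v).radical :=
  let ⟨k, a, _⟩ := h.nil g v; ⟨k, (Ideal.mem_torsionOf_iff _ _).2 a⟩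

theorem op_inj {g : GQ} (hu : IsUnit (U.tr g)) : Function.Injective (t g).op := by
  refine (injective_iff_map_eq_zero _).2 fun v e => rad_unit (hu.map (algebraMap O (U.B M))) ?_
  have a := sub_mem (Ideal.le_radical ((Ideal.mem_torsionOf_iff v (t g)).2 e)) (op_rad h g v)
  rwa [sub_sub_cancel] at a

/-- **naturality** -/
theorem op_nat (hM : M ≠ 0) {P : Submodule O (AM O M)} {Φ : Module.End O (AM O M)}
    (c : Ch U.i P Φ) (g : GQ) {v w : U.GG M} (hv : (v : AM O M) ∈ P) (e : (w : AM O M) = Φ v) :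
    (((t g • v : U.GG M) : AM O M) ∈ P ∧ ((t g • w : U.GG M) : AM O M) = Φ (t g • v : U.GG M)) ∧
    ((((d g : U.B M) • v : U.GG M) : AM O M) ∈ P ∧
      (((d g : U.B M) • w : U.GG M) : AM O M) = Φ ((d g : U.B M) • v : U.GG M)) := by
  let A : AddSubgroup (U.GG M × U.GG M) :=
    { carrier := {x | (x.1 : AM O M) ∈ P ∧ (x.2 : AM O M) = Φ x.1}
      zero_mem' := ⟨P.zero_mem, (map_zero Φ).symm⟩
      add_mem' := fun a b => ⟨P.add_mem a.1 b.1, by
        rw [Prod.fst_add, Prod.snd_add, Submodule.coe_add, Submodule.coe_add, map_add, a.2, b.2]⟩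
      neg_mem' := fun a => ⟨P.neg_mem a.1, by
        rw [Prod.fst_neg, Prod.snd_neg, Submodule.coe_neg, Submodule.coe_neg, map_neg, a.2]⟩ }
  refine Nw.law_rel (op_law h) (op_law h) A (2 * M).primeFactors (fun p φ hp hS hφ v w a => ?_) g
    (v := v) (w := w) ⟨hv, e⟩
  let ℓ : PA M := ⟨p, hp, Gt.not_mem_pf hM hp hS⟩
  have x := c ℓ v a.1
  have a2 : (w : AM O M) = Φ v := a.2
  refine ⟨⟨(h.frT ℓ φ hφ v).symm ▸ x.1.1, ?_⟩, (h.frS ℓ φ hφ v).symm ▸ x.2.1, ?_⟩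
  · exact (h.frT ℓ φ hφ w).trans (by rw [a2, ← x.1.2, ← h.frT ℓ φ hφ v]; rfl)
  · exact (h.frS ℓ φ hφ w).trans (by rw [a2, ← x.2.2, ← h.frS ℓ φ hφ v]; rfl)

/-- invariants are stable -/
theorem op_iv (hM : M ≠ 0) {H : Set (GM M)} (g : GQ) {v : U.GG M}
    (hv : (v : AM O M) ∈ Iv O (RD O) H) : ((t g • v : U.GG M) : AM O M) ∈ Iv O (RD O) H ∧
      (((d g : U.B M) • v : U.GG M) : AM O M) ∈ Iv O (RD O) H :=
  let a := op_nat h hM (ch_id U.i H) g hv (w := v) rfl; ⟨a.1.1, a.2.1⟩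

variable [IsLocalRing O] [CharP F 2] (hL : U.L.Ok U.S)
include hL

theorem op_gv (hM : M ≠ 0) : Nw.Gv O (fun g => (t g).op) (fun g => (d g : U.B M).op) (RD O) M
    U.i (U.GG M).subtype.toAddMonoidHom := by
  obtain ⟨p, φ, h1, h2, h3, h4⟩ := ex_l0 hL (2 * M).primeFactors
  exact ⟨op_law h, Subtype.val_injective, (2 * M).primeFactors,
    fun p u φ hp hS hu hφ v => op_fr h hp (Gt.not_mem_pf hM hp hS) hu hφ v,
    p, φ, h1, h2, Gt.not_mem_pf hM h1 h2, h3, op_inj h h4⟩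

/-- **no invariant vectors at a residually ramified prime** -/
theorem op_noinv {M₀ q : ℕ} (sp : Sp M M₀ q) {s : GQ} (hs : Inert q s) (hr : mx U.S.rb s ≠ 1)
    {v : U.GG M} (hv : (v : AM O M) ∈ Iv O (RD O) (Kq M M₀)) : v = 0 := by
  obtain ⟨g, hg⟩ := ex_tr hL hr
  refine rad_unit (hg.map (algebraMap O (U.B M))) ?_
  have a : t (g * s) - t g ∈ Ideal.torsionOf (U.B M) _ v :=
    (Ideal.mem_torsionOf_iff _ _).2 (by rw [sub_smul, h.ur M₀ q sp s hs v hv g, sub_self])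
  have b := add_mem (sub_mem (Ideal.le_radical a) (op_rad h (g * s) v)) (op_rad h g v)
  rw [map_sub]
  refine Eq.mp (congrArg _ ?_) b
  ring

end op

section W

variable {M₀ q : ℕ} (sp : Sp M M₀ q) {s : GM M} (hs : IsS M M₀ s)
include sp

theorem pzD : PZ M (zD O M) := (root O M sp.odd).2.2.2.2.2.1

theorem sp3 : 3 ≤ M := by
  have a := sp.prime.two_le
  obtain ⟨k, hk⟩ := sp.qodd
  exact le_trans (by omega) (Nat.le_of_dvd sp.Mpos ⟨M₀, by rw [sp.eq, mul_comm]⟩ : q ≤ M)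

theorem XD_tc (i : ℕ) {v : AM O M} (hv : v ∈ XD O M i) : TC (zD O M) v := by
  have k := (vs3 O M 2 sp.odd (root O M sp.odd).2.2.2.2.2.2.2.2.2).2.2.2.2.2.2.2.2.2
  obtain ⟨a, ha, b, hb, rfl⟩ := Submodule.mem_sup.1 hv
  intro g n
  rw [Pi.add_apply, Pi.add_apply, map_add, map_add, mul_add, k _ a ha.1, k _ b hb.1]

theorem XD_rt (i : ℕ) (g : GM M) {v : AM O M} (hv : v ∈ XD O M i) : rt O (RD O) g v ∈ XD O M i :=
  ((All.div O M sp.odd (sp3 sp)).2.2.2.1 i v hv).2.1 g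

theorem XD_W2 (i : ℕ) {v : AM O M} (hv : v ∈ XD O M i) (hu : v ∈ Iv O (RD O) (Uq M M₀)) :
    W2 O (RD O) M M₀ q (zD O M) i v ∈ XD O M i := by
  obtain ⟨d1, -, d3, d4, -⟩ := All.div O M sp.odd (sp3 sp)
  obtain ⟨n, hn⟩ := (d4 i v hv).1
  have h0 : (2 : O) ^ n ≠ 0 := fun e => by
    have := congrArg (Co.j : O →+* ℂ) e
    rw [map_pow, map_ofNat, map_zero] at this
    exact pow_ne_zero n two_ne_zero this
  obtain ⟨x, hx, rfl⟩ := ((d3 i _ h0).2 v).1 ⟨hv, hn⟩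
  have hx' : x ∈ Iv O _ (Uq M M₀) := mem_Iv.2 fun g hg => d1 _ h0 (by
    rw [ml_rt, mem_Iv.1 hu g hg])
  rw [← ml_W2 (dv ((2 : O) ^ n)) M₀ q (z := zR M ((2 : O) ^ n)) (fun y => by
    simpa using Ih.dv_z (M := M) ((2 : O) ^ n) 1 y)]
  exact (((d3 i _ h0).2 _).2 ⟨_, (All.wv O M M₀ q sp (sp3 sp)).2.1 i _ h0 x ⟨hx, hx'⟩, rfl⟩).1

theorem XD_Tr (i : ℕ) {v : AM O M} (hv : v ∈ XD O M i) :
    (1 + Ts O (RD O) M₀ q s) v ∈ XD O M i := by
  rw [LinearMap.add_apply, Ts_apply]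
  exact add_mem hv (Submodule.sum_mem _ fun x _ => XD_rt sp i _ hv)

theorem GG_rt (g : GM M) {v : AM O M} (hv : v ∈ U.GG M) : rt O (RD O) g v ∈ U.GG M :=
  (ch_rt U.i g).gg trivial hv (XD_rt sp _ g hv.1)

include hs

theorem ch_W (i : ℕ) : Ch i (Iv O (RD O) (Bq M M₀)) (W2 O (RD O) M M₀ q (zD O M) i) :=
  fun ℓ v hv => ⟨⟨Iv_T2 i _ _ hv, Nw.Cm.W2 (Nw.cm_T2 sp (pzD sp).pow hs i (uP_coe ℓ)) i hv⟩,
    Iv_S2 i _ _ hv, Nw.Cm.W2 (Nw.cm_S2 sp (pzD sp).pow hs i _ _) i hv⟩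

theorem ch_Tr (i : ℕ) : Ch i (Iv O (RD O) (Bq M M₀)) (1 + Ts O (RD O) M₀ q s) :=
  fun ℓ v hv => ⟨⟨Iv_T2 i _ _ hv, Nw.Cm.tr (Nw.cm_T2 sp (pzD sp).pow hs i (uP_coe ℓ)) hv⟩,
    Iv_S2 i _ _ hv, Nw.Cm.tr (Nw.cm_S2 sp (pzD sp).pow hs i _ _) hv⟩

theorem GG_W {v : AM O M} (hv : v ∈ U.GG M) (hb : v ∈ Iv O (RD O) (Bq M M₀)) :
    W2 O (RD O) M M₀ q (zD O M) U.i v ∈ U.GG M :=
  (ch_W sp hs U.i).gg hb hv (XD_W2 sp _ hv.1 (Nw.B_U hb))

theorem GG_Tr {v : AM O M} (hv : v ∈ U.GG M) (hb : v ∈ Iv O (RD O) (Bq M M₀)) :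
    (1 + Ts O (RD O) M₀ q s) v ∈ U.GG M :=
  (ch_Tr sp hs U.i).gg hb hv (XD_Tr sp _ hv.1)

variable {t : GQ → U.B M} {d : GQ →* (U.B M)ˣ} (h : U.Op t d) [IsLocalRing O] [CharP F 2]
  (hL : U.L.Ok U.S)
include h hL

/-- **new vectors** -/
theorem op_new (hN : Nw.NEWD O) {φ : GQ} (hφ : IsFrob q φ) {v : U.GG M}
    (hb : (v : AM O M) ∈ Iv O (RD O) (Bq M M₀)) (h1 : (1 + Ts O (RD O) M₀ q s) (v : AM O M) = 0)
    (h2 : (1 + Ts O (RD O) M₀ q s) (W2 O (RD O) M M₀ q (zD O M) U.i v) = 0) :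
    ((q : U.B M) * t φ ^ 2 - ((q : U.B M) + 1) ^ 2 * d φ) ^ 2 • v = 0 := by
  have a := hN M M₀ q U.i s sp (sp3 sp) hs O _ _ _ _ (op_gv h hL sp.Mpos.ne') φ hφ v
    ⟨v.2.1, hb⟩ h1 h2
  have e : Nw.Dn (fun g => (t g).op) (fun g => (d g : U.B M).op) q φ =
      opH ((q : U.B M) * t φ ^ 2 - ((q : U.B M) + 1) ^ 2 * (d φ : U.B M)) := by
    rw [← Nat.cast_succ, ← Nat.cast_pow, ← nsmul_eq_mul, ← nsmul_eq_mul, map_sub, map_nsmul,
      map_nsmul, sq, map_mul]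
    rfl
  rw [e] at a
  rw [sq]
  exact a

/-- **the trace of `W` on old vectors** -/
theorem op_tl (hG : Gt.GT O) (h3 : 3 ≤ M₀) {φ : GQ} (hφ : IsFrob q φ) {f : U.GG M}
    (hf : (f : AM O M) ∈ Iv O (RD O) (Kq M M₀)) :
    (1 + Ts O (RD O) M₀ q s) (W2 O (RD O) M M₀ q (zD O M) U.i f) =
      q • ((t φ • f : U.GG M) : AM O M) ∧
    W2 O (RD O) M M₀ q (zD O M) U.i (W2 O (RD O) M M₀ q (zD O M) U.i f) =
      q • (((d φ : U.B M) • f : U.GG M) : AM O M) := by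
  haveI : NeZero M₀ := ⟨by omega⟩
  have hM := sp.Mpos.ne'
  obtain ⟨p, ψ, h1, h2, hψ, h4⟩ := ex_l0 hL (2 * M).primeFactors
  have m := Gt.not_mem_pf hM h1 h2
  have dn : ∀ {p : ℕ}, ¬ p ∣ 2 * M → ¬ p ∣ 2 * M₀ := fun m e =>
    m (e.trans (mul_dvd_mul_left 2 sp.dvd))
  obtain ⟨t₀, d₀, ga⟩ := hG M₀ U.i p ⟨sp.odd.of_dvd_nat sp.dvd, h3, h1, dn m⟩
  obtain ⟨y, hy, e⟩ : (f : AM O M) ∈ (XD O M₀ U.i).map (ifl O _ sp.dvd) := by
    rw [((All.descv O M₀ M sp.dvd sp.odd h3).2 U.i).2]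
    exact ⟨f.2.1, hf⟩
  have it : ∀ k : ℕ, ifl O _ sp.dvd ((T2 O (RD O) U.i p (Gt.cl M₀ p) ^ k) y) =
      ((t ψ ^ k • f : U.GG M) : AM O M) := by
    intro k
    induction k with
    | zero => rw [pow_zero, pow_zero, one_smul]; exact e
    | succ k ih =>
      rw [pow_succ', pow_succ', Module.End.mul_apply, (Gt.ifl_cl sp.dvd h1 m _).1, ih, mul_sm,
        (op_fr h h1 m (Gt.nd2 h1 m).2 hψ _).1]
  have per : ∃ n, 0 < n ∧ t ψ ^ n • f = f := by
    haveI := h.fin f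
    obtain ⟨a, b, ne, ab⟩ := Finite.exists_ne_map_eq_of_infinite fun k : ℕ =>
      (⟨t ψ ^ k • f, Submodule.smul_mem _ _ (Submodule.mem_span_singleton_self f)⟩ :
        Submodule.span (U.B M) {f})
    have k : ∀ a n : ℕ, t ψ ^ (a + n) • f = t ψ ^ a • f → t ψ ^ n • f = f := by
      intro a n
      induction a with
      | zero => intro x; rwa [zero_add, pow_zero, one_smul] at x
      | succ a ih =>
        intro x
        rw [add_right_comm, pow_succ', pow_succ'] at x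
        exact ih (op_inj h h4 x)
    replace ab : t ψ ^ a • f = t ψ ^ b • f := congrArg Subtype.val ab
    rcases lt_or_gt_of_ne ne with l | l
    · obtain ⟨n, rfl⟩ := Nat.exists_eq_add_of_le l.le
      exact ⟨n, by omega, k a n ab.symm⟩
    · obtain ⟨n, rfl⟩ := Nat.exists_eq_add_of_le l.le
      exact ⟨n, by omega, k b n ab⟩
  obtain ⟨n, n0, hn⟩ := per
  have hy' : y ∈ Gt.Xo O M₀ U.i p :=
    ⟨hy, n, n0, ifl_inj (S := O) sp.dvd sp.odd (by rw [it, hn, e])⟩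
  let A : AddSubgroup (U.GG M × Gt.Xo O M₀ U.i p) :=
    { carrier := {x | (x.1 : AM O M) = ifl O _ sp.dvd x.2}
      zero_mem' := (map_zero _).symm
      add_mem' := fun {a b} x y => by
        show ((a.1 + b.1 : U.GG M) : AM O M) = ifl O _ sp.dvd (a.2 + b.2 : Gt.Xo O M₀ U.i p)
        rw [Submodule.coe_add, Submodule.coe_add, map_add, x, y]
      neg_mem' := fun {a} x => by
        show ((-a.1 : U.GG M) : AM O M) = ifl O _ sp.dvd (-a.2 : Gt.Xo O M₀ U.i p)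
        rw [Submodule.coe_neg, Submodule.coe_neg, map_neg, x] }
  have r := Nw.law_rel (op_law h) ga.law A (2 * M).primeFactors (fun l χ hl hS hχ v w a => by
    have ml := Gt.not_mem_pf hM hl hS
    have a' : (v : AM O M) = ifl O _ sp.dvd w := a
    constructor
    · exact (op_fr h hl ml (Gt.nd2 hl ml).2 hχ v).1.trans (by
        rw [a', ← (Gt.ifl_cl sp.dvd hl ml _).1, ← (ga.fr hl (dn ml) hχ w).1])
    · exact (op_fr h hl ml (Gt.nd2 hl ml).2 hχ v).2.trans (by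
        rw [a', ← (Gt.ifl_cl sp.dvd hl ml _).2, ← (ga.fr hl (dn ml) hχ w).2])) φ
    (v := f) (w := ⟨y, hy'⟩) e.symm
  have q2 : q ≠ 2 := fun x => by
    have := sp.qodd
    rw [x] at this
    exact absurd this (by decide)
  have hu := Gt.cl_coe sp.cop.symm
  have r1 : ((t φ • f : U.GG M) : AM O M) = ifl O _ sp.dvd (t₀ φ ⟨y, hy'⟩) := r.1
  have r2 : (((d φ : U.B M) • f : U.GG M) : AM O M) = ifl O _ sp.dvd (d₀ φ ⟨y, hy'⟩) := r.2
  obtain ⟨c, hc⟩ := (grp M M₀ q sp).2.1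
  constructor
  · rw [r1, ga.frT q _ φ sp.prime q2 hu hφ, ← e]
    exact Nw.Tr_W2 sp (pzD sp) hs hu U.i (e ▸ XD_tc sp U.i f.2.1)
  · rw [Nw.W2_W2 sp (pzD sp) hs hc U.i (Nw.K_B hf) (XD_tc sp U.i f.2.1), r2,
      ga.frS q _ φ sp.prime q2 hu hφ, ← e]
    refine congrArg _ (gen_S2 _ (fun w => ?_) (ifl_neg sp.dvd) U.i q y).symm
    rw [Nw.ifl_dg, Units.ext ((Nw.um_c sp hc).trans hu.symm)]

end W

end Vale.Agent.P022D.Fm.N6
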