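import Vale.Agent.P022D.Fm.Hc
import Vale.Agent.P022D.Fm.FibR
import Vale.Agent.P022D.Fm.FibD
import Vale.Agent.P022D.Fm.NwA

/-!
# P022D, forms side: rows FIB and DSC
-/

set_option linter.all false

noncomputable section

namespace Vale.Agent.P022D.Fm

open Vale.Agent.P022 Vale.Agent.P022D.V
open Vale.Agent.P022D.W.Step (kl mem_kl mem_kl1)
open Vale.Agent.P022D.As (Tg cc tt dd yy dl Dq)

variable {O F : Type} [CommRing O] [IsLocalRing O] [Co O] [Field F] {U : Su O F} {M : ℕ}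

namespace Fb

theorem lc (L : U.Lm M) : Lc U.N M := ⟨L.dvd, L.odd.pos.ne', L.cop⟩

theorem sk (hU : U.Ok) (L : U.Lm M) (n : ℕ) : Sk U M n :=
  haveI : NeZero M := ⟨L.odd.pos.ne'⟩
  ⟨fun _ h => (mem_Wb L.dvd hU.zN).2 h, fun _ h => (mem_sb (stb_Zw L.dvd hU.zN n)).2 h⟩

theorem lm0 (L : U.Lm M) : U.Lm U.N :=
  ⟨L.odd.of_dvd_nat L.dvd, L.le, dvd_refl _, (lc L).self.cop⟩

theorem iv0 (N : ℕ) (v : AM O N) : v ∈ Iv O (RD O) (Bq N N) := mem_Iv.2 fun g hg => by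
  rw [← pr_self g, (Wq.mem_Kq _ g).1 hg.1, rt_one]

theorem ivK {N : ℕ} (h : N ∣ M) (v : AM O N) : ifl O (RD O) h v ∈ Iv O (RD O) (Kq M N) :=
  mem_Iv.2 fun g hg => by rw [← ifl_rt, (Wq.mem_Kq _ g).1 hg, rt_one]

theorem ivB {N : ℕ} {v : AM O M} (h : v ∈ Iv O (RD O) (Kq M N)) : v ∈ Iv O (RD O) (Bq M N) :=
  fun g hg => h g hg.1

/-- inflation -/
theorem cr_up (L : U.Lm M) : Cr U (lc L).self (lc L) (ifl O (RD O) L.dvd).graph where
  fn w h := h.trans (map_zero _)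
  bq v w h := ⟨iv0 _ v, (show w = _ from h) ▸ ivB (ivK L.dvd v)⟩
  hk := by
    rintro ⟨p, h₁⟩ ⟨_, h₂⟩ rfl v w (rfl : w = ifl O (RD O) L.dvd v)
    exact ⟨(ifl_T2 L.dvd _ (uP_coe ⟨p, h₂⟩) (uP_coe ⟨p, h₁⟩) v).symm,
      (ifl_S2 L.dvd _ (uP_coe ⟨p, h₂⟩) (uP_coe ⟨p, h₁⟩) v).symm⟩
  gp g₁ _ g₂ _ e v w h := by
    obtain rfl : w = ifl O (RD O) L.dvd v := h
    rw [pr_self] at e
    subst e
    exact (ifl_rt L.dvd g₂ v).symm

/-- descent -/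
theorem cr_dn (L : U.Lm M) : Cr U (lc L) (lc L).self
    ((ifl O (RD O) L.dvd).graph.comap (LinearEquiv.prodComm O _ _).toLinearMap) where
  fn w h := ifl_inj L.dvd L.odd ((show 0 = ifl O (RD O) L.dvd w from h).symm.trans (map_zero _).symm)
  bq v w h := ((cr_up L).bq w v h).symm
  hk a b e v w h := (cr_up L).hk b a e.symm w v h
  gp g₁ a g₂ b e v w h := (cr_up L).gp g₂ b g₁ a e.symm w v h

theorem cr_gq (L : U.Lm M) {Φ : Module.End O (AM O M)} (h : U.Gq Φ) :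
    Cr U (lc L) (lc L) (Φ.graph ⊓ (U.DI M).comap (LinearMap.fst O _ _)) where
  fn w a := a.1.trans (map_zero _)
  bq v w a := ⟨a.2.2, (show w = _ from a.1) ▸ (h.mem v a.2).2⟩
  hk := by
    rintro ℓ ℓ' e v w ⟨rfl : w = Φ v, a : v ∈ U.DI M⟩
    obtain rfl := Subtype.ext e
    exact ⟨⟨(h.T ℓ v a).symm, bw_T (O := O) (i := U.i) ℓ ▸
        stb_XD (N := U.N) L.odd L.three _ (bw_mem _) v a.1, Iv_T2 _ _ _ a.2⟩,
      (h.S ℓ v a).symm, bw_S (O := O) (i := U.i) ℓ ▸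
        stb_XD (N := U.N) L.odd L.three _ (bw_mem _) v a.1, Iv_S2 _ _ _ a.2⟩
  gp := by
    rintro g a g' b e v w ⟨rfl : w = Φ v, c : v ∈ U.DI M⟩
    obtain rfl := (lc L).uniq a b e
    refine ⟨(h.rt g a v c).symm, XD_rD L.odd L.three g v c.1, mem_Iv.2 fun k hk => ?_⟩
    change rt O (RD O) k (rt O (RD O) g v) = rt O (RD O) g v
    rw [rt_rt, ← (lc L).comm a hk.1, ← rt_rt, mem_Iv.1 c.2 k hk]

variable [hC : ∀ l : U.L.C, Fact l.1.Prime] [CharP F 2]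

section ev

variable {n r : ℕ} (X : Dt U M n) (u : Fin r ⊕ Fin r → U.B M)

theorem ev_c (c : O) : X.ev u (cc c) = algebraMap O _ c := MvPolynomial.eval₂Hom_C _ _ c

theorem ev_t (g : GQ) : X.ev u (tt g) = X.t g := MvPolynomial.eval₂Hom_X' _ _ _

theorem ev_d (g : GQ) : X.ev u (dd g) = X.d g := MvPolynomial.eval₂Hom_X' _ _ _

theorem ev_y (i : ℕ) : X.ev u (yy i) = if h : i < r then u (Sum.inl ⟨i, h⟩) - 1 else 0 :=
  MvPolynomial.eval₂Hom_X' _ _ _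

theorem ev_D (q : Fin r → ℕ) (φ : Fin r → GQ) : X.ev u (Dq q φ) =
    ∏ i, ((q i : U.B M) * X.t (φ i) ^ 2 - ((q i : U.B M) + 1) ^ 2 * X.d (φ i)) := by
  rw [As.Dq, map_prod]
  refine Finset.prod_congr rfl fun i _ => ?_
  rw [map_sub, map_mul, map_mul, map_pow, map_pow, map_add, map_natCast, map_one, ev_t, ev_d]

end ev

omit hC [CharP F 2] in
theorem u_fix {r : ℕ} {b : Fin r → (ZMod M)ˣ} {u : Fin r ⊕ Fin r → U.B M} (hd : IsDia b u)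
    (hb : ∀ i, Cg M U.N (b i) 1) {v : U.GG M} (hv : (v : AM O M) ∈ Iv O (RD O) (Bq M U.N))
    (s : Fin r ⊕ Fin r) : u s • v = v := by
  apply Subtype.ext
  rcases s with i | i
  · exact ((hd i).1 v).trans (mem_Iv.1 hv _ ⟨Wq.dg_K (cg_refl _) (hb i), rfl⟩)
  · exact ((hd i).2 v).trans (mem_Iv.1 hv _ ⟨Wq.dg_K (hb i) (cg_inv1 (hb i)), rfl⟩)

theorem cr_ev {M₁ M₂ n₁ n₂ r₁ r₂ : ℕ} {L₁ : Lc U.N M₁} {L₂ : Lc U.N M₂}
    {R : Submodule O (AM O M₁ × AM O M₂)} (C : Cr U L₁ L₂ R) {X₁ : Dt U M₁ n₁} {X₂ : Dt U M₂ n₂}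
    (h₁ : X₁.Ok) (h₂ : X₂.Ok) {u₁ : Fin r₁ ⊕ Fin r₁ → U.B M₁} {u₂ : Fin r₂ ⊕ Fin r₂ → U.B M₂}
    (f₁ : ∀ v : U.GG M₁, (v : AM O M₁) ∈ Iv O (RD O) (Bq M₁ U.N) → ∀ s, u₁ s • v = v)
    (f₂ : ∀ v : U.GG M₂, (v : AM O M₂) ∈ Iv O (RD O) (Bq M₂ U.N) → ∀ s, u₂ s • v = v)
    (p : Tg O) : ∀ (v : U.GG M₁) (w : U.GG M₂), Rg R v w →
      Rg R (X₁.ev u₁ p • v) (X₂.ev u₂ p • w) := by
  induction p using MvPolynomial.induction_on with
  | C c =>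
    intro v w h
    have := Cr.alg c h
    rwa [← ev_c X₁ u₁, ← ev_c X₂ u₂] at this
  | add p p' a b =>
    intro v w h
    rw [map_add, map_add, add_smul, add_smul]
    exact R.add_mem (a v w h) (b v w h)
  | mul_X p s a =>
    intro v w h
    rw [map_mul, map_mul, mul_smul, mul_smul]
    apply a
    rcases s with g | g | i
    · have := (C.td h₁.op h₂.op g h).1
      rwa [← ev_t X₁ u₁, ← ev_t X₂ u₂] at this
    · have := (C.td h₁.op h₂.op g h).2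
      rwa [← ev_d X₁ u₁, ← ev_d X₂ u₂] at this
    · have e₁ : X₁.ev u₁ (yy i) • v = 0 := by
        rw [ev_y]
        split_ifs
        · rw [sub_smul, one_smul, f₁ v (C.bq _ _ h).1, sub_self]
        · exact zero_smul _ _
      have e₂ : X₂.ev u₂ (yy i) • w = 0 := by
        rw [ev_y]
        split_ifs
        · rw [sub_smul, one_smul, f₂ w (C.bq _ _ h).2, sub_self]
        · exact zero_smul _ _
      change Rg R (X₁.ev u₁ (yy i) • v) (X₂.ev u₂ (yy i) • w)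
      rw [e₁, e₂]
      exact R.zero_mem

/-- a family of submodules which is respected by all correspondences -/
def Fam (Y : ∀ {M n : ℕ}, Dt U M n → Submodule (U.B M) (U.GG M)) : Prop :=
  ∀ {M₁ M₂ n₁ n₂ : ℕ} (L₁ : U.Lm M₁) (L₂ : U.Lm M₂) {R : Submodule O (AM O M₁ × AM O M₂)},
    Cr U (lc L₁) (lc L₂) R → ∀ {X₁ : Dt U M₁ n₁} {X₂ : Dt U M₂ n₂}, X₁.Ok → X₂.Ok →
    ∀ {v : U.GG M₁} {w : U.GG M₂}, Rg R v w → v ∈ Y X₁ → w ∈ Y X₂

theorem famY (hU : U.Ok) (I : Rep.Tu F U.Gam) : Fam (U := U) fun X => X.Y I :=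
  fun _ L _ C _ _ a b _ _ h hv => C.memY hU a b (sk hU L _) I h hv

theorem famW (hU : U.Ok) (j : ℕ) : Fam (U := U) fun X => X.Wc j :=
  fun _ L _ C _ _ a b _ _ h hv => C.memWc hU a b (sk hU L _) j h hv

/-- the carrier of the base level -/
def Ifl (U : Su O F) : Prop := ∀ {M : ℕ} (L : U.Lm M),
  (∀ v ∈ U.GG U.N, ifl O (RD O) L.dvd v ∈ U.GG M) ∧
  ∀ v ∈ U.GG M, v ∈ Iv O (RD O) (Kq M U.N) → ∃ v₀ ∈ U.GG U.N, ifl O (RD O) L.dvd v₀ = v

/-- **old forms fill the Iwahori level** -/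
theorem core (hU : U.Ok) (hI : Ifl U) (hCh : CHAIN) (hN : Nw.NEWD O) (hG : Gt.GT O)
    {Y : ∀ {M n : ℕ}, Dt U M n → Submodule (U.B M) (U.GG M)} (hY : Fam Y) (P0 : L0 U) {r n : ℕ}
    {q : Fin r → ℕ} (P : Lq U r n q) (φ : Fin r → GQ) (hφ : ∀ i, IsFrob (q i) (φ i)) :
    ∃ β : (Finset (Fin r) → Mt P0.ev (Y P0.X)) →ₗ[Tg O] Mt P.ev (Y P.X),
      (∀ w, ((β w).1 : AM O P.M) ∈ Iv O (RD O) (Bq P.M U.N)) ∧
      (∀ w, β w = 0 → (Dq q φ : Tg O) ^ 3 • w = 0) ∧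
      ∀ v : Mt P.ev (Y P.X), (v.1 : AM O P.M) ∈ Iv O (RD O) (Bq P.M U.N) →
        (Dq q φ : Tg O) ^ 3 • v ∈ LinearMap.range β := by
  obtain ⟨M0, b0, τ0, X0, u0, lv0, ok0, dia0⟩ := P0
  obtain rfl : M0 = U.N := lv0.eq.trans (by rw [Finset.univ_eq_empty, Finset.prod_empty, mul_one])
  obtain ⟨M, b, τ, X, u, lv, ok, dia⟩ := P
  have L := lv.lm hU
  have L0 := lm0 L
  have h3 : ∀ i, 3 ≤ M / q i := fun i => hU.three.trans
    (Nat.le_of_dvd ((lv.sp hU i).odd.of_dvd_nat (lv.sp hU i).dvd).pos (lv.dvd_div i))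
  obtain ⟨β, k1, k2⟩ := hCh O F U M r q (fun i => X.t (φ i)) (fun i => X.d (φ i)) L.odd L.le lv.inj
    (fun i => ⟨(lv.pr i).1, fun e => lv.nd hU i (e.mul_left 2)⟩) lv.eq
    (fun i s hs v a b c => N6.op_new (lv.sp hU i) hs ok.op hU.ok hN (hφ i) a b c)
    (fun i s hs v a => N6.op_tl (lv.sp hU i) hs ok.op hU.ok hG (h3 i) (hφ i) a) (Y X)
    fun Φ hΦ v w a b c => hY L L (cr_gq L hΦ) ok ok ⟨c, v.2.1, b⟩ a
  rw [← ev_D X u, ← map_pow] at k1 k2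
  let e : Mt (X0.ev u0) (Y X0) →+ U.PK (Y X) :=
    { toFun := fun v => ⟨⟨ifl O (RD O) L.dvd v.1.1, (hI L).1 _ v.1.2⟩,
        hY L0 L (cr_up L) ok0 ok (v := v.1) rfl v.2, (mem_sb (stb_Kq _)).2 (ivK L.dvd _)⟩
      map_zero' := Subtype.ext (Subtype.ext (map_zero _))
      map_add' := fun a b => Subtype.ext (Subtype.ext (map_add _ a.1.1 b.1.1)) }
  have es : ∀ (p : Tg O) (v : Mt (X0.ev u0) (Y X0)), e (p • v) = X.ev u p • e v := fun p v =>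
    Subtype.ext (Subtype.ext (cr_ev (cr_up L) ok0 ok (u₁ := u0) (fun _ _ s => isEmptyElim s)
      (fun v h => u_fix dia lv.bN h) p v.1 (e v).1 rfl).symm)
  have ei : ∀ v, e v = 0 → v = 0 := fun v h => Subtype.ext (Subtype.ext (ifl_inj L.dvd L.odd
    ((congrArg (fun x : U.PK (Y X) => x.1.1) h).trans (map_zero _).symm)))
  have eo : Function.Surjective e := fun w => by
    obtain ⟨v, a, c⟩ := (hI L).2 _ w.1.2 (mem_of_sub w.2.2)
    exact ⟨⟨⟨v, a⟩, hY L L0 (cr_dn L) ok ok0 (v := w.1) c.symm w.2.1⟩, Subtype.ext (Subtype.ext c)⟩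
  let γ : (Finset (Fin r) → Mt (X0.ev u0) (Y X0)) →ₗ[Tg O] Mt (X.ev u) (Y X) :=
    { toFun := fun w => ⟨(β fun s => e (w s)).1, (β fun s => e (w s)).2.1⟩
      map_add' := fun a b => Subtype.ext (by
        have : (fun s => e ((a + b) s)) = (fun s => e (a s)) + fun s => e (b s) :=
          funext fun s => map_add e _ _
        change (β fun s => e ((a + b) s)).1 = _
        rw [this, map_add]
        rfl)
      map_smul' := fun p a => Subtype.ext (by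
        have : (fun s => e ((p • a) s)) = X.ev u p • fun s => e (a s) := funext fun s => es p _
        change (β fun s => e ((p • a) s)).1 = _
        rw [this, map_smul]
        rfl) }
  refine ⟨γ, fun w => mem_of_sub (β fun s => e (w s)).2.2, fun w h => funext fun s => ei _ ?_,
    fun v hv => ?_⟩
  · exact (es _ _).trans (congrFun (k1 (fun s => e (w s))
      (Subtype.ext (congrArg (fun x : Mt (X.ev u) (Y X) => x.1) h))) s)
  · obtain ⟨x, hx⟩ := k2 ⟨v.1, v.2, (mem_sb (stb_Bq _)).2 hv⟩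
    choose y hy using fun s => eo (x s)
    refine ⟨y, Subtype.ext ?_⟩
    change (β fun s => e (y s)).1 = _
    rw [funext hy, hx]
    rfl

theorem wb_le {n : ℕ} {v : U.GG M} (h : v ∈ U.Wb M n) : v ∈ U.sb M (U.Zp M n) :=
  fun e he => (h e he).1

theorem y_le {n : ℕ} (X : Dt U M n) (I : Rep.Tu F U.Gam) : X.Y I ≤ X.Z := by
  rintro _ ⟨⟨v, -, rfl⟩, b⟩
  exact ⟨wb_le v.2, b⟩

theorem wh_le {n : ℕ} (X : Dt U M n) : X.Wh ≤ X.Z :=
  fun _ h => ⟨fun e he => Zw_le_Zp n (h.1 e he), h.2⟩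

theorem fix_iff (hD : DIA U) (hK : CLS U) {r n : ℕ} {q : Fin r → ℕ} (P : Lq U r n q)
    {Y : Submodule (U.B P.M) (U.GG P.M)} (hY : Y ≤ P.X.Z) (v : Mt P.ev Y) :
    (∀ s, (dl n P.τ s : Tg O) • v = v) ↔ (v.1 : AM O P.M) ∈ Iv O (RD O) (Bq P.M U.N) := by
  have e := ((hD r n q P).1 v.1 (hY v.2).1).1
  refine ⟨fun h => ((hK r n q P v.1 (hY v.2)).2.2.2.2 fun s => ?_).1,
    fun h s => Subtype.ext ((e s).trans (u_fix P.dia P.lv.bN h s))⟩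
  exact (e s).symm.trans (congrArg Subtype.val (h s))

end Fb

open Fb

variable [hC : ∀ l : U.L.C, Fact l.1.Prime] [CharP F 2]

theorem fib_of (hU : U.Ok) (hI : Ifl U) (hCh : CHAIN) (hN : Nw.NEWD O) (hG : Gt.GT O)
    (hD : DIA U) (hK : CLS U) (Cc : ∀ l : U.L.C, Rep.Ch (ZMod l.1) F) : FIB U Cc := by
  intro P0 r n q P φ hφ i
  obtain ⟨β, a, b, c⟩ := core hU hI hCh hN hG (famY hU i.v) P0 P φ hφ
  refine ⟨β, fun s w => (fix_iff hD hK P (y_le _ _) _).2 (a w) s, fun w h => ?_, fun v h => ?_⟩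
  · rw [pow_add _ 2 3, mul_smul, b w h, smul_zero]
  · rw [pow_add _ 2 3, mul_smul]
    exact Submodule.smul_mem _ _ (c v ((fix_iff hD hK P (y_le _ _) _).1 h))

theorem dsc_of (hU : U.Ok) (hI : Ifl U) (hCh : CHAIN) (hN : Nw.NEWD O) (hG : Gt.GT O)
    (hD : DIA U) (hK : CLS U) : DSC U := by
  classical
  intro P0 r n q P φ hφ j _ w h1 h2
  obtain ⟨β, -, -, c⟩ := core hU hI hCh hN hG (famW hU j) P0 P φ hφ
  have e : ∀ {r n : ℕ} {q : Fin r → ℕ} (P : Lq U r n q),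
      P.ev (cc U.ϖ ^ j) = algebraMap O _ (U.ϖ ^ j) := fun P => by
    rw [map_pow, map_pow]
    exact congrArg (· ^ j) (ev_c _ _ _)
  have hw : w.1 ∈ P.X.Wc j := mem_kl1.2 ⟨w.2.1, e P ▸ congrArg Subtype.val h1⟩
  let w' : Mt P.ev (P.X.Wc j) := ⟨w.1, hw⟩
  obtain ⟨f, hf⟩ := c w' ((fix_iff hD hK P ((W.Step.kl_le _ _).trans (wh_le _)) w).1 h2)
  let g : Finset (Fin r) → P0.W0 := fun s => ⟨(f s).1, (f s).2.1⟩
  refine ⟨Finset.univ.image g, fun v hv => ?_, fun p hp => ?_⟩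
  · obtain ⟨s, -, rfl⟩ := Finset.mem_image.1 hv
    exact Subtype.ext ((congrArg (· • (f s).1) (e P0)).trans (mem_kl1.1 (f s).2).2)
  · have h3 : p • f = 0 := funext fun s => Subtype.ext
      (congrArg (fun x : P0.W0 => x.1) (hp _ (Finset.mem_image_of_mem g (Finset.mem_univ s))))
    have h4 := β.map_smul p f
    rw [h3, map_zero, hf, smul_smul] at h4
    have h5 : (p * Dq q φ ^ 3 : Tg O) • w = 0 :=
      Subtype.ext (congrArg (fun x : Mt P.ev (P.X.Wc j) => x.1) h4).symm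
    rw [pow_add _ 2 3, mul_assoc, mul_smul, mul_comm, h5, smul_zero]

end Vale.Agent.P022D.Fm
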