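import Vale.Agent.P022D.Fm.Fib
import Vale.Agent.P022D.Fm.FibC
import Vale.Agent.P022D.Fm.FibI
import Vale.Agent.P022D.Nw.All

/-!
# P022D, forms side: rows FIB and DSC from the other rows
-/

set_option linter.all false

noncomputable section

namespace Vale.Agent.P022D.Fm

open Vale.Agent.P022 Vale.Agent.P022D.V

variable {O F : Type} [CommRing O] [IsLocalRing O] [Co O] [Field F] {U : Su O F}
  [hC : ∀ l : U.L.C, Fact l.1.Prime] [CharP F 2]

theorem fibC (hU : U.Ok) (hT : Gt.GT O) (hG : GOP U) (hD : DIA U) (hK : CLS U)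
    (Cc : ∀ l : U.L.C, Rep.Ch (ZMod l.1) F) : FIB U Cc :=
  fib_of hU (fun L => gg_ifl hU hG L) chain (Nw.newdC O) hT hD hK Cc

theorem dscC (hU : U.Ok) (hT : Gt.GT O) (hG : GOP U) (hD : DIA U) (hK : CLS U) : DSC U :=
  dsc_of hU (fun L => gg_ifl hU hG L) chain (Nw.newdC O) hT hD hK

end Vale.Agent.P022D.Fm
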