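import Mathlib

/-!
# P022D, forms side: the projector to a primary part (abstract part)
-/

set_option linter.all false

noncomputable section

namespace Vale.Agent.P022D.Fm.Pj

variable {O A Γ : Type} [CommRing O] [AddCommGroup A] [Module O A]

theorem idem {N : Type} [Monoid N] [Finite N] (a : N) : ∃ n, 0 < n ∧ a ^ n * a ^ n = a ^ n := by
  obtain ⟨i, j, hij, e⟩ := Finite.exists_ne_map_eq_of_infinite fun n : ℕ => a ^ n
  wlog h : i < j generalizing i j
  · exact this j i hij.symm e.symm (lt_of_le_of_ne (not_lt.1 h) hij.symm)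
  obtain ⟨p, rfl⟩ := Nat.exists_eq_add_of_lt h
  have k : ∀ m, a ^ (i + (p + 1) * m) = a ^ i := fun m => by
    induction m with
    | zero => rfl
    | succ m ih =>
      rw [show i + (p + 1) * (m + 1) = i + p + 1 + (p + 1) * m by ring, pow_add, ← e, ← pow_add, ih]
  refine ⟨(p + 1) * (i + 1), by positivity, ?_⟩
  obtain ⟨c, hc⟩ : ∃ c, (p + 1) * (i + 1) = c + i := ⟨p * (i + 1) + 1, by ring⟩
  rw [← pow_add]
  nth_rewrite 1 [hc]
  rw [add_assoc, pow_add, k, ← pow_add, ← hc]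

/-- the vectors on which all `f g` are nilpotent -/
def Ni (f : Γ → Module.End O A) (v : A) : Prop := ∀ g, ∃ k : ℕ, (f g ^ k) v = 0

variable {f : Γ → Module.End O A} {H : Subalgebra O (Module.End O A)}

theorem Ni.map (hc : ∀ a ∈ H, ∀ b ∈ H, a * b = b * a) (hf : ∀ g, f g ∈ H) {v : A} (h : Ni f v)
    {e : Module.End O A} (he : e ∈ H) : Ni f (e v) := fun g => (h g).imp fun k hk => by
  rw [← Module.End.mul_apply, hc _ (H.pow_mem (hf g) k) _ he, Module.End.mul_apply, hk, map_zero]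

/-- Fitting's lemma for a commutative family -/
theorem fit (hc : ∀ a ∈ H, ∀ b ∈ H, a * b = b * a) (hf : ∀ g, f g ∈ H) (N : Submodule O A)
    [Finite N] (hN : ∀ e ∈ H, ∀ v ∈ N, e v ∈ N) :
    ∃ e ∈ H, (∀ v ∈ N, Ni f (e v)) ∧ ∀ v ∈ N, Ni f v → e v = v := by
  classical
  have : Finite (Module.End O N) := Finite.of_injective _ DFunLike.coe_injective
  let ρ : Γ → Module.End O N := fun g => (f g).restrict (hN _ (hf g))
  have pw : ∀ g (n : ℕ) (v : N), ((ρ g ^ n) v : A) = (f g ^ n) v := fun g n v => by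
    induction n with
    | zero => rfl
    | succ n ih =>
      rw [pow_succ', pow_succ', Module.End.mul_apply, Module.End.mul_apply, ← ih]
      rfl
  choose n n0 hn using fun a : Module.End O N => idem a
  have one : ∀ g, ∀ v ∈ N, (f g ^ n (ρ g)) ((1 - f g ^ n (ρ g) : Module.End O A) v) = 0 :=
    fun g v hv => by
      have := congrArg (fun a : Module.End O N => (a ⟨v, hv⟩ : A)) (hn (ρ g))
      simp only [Module.End.mul_apply, pw] at this
      rw [LinearMap.sub_apply, map_sub, Module.End.one_apply, this, sub_self]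
  have two : ∀ g, ∀ v ∈ N, Ni f v → (1 - f g ^ n (ρ g) : Module.End O A) v = v := fun g v hv h => by
    obtain ⟨k, hk⟩ := h g
    have e : ∀ m, (ρ g ^ n (ρ g)) ^ (m + 1) = ρ g ^ n (ρ g) := fun m => by
      induction m with
      | zero => rw [zero_add, pow_one]
      | succ m ih => rw [pow_succ, ih, hn]
    have e2 := congrArg (fun a : Module.End O N => (a ⟨v, hv⟩ : A)) (e k)
    obtain ⟨c, hc⟩ : ∃ c, n (ρ g) * (k + 1) = c + k :=
      ⟨n (ρ g) * (k + 1) - k, by have := Nat.le_mul_of_pos_left (k + 1) (n0 (ρ g)); omega⟩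
    simp only [← pow_mul, pw] at e2
    rw [hc, pow_add, Module.End.mul_apply, hk, map_zero] at e2
    rw [LinearMap.sub_apply, ← e2, sub_zero, Module.End.one_apply]
  have key : ∀ s : Finset Γ, ∃ e ∈ H, (∀ v ∈ N, ∀ g ∈ s, ∃ k : ℕ, (f g ^ k) (e v) = 0) ∧
      ∀ v ∈ N, Ni f v → e v = v := fun s => by
    induction s using Finset.induction_on with
    | empty => exact ⟨1, H.one_mem, by simp, fun _ _ _ => rfl⟩
    | insert g s _ ih =>
      obtain ⟨e, he, a, b⟩ := ih
      have m := H.sub_mem H.one_mem (H.pow_mem (hf g) (n (ρ g)))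
      refine ⟨(1 - f g ^ n (ρ g)) * e, H.mul_mem m he, fun v hv g' hg => ?_, fun v hv h => by
        rw [Module.End.mul_apply, b v hv h, two g v hv h]⟩
      rcases Finset.mem_insert.1 hg with rfl | hg
      · exact ⟨_, one _ _ (hN e he v hv)⟩
      · rw [hc _ m _ he]
        exact a _ (hN _ m v hv) g' hg
  obtain ⟨s, hs⟩ : ∃ s : Finset Γ, ∀ g, ∃ g' ∈ s, ρ g' = ρ g := by
    have := Fintype.ofFinite (Set.range ρ)
    choose c hc using fun a : Set.range ρ => a.2
    exact ⟨Finset.univ.image c, fun g => ⟨_, Finset.mem_image_of_mem c (Finset.mem_univ ⟨_, g, rfl⟩),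
      hc _⟩⟩
  obtain ⟨e, he, a, b⟩ := key s
  refine ⟨e, he, fun v hv g => ?_, b⟩
  obtain ⟨g', h1, h2⟩ := hs g
  obtain ⟨k, hk⟩ := a v hv g' h1
  exact ⟨k, by rw [← pw g k ⟨_, hN e he v hv⟩, ← h2, pw, hk]⟩

/-- **the projector** -/
theorem proj (hc : ∀ a ∈ H, ∀ b ∈ H, a * b = b * a) (hf : ∀ g, f g ∈ H) (X : Submodule O A)
    (hX : ∀ v ∈ X, ∃ N : Submodule O A, Finite N ∧ v ∈ N ∧ ∀ e ∈ H, ∀ v ∈ N, e v ∈ N) :
    ∃ e : X →ₗ[O] A, (∀ v, Ni f (e v)) ∧ (∀ v : X, Ni f (v : A) → e v = v) ∧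
      ∀ s : Finset X, ∃ h ∈ H, ∀ v ∈ s, e v = h v := by
  classical
  have hs : ∀ s : Finset X, ∃ N : Submodule O A, Finite N ∧ (∀ v ∈ s, (v : A) ∈ N) ∧
      ∀ e ∈ H, ∀ v ∈ N, e v ∈ N := fun s => by
    induction s using Finset.induction_on with
    | empty => exact ⟨⊥, inferInstance, by simp, fun e _ v hv => by simp [(Submodule.mem_bot O).1 hv]⟩
    | insert w s _ ih =>
      obtain ⟨N, a, b, c⟩ := ih
      obtain ⟨N', a', b', c'⟩ := hX w w.2
      refine ⟨N ⊔ N', Finite.of_surjective (fun p : N × N' =>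
        (⟨_, Submodule.add_mem_sup p.1.2 p.2.2⟩ : (N ⊔ N' : Submodule O A))) ?_, fun v hv => ?_,
        fun e he v hv => ?_⟩
      · rintro ⟨v, hv⟩
        obtain ⟨x, hx, y, hy, rfl⟩ := Submodule.mem_sup.1 hv
        exact ⟨(⟨x, hx⟩, ⟨y, hy⟩), rfl⟩
      · rcases Finset.mem_insert.1 hv with rfl | hv
        exacts [Submodule.mem_sup_right b', Submodule.mem_sup_left (b v hv)]
      · obtain ⟨x, hx, y, hy, rfl⟩ := Submodule.mem_sup.1 hv
        rw [map_add]
        exact Submodule.add_mem_sup (c e he x hx) (c' e he y hy)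
  have key : ∀ s : Finset X, ∃ h ∈ H, ∀ v ∈ s, Ni f (h v) ∧
      ∀ h' ∈ H, Ni f (h' v) → h (h' v) = h' v := fun s => by
    obtain ⟨N, a, b, c⟩ := hs s
    obtain ⟨e, he, d, d'⟩ := fit hc hf N c
    exact ⟨e, he, fun v hv => ⟨d _ (b v hv), fun h' k => d' _ (c h' k _ (b v hv))⟩⟩
  choose h hH hh using key
  have u : ∀ (s : Finset X), ∀ v ∈ s, h {v} v = h s v := fun s v hv => by
    have a := hh {v} v (Finset.mem_singleton_self v)
    have b := hh s v hv
    rw [← b.2 _ (hH _) a.1, ← Module.End.mul_apply, hc _ (hH _) _ (hH _), Module.End.mul_apply,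
      a.2 _ (hH _) b.1]
  refine ⟨⟨⟨fun v => h {v} v, fun v w => ?_⟩, fun c v => ?_⟩,
    fun v => (hh {v} v (Finset.mem_singleton_self v)).1,
    fun v k => (hh {v} v (Finset.mem_singleton_self v)).2 1 H.one_mem k,
    fun s => ⟨h s, hH s, u s⟩⟩
  · rw [u {v, w, v + w} v (by simp), u {v, w, v + w} w (by simp), u {v, w, v + w} (v + w) (by simp),
      Submodule.coe_add, map_add]
  · change h {c • v} (c • v : X) = c • h {v} v
    rw [u {v, c • v} v (by simp), u {v, c • v} (c • v) (by simp), Submodule.coe_smul, map_smul]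

/-- finiteness modulo powers -/
theorem fin_pow {B : Type} [AddCommGroup B] [Module O B] (π : O) (j : ℕ) (Λ : Type)
    [AddCommGroup Λ] [Module O Λ] (s : Set Λ) (hs : s.Finite)
    (h : ∀ w : Λ, ∃ a ∈ s, ∃ y, w = a + π • y) (φ : Λ →ₗ[O] B) (hφ : ∀ w, π ^ j • φ w = 0) :
    (Set.range φ).Finite := by
  induction j generalizing φ with
  | zero =>
    refine (Set.finite_singleton 0).subset ?_
    rintro _ ⟨w, rfl⟩
    simpa using hφ w
  | succ j ih =>
    refine ((hs.image φ).add (ih (π • φ) fun w => ?_)).subset ?_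
    · rw [LinearMap.smul_apply, ← mul_smul, ← pow_succ, hφ]
    · rintro _ ⟨w, rfl⟩
      obtain ⟨a, ha, y, rfl⟩ := h w
      exact ⟨_, ⟨a, ha, rfl⟩, _, ⟨y, rfl⟩, by rw [map_add, map_smul]; rfl⟩

end Vale.Agent.P022D.Fm.Pj
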