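import Vale.Agent.P022D.Fm.Hc
import Vale.Agent.P022D.Fm.Proj

/-!
# P022D, forms side: rows PRJ and DV0
-/

set_option linter.all false

noncomputable section

namespace Vale.Agent.P022D.Fm

open Vale.Agent.P022 Vale.Agent.P022D.V
open Vale.Agent.P022D.W.Step (Dv)

namespace Pj

variable {O : Type} [CommRing O] [Co O] {M N K n : ℕ}

theorem hn2 {π : O} (hπ : Unif π) : ∃ j : ℕ, (2 : O) ∣ π ^ j := by
  obtain ⟨m, c, hc⟩ := Tr.two_dvd_pow (Pur.nu_alg hπ)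
  exact ⟨m, c, hc⟩

omit [Co O] in
theorem finq [IsDomain O] [IsDiscreteValuationRing O] [Core.Coef O] {π : O} (hπ : Unif π) :
    Finite (O ⧸ Ideal.span {π}) := by
  have e : Ideal.span {π} = IsLocalRing.maximalIdeal O :=
    le_antisymm ((Ideal.span_singleton_le_iff_mem _).2 hπ.nu) fun a ha =>
      Ideal.mem_span_singleton.2 (hπ.dvd a ha)
  rw [e]
  exact Core.Coef.fin

theorem HS_adj {i : ℕ} {S : Finset ℕ} :
    HS O M i S ≤ Algebra.adjoin O (Set.range (bw O M i)) := Algebra.adjoin_le (by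
  rintro _ ⟨ℓ, -, rfl | rfl⟩
  exacts [Algebra.subset_adjoin ⟨_, bw_T ℓ⟩, Algebra.subset_adjoin ⟨_, bw_S ℓ⟩])

variable (M N K n) in
/-- the diagonal parts -/
def Dp (A D : (ZMod M)ˣ) : Prop := ∃ c a d : (ZMod M)ˣ, V.Cg M K c 1 ∧ V.Cg M N a 1 ∧
  V.Cg M N d 1 ∧ A = c * a ^ 2 ^ n ∧ D = c * d ^ 2 ^ n

theorem cg1 {a d : (ZMod M)ˣ} (h : V.Cg M N a 1) (h' : V.Cg M N d 1) :
    V.Cg M N (a * d : (ZMod M)ˣ) 1 := by simpa using cg_mul2 h h'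

theorem cgp {a : (ZMod M)ˣ} (h : V.Cg M N a 1) (k : ℕ) : V.Cg M N (a ^ k : (ZMod M)ˣ) 1 := by
  simpa using cg_pow h k

theorem Dp.one : Dp M N K n 1 1 := ⟨1, 1, 1, cg_refl _, cg_refl _, cg_refl _, by simp, by simp⟩

theorem Dp.mul {A D A' D' : (ZMod M)ˣ} (h : Dp M N K n A D) (h' : Dp M N K n A' D') :
    Dp M N K n (A * A') (D * D') := by
  obtain ⟨c, a, d, h1, h2, h3, rfl, rfl⟩ := h
  obtain ⟨c', a', d', k1, k2, k3, rfl, rfl⟩ := h'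
  exact ⟨c * c', a * a', d * d', cg1 h1 k1, cg1 h2 k2, cg1 h3 k3,
    by rw [mul_pow, mul_mul_mul_comm], by rw [mul_pow, mul_mul_mul_comm]⟩

theorem Dp.inv {A D : (ZMod M)ˣ} (h : Dp M N K n A D) : Dp M N K n A⁻¹ D⁻¹ := by
  obtain ⟨c, a, d, h1, h2, h3, rfl, rfl⟩ := h
  exact ⟨c⁻¹, a⁻¹, d⁻¹, cg_inv1 h1, cg_inv1 h2, cg_inv1 h3,
    by rw [mul_inv, inv_pow], by rw [mul_inv, inv_pow]⟩

theorem Dp.cg {A D : (ZMod M)ˣ} (h : Dp M N K n A D) : V.Cg M N (A * D⁻¹ : (ZMod M)ˣ) 1 := by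
  obtain ⟨c, a, d, h1, h2, h3, rfl, rfl⟩ := h
  rw [mul_inv, mul_mul_mul_comm, mul_inv_cancel, one_mul]
  exact cg1 (cgp h2 _) (cg_inv1 (cgp h3 _))

theorem un0 : un (0 : ZMod M) = 1 := by
  apply Units.ext
  rw [un_coe]
  ext i j; fin_cases i <;> fin_cases j <;> simp

theorem ud_mul (x y : ZMod M) (A D A' D' : (ZMod M)ˣ) : un x * dg A D * (un y * dg A' D') =
    un (x + y * ((A * D⁻¹ : (ZMod M)ˣ) : ZMod M)) * dg (A * A') (D * D') := by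
  rw [mul_assoc, ← mul_assoc (dg A D), Gn.dg_un, mul_assoc, dg_mul, ← mul_assoc, Gn.un_mul]

variable (M N K n) in
/-- the group of the Whittaker conditions -/
def Hb : Subgroup (GM M) where
  carrier := {g | ∃ x A D, Dp M N K n A D ∧ g = un x * dg A D}
  one_mem' := ⟨0, 1, 1, Dp.one, by rw [un0, dg_one, one_mul]⟩
  mul_mem' := by
    rintro _ _ ⟨x, A, D, h, rfl⟩ ⟨y, A', D', h', rfl⟩
    exact ⟨_, _, _, h.mul h', ud_mul ..⟩
  inv_mem' := by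
    rintro _ ⟨x, A, D, h, rfl⟩
    refine ⟨-x * ((A⁻¹ * D⁻¹⁻¹ : (ZMod M)ˣ) : ZMod M), _, _, h.inv, ?_⟩
    rw [← Gn.dg_un, mul_inv_rev, dg_inv, inv_eq_of_mul_eq_one_right (b := un (-x))
      (by rw [Gn.un_mul, add_neg_cancel, un0])]

/-- the character -/
def chi (om : ℕ → O) (w : O) (g : GM M) : O :=
  om ((g : Matrix (Fin 2) (Fin 2) (ZMod M)) 0 0).val *
    w ^ ((g : Matrix (Fin 2) (Fin 2) (ZMod M)) 0 1 *
      Ring.inverse ((g : Matrix (Fin 2) (Fin 2) (ZMod M)) 1 1)).val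

omit [Co O] in
theorem chi_ud (om : ℕ → O) (w : O) (x : ZMod M) (A D : (ZMod M)ˣ) :
    chi om w (un x * dg A D) = om (A : ZMod M).val * w ^ x.val := by
  simp [chi, un_coe, dg_coe, Matrix.mul_apply, Fin.sum_univ_two]

theorem cg_val [NeZero M] (hN : N ∣ M) {x : ZMod M} {y : ℕ} (h : V.Cg M N x y) :
    x.val ≡ y [MOD N] := cg_mod hN (by rwa [ZMod.natCast_zmod_val])

omit [Co O] in
theorem pw_mod {w : O} (hw : w ^ N = 1) {x y : ℕ} (h : x ≡ y [MOD N]) : w ^ x = w ^ y := by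
  rw [pow_eq_pow_mod x hw, pow_eq_pow_mod y hw, h]

end Pj

open Pj

variable {O F : Type} [CommRing O] [IsDomain O] [IsDiscreteValuationRing O] [Core.Coef O] [Co O]
  [Field F] {U : Su O F}

theorem prjC (hU : U.Ok) : PRJ U := fun M hM h3 s hs => by
  classical
  haveI := finq hU.uni
  obtain ⟨e, a1, a2, a3⟩ := exists_proj U.i ∅ (U.sys M) hM h3 hU.uni (hn2 hU.uni)
  obtain ⟨h, hh, b⟩ := a3 (s.attach.image fun v : s => (⟨v.1, hs _ v.2⟩ : XD O M U.i))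
  refine ⟨h, HS_adj hh, fun v hv => ?_⟩
  have k := b ⟨v, hs v hv⟩ (Finset.mem_image.2 ⟨⟨v, hv⟩, Finset.mem_attach _ _, rfl⟩)
  exact ⟨k ▸ a1 _, fun hg => k.symm.trans (a2 ⟨v, hs v hv⟩ hg.2)⟩

theorem Zw_eq (hU : U.Ok) {M : ℕ} (n : ℕ) (L : U.Lm M) : U.Zw M n =
    Eg O (RD O) (Hb M U.N (M / U.NC) n) (chi U.om (U.z ^ (U.N - 1))) := by
  haveI : NeZero M := ⟨L.odd.pos.ne'⟩
  have hz (x : ℕ) : U.z ^ x * (U.z ^ (U.N - 1)) ^ x = 1 := by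
    rw [← mul_pow, mul_pow_sub_one hU.Nne, hU.zN, one_pow]
  have hw : (U.z ^ (U.N - 1)) ^ U.N = 1 := by rw [← pow_mul, mul_comm, pow_mul, hU.zN, one_pow]
  have o1 {a : ZMod M} (h : V.Cg M U.N a 1) : U.om a.val = 1 :=
    (hU.omp _ 1 (cg_val L.dvd (by simpa using h))).trans hU.om1
  ext v
  refine ⟨fun h => ?_, fun h => ⟨⟨mem_Ce.2 fun a ha => ?_, fun x => ?_⟩,
    mem_TQ.2 fun a d ha hd => ?_⟩⟩
  · rintro _ ⟨x, _, _, ⟨c, a, d, h1, h2, h3, rfl, rfl⟩, rfl⟩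
    have k1 := mem_Ce.1 h.1.1 c h1
    have k2 := mem_TQ.1 h.2 a d h2 h3
    have k3 : rD O (un x) v = (U.z ^ (U.N - 1)) ^ x.val • v := by
      have := h.1.2 x.val
      rw [ZMod.natCast_zmod_val] at this
      conv_rhs => rw [← this, smul_smul, mul_comm, hz, one_smul]
      rfl
    have k4 : U.om ((c * a ^ 2 ^ n : (ZMod M)ˣ) : ZMod M).val = U.om (c : ZMod M).val :=
      hU.omp _ _ (cg_val L.dvd (by
        simpa using cg_mul2 (cg_refl (N := U.N) (c : ZMod M)) (cgp h2 (2 ^ n))))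
    rw [chi_ud, k4, ← rD_apply, ← dg_mul, rD_mul, rD_mul, Module.End.mul_apply,
      Module.End.mul_apply, k2, k1, map_smul, k3, smul_smul]
  · have := h _ ⟨0, a, a, ⟨a, 1, 1, ha, cg_refl _, cg_refl _, by simp, by simp⟩, rfl⟩
    rwa [chi_ud, un0, one_mul, ZMod.val_zero, pow_zero, mul_one] at this
  · have := h _ ⟨x, 1, 1, Dp.one, rfl⟩
    rw [chi_ud, dg_one, mul_one, Units.val_one, o1 (cg_refl _), one_mul,
      pw_mod hw (cg_val L.dvd (cg_refl (x : ZMod M)))] at this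
    rw [this, smul_smul, hz, one_smul]
  · have := h _ ⟨0, _, _, ⟨1, a, d, cg_refl _, ha, hd, (one_mul _).symm, (one_mul _).symm⟩, rfl⟩
    rwa [chi_ud, un0, one_mul, ZMod.val_zero, pow_zero, mul_one, o1 (cgp ha _), one_smul] at this

theorem chi_mul (hU : U.Ok) {M K n : ℕ} (L : U.Lm M) : ∀ g ∈ Hb M U.N K n, ∀ h ∈ Hb M U.N K n,
    chi U.om (U.z ^ (U.N - 1)) (g * h) =
      chi U.om (U.z ^ (U.N - 1)) g * chi U.om (U.z ^ (U.N - 1)) h := by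
  haveI : NeZero M := ⟨L.odd.pos.ne'⟩
  have hw : (U.z ^ (U.N - 1)) ^ U.N = 1 := by rw [← pow_mul, mul_comm, pow_mul, hU.zN, one_pow]
  rintro _ ⟨x, A, D, h, rfl⟩ _ ⟨y, A', D', h', rfl⟩
  rw [ud_mul, chi_ud, chi_ud, chi_ud, mul_mul_mul_comm, ← hU.omm, ← pow_add]
  congr 1
  · exact hU.omp _ _ (cg_val L.dvd (by simpa using cg_refl _))
  · obtain ⟨t, ht⟩ := h.cg
    refine pw_mod hw (cg_val L.dvd ⟨y * t, ?_⟩)
    rw [ht, Nat.cast_add, ZMod.natCast_zmod_val, ZMod.natCast_zmod_val]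
    ring

theorem dv0C (hU : U.Ok) : DV0 U := fun M n L v hv => by
  haveI : NeZero M := ⟨L.odd.pos.ne'⟩
  haveI := finq hU.uni
  have st := stb_Zw (U := U) L.dvd hU.zN n
  have h1 : chi U.om (U.z ^ (U.N - 1)) (1 : GM M) = 1 := by
    have := chi_ud U.om (U.z ^ (U.N - 1)) (0 : ZMod M) 1 1
    rwa [un0, dg_one, mul_one, ZMod.val_zero, pow_zero, mul_one,
      hU.omp _ 1 (cg_val L.dvd (by simpa using cg_refl _)), hU.om1] at this
  obtain ⟨u, hu, k, e⟩ := dvE L.odd L.three hU.uni (hn2 hU.uni) hU.uni.ne _ _ h1 (chi_mul hU L)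
    v.2 (Zw_eq hU n L ▸ (mem_sb st).1 hv)
  exact ⟨⟨u, hu⟩, (mem_sb st).2 (Zw_eq hU n L ▸ k), Subtype.ext e⟩

end Vale.Agent.P022D.Fm
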