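import Vale.Agent.P022D.Fm.NmD
import Vale.Agent.P022D.Fm.Nz1
import Vale.Agent.P022D.Fm.Nz2

/-!
# P022D, forms side: the row NZ0 from the statement on norms
-/

set_option linter.all false

noncomputable section

namespace Vale.Agent.P022D.Fm.H66

open Vale.Agent.P022 Vale.Agent.P022D.V Vale.Agent.P027M.M

/-- the units which are `1` modulo `A` -/
def KA (M A : ℕ) : Subgroup (ZMod M)ˣ where
  carrier := {u | V.Cg M A u 1}
  mul_mem' := fun a b => by simpa using cg_mul2 a b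
  one_mem' := cg_refl _
  inv_mem' := cg_inv1

theorem dg_inj {M : ℕ} {a d a' d' : (ZMod M)ˣ} (h : dg a d = dg a' d') : a = a' ∧ d = d' := by
  have e := congrArg Units.val h
  rw [dg_coe, dg_coe] at e
  exact ⟨Units.ext (by simpa using congrFun (congrFun e 0) 0),
    Units.ext (by simpa using congrFun (congrFun e 1) 1)⟩

theorem sum_val {A : Type} [AddCommMonoid A] (m : ℕ) [NeZero m] (f : ℕ → A) :
    ∑ x : ZMod m, f x.val = ∑ j ∈ Finset.range m, f j :=
  Finset.sum_bij' (fun x _ => x.val) (fun j _ => (j : ZMod m))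
    (fun x _ => Finset.mem_range.2 x.val_lt) (fun _ _ => Finset.mem_univ _)
    (fun x _ => ZMod.natCast_zmod_val x)
    (fun j hj => ZMod.val_cast_of_lt (Finset.mem_range.1 hj)) fun _ _ => rfl

theorem nrm_eq {B : Type} [CommRing B] {r : ℕ} (n : ℕ) (u : Fin r ⊕ Fin r → B) :
    nrm n u = ∏ s, ∑ j ∈ Finset.range (2 ^ n), u s ^ j := by
  rw [nrm, ← Fintype.piFinset_univ, ← Finset.prod_univ_sum (fun _ => Finset.univ)
    fun s (x : ZMod (2 ^ n)) => u s ^ x.val]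
  exact Finset.prod_congr rfl fun s _ => sum_val _ _

theorem fix_of {B X : Type} [CommRing B] [AddCommGroup X] [Module B X] (Y : Submodule B X)
    {c : B} {w : Y} (h : (c - 1) • w = 0) : c • w = w := by
  rwa [sub_smul, one_smul, sub_eq_zero] at h

theorem msm {B X : Type} [CommRing B] [AddCommGroup X] [Module B X] (Y : Submodule B X)
    (c c' : B) (w : Y) : (c * c') • w = c • c' • w := mul_smul _ _ _

variable {O F : Type} [CommRing O] [IsLocalRing O] [Co O] [Field F] [CharP F 2] {U : Su O F}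

/-- independence of the generators -/
theorem ind (hU : U.Ok) {r n M : ℕ} {q : Fin r → ℕ} {b : Fin r → (ZMod M)ˣ} {τ : Fin r → GQ}
    (H : Lv U r n M q b τ) {p : U.L.W → ℕ} {e : U.L.W → (ZMod M)ˣ}
    (h2 : ∀ (l : U.L.W) (A : ℕ), A ∣ M → Nat.Coprime A l → e l ∈ KA M A)
    (h3 : ∀ (l : U.L.W) (k : ℕ), e l ^ k ∈ KA M l → p l ∣ k)
    (k : U.L.W → ℕ) (k' : Fin r ⊕ Fin r → ℕ)
    (h : dg ((∏ l, e l ^ k l) * ∏ s, Sum.elim (fun _ : Fin r => 1) b s ^ k' s)
      ((∏ l, e l ^ k l) * ∏ s, Sum.elim b (fun i => (b i)⁻¹) s ^ k' s) ∈ U.TQ M n) :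
    (∀ l, p l ∣ k l) ∧ ∀ s, 2 ^ n ∣ k' s := by
  classical
  obtain ⟨x, y, hx, -, e'⟩ := h
  obtain ⟨e1, e2⟩ := dg_inj e'
  have dN : ∀ l : U.L.W, l.1 ∣ U.N := fun l =>
    (hU.dvdN (hU.prW l.2).1).2 (Finset.mem_union_left _ l.2)
  simp only [Fintype.prod_sum_type, Sum.elim_inl, Sum.elim_inr, one_pow,
    Finset.prod_const_one, one_mul] at e1 e2
  refine ⟨fun l => h3 l _ ?_, ?_⟩
  · have a1 : x ^ 2 ^ n ∈ KA M l := pow_mem (show x ∈ KA M l from cg_dvd2 (dN l) hx) _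
    rw [← e1, mul_mem_cancel_right (prod_mem fun j _ =>
      pow_mem (show b j ∈ KA M l from cg_dvd2 (dN l) (H.bN j)) _),
      ← Finset.mul_prod_erase _ _ (Finset.mem_univ l), mul_mem_cancel_right
        (prod_mem fun j hj => pow_mem (h2 j l ((dN l).trans H.dvd) ((Nat.coprime_primes
          (hU.prW l.2).1 (hU.prW j.2).1).2 fun z => (Finset.mem_erase.1 hj).1
            (Subtype.ext z.symm))) _)] at a1
    exact a1
  · have a := Nz.qind hU H (fun j => k' (Sum.inl j)) (fun j => k' (Sum.inr j))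
      (∏ l, e l ^ k l) x y (fun j => show _ ∈ KA M (q j) from prod_mem fun l _ =>
        pow_mem (h2 l _ (H.q_dvd j) ((Nat.coprime_primes (H.pr j).1 (hU.prW l.2).1).2 fun z =>
          H.nd hU j (z ▸ (dN l).mul_left 2))) _) (by rw [mul_comm, e1])
      (by rw [mul_comm, Finset.prod_mul_distrib, e2])
    rintro (j | j)
    exacts [(a j).1, (a j).2]

variable [hC : ∀ l : U.L.C, Fact l.1.Prime]

/-- **row NZ0** -/
theorem nz0_of (hU : U.Ok) (hQ : LQ U) (hH : Nm.HIGN U) : NZ0 U := by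
  classical
  intro r n q P a ha
  have H := P.lv
  have key := hH P.M n (hQ.1 _ _ _ _ _ _ H) P.X P.ok
  choose e h1 h2 h3 h4 using fun l : U.L.W => Nz.wdat hU P ha l.2
  have dC : U.NC ∣ U.N := Dvd.intro_left _ rfl
  have id := ind hU H (p := fun l => 2 ^ a l) (e := e) h2 h3
  have eC : ∀ l, V.Cg P.M U.NC (e l) 1 := fun l => h2 l _ (dC.trans H.dvd)
    (hU.cop.symm.coprime_dvd_right ((hU.NW l (hU.prW l.2).1).2 l.2))
  have eT : ∀ l : U.L.W, dg (e l ^ 2 ^ a l) (e l ^ 2 ^ a l) ∈ U.TQ P.M n := fun l =>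
    ⟨1, 1, cg_refl _, cg_refl _, by rw [h1, one_pow]⟩
  have eW : P.nW a = ∏ l : U.L.W, ∑ j ∈ Finset.range (2 ^ a l),
      (P.X.d (U.L.τ l) : U.B P.M) ^ j := (Finset.prod_coe_sort _ _).symm
  have aW : ∀ w : U.Wb P.M n, (∀ c ∈ P.aW, c • w = 0) → ∀ l : U.L.W,
      (P.X.d (U.L.τ l) : U.B P.M) • w = w := fun w hw l => fix_of _ (hw _ ⟨l, l.2, rfl⟩)
  have q1 : ∀ s (w : U.Wb P.M n), (((P.u s • w : U.Wb P.M n) : U.GG P.M) : AM O P.M) =
      rD O (dg (Sum.elim (fun _ : Fin r => 1) P.b s) (Sum.elim P.b (fun i => (P.b i)⁻¹) s)) (w : U.GG P.M) := by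
    rintro (i | i) w
    exacts [(P.dia i).1 w, (P.dia i).2 w]
  have qa : ∀ s, V.Cg P.M U.N ((Sum.elim (fun _ : Fin r => 1) P.b s : (ZMod P.M)ˣ) : ZMod P.M) 1 := by
    rintro (i | i)
    exacts [cg_refl _, H.bN i]
  have qd : ∀ s, V.Cg P.M U.N
      ((Sum.elim P.b (fun i => (P.b i)⁻¹) s : (ZMod P.M)ˣ) : ZMod P.M) 1 := by
    rintro (i | i)
    exacts [H.bN i, cg_inv1 (H.bN i)]
  refine ⟨fun w hw => ?_, fun S t ht w hS hu => ⟨?_, fun hw => ?_⟩⟩
  · obtain ⟨w', e'⟩ := key U.L.W (fun l => 2 ^ a l) e e (fun l => P.X.d (U.L.τ l))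
      (fun l => by positivity) h4 (fun l => cg_refl _) eC eT
      (fun k hk => (id k 0 (by simpa using hk)).1) ⊥ {1}
      (fun γ => Finset.mem_singleton.trans Subgroup.mem_bot.symm) w
      (fun γ h => by rw [Subgroup.mem_bot.1 h, map_one]; rfl) (aW w hw)
    rw [Finset.sum_singleton, map_one] at e'
    exact ⟨w', eW ▸ e'⟩
  · rw [nrm_eq]
    exact key _ (fun _ => 2 ^ n) _ _ P.u (fun l => by positivity) q1
      (fun s => cg_trans (qa s) (cg_symm (qd s))) (fun s => cg_dvd2 dC (qa s))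
      (fun s => ⟨_, _, qa s, qd s, rfl⟩) (fun k hk => (id 0 k (by simpa using hk)).2) S t ht w hS hu
  · obtain ⟨w', e'⟩ := key (U.L.W ⊕ (Fin r ⊕ Fin r)) (Sum.elim (fun l => 2 ^ a l) fun _ => 2 ^ n)
      (Sum.elim e (Sum.elim (fun _ : Fin r => 1) P.b)) (Sum.elim e (Sum.elim P.b fun i => (P.b i)⁻¹))
      (Sum.elim (fun l => P.X.d (U.L.τ l)) P.u) (by rintro (l | l) <;> simp)
      (by rintro (l | l); exacts [h4 l, q1 l])
      (by rintro (l | l); exacts [cg_refl _, cg_trans (qa l) (cg_symm (qd l))])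
      (by rintro (l | l); exacts [eC l, cg_dvd2 dC (qa l)])
      (by rintro (l | l); exacts [eT l, ⟨_, _, qa l, qd l, rfl⟩])
      (fun k hk => by
        rw [Fintype.prod_sum_type, Fintype.prod_sum_type (α₁ := U.L.W)] at hk
        have z := id (fun l => k (Sum.inl l)) (fun l => k (Sum.inr l)) hk
        rintro (l | l)
        exacts [z.1 l, z.2 l]) S t ht w hS (by rintro (l | l); exacts [aW w hw l, hu l])
    rw [Fintype.prod_sum_type] at e'
    exact ⟨w', by rw [eW, nrm_eq]; exact e'.trans (msm _ _ _ _)⟩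

end Vale.Agent.P022D.Fm.H66
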