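import Vale.Agent.P022D.Fm.Rows
import Vale.Agent.P022D.Fm.Inst

/-!
# P022D, forms side: the modules of forms are Galois modules
-/

set_option linter.all false

open scoped MatrixGroups

noncomputable section

namespace Vale.Agent.P022D.Fm

open Vale.Agent.P022 Vale.Agent.P022D.V Vale.Agent.P027M.M
open Vale.Agent.P022D.As (Tg cc tt dd yy Gm Gw)

namespace Gmr

section abs

variable {T B G : Type} [CommRing T] [CommRing B] [AddCommGroup G] [Module B G] {φ : T →+* B}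
  {Y : Submodule B G}

/-- the underlying vector -/
def vl (w : Mt φ Y) : G := (show Y from w).1

theorem vl_mem (w : Mt φ Y) : vl w ∈ Y := (show Y from w).2

theorem vl_smul (p : T) (w : Mt φ Y) : vl (p • w) = φ p • vl w := rfl

theorem vl_inj {w w' : Mt φ Y} (h : vl w = vl w') : w = w' := Subtype.ext h

theorem mem_tor (w : Mt φ Y) (p : T) : p ∈ Ideal.torsionOf T (Mt φ Y) w ↔ φ p • vl w = 0 := by
  rw [Ideal.mem_torsionOf_iff]
  exact ⟨fun h => congrArg vl h, fun h => vl_inj h⟩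

theorem sub_tor (w : Mt φ Y) {p p' : T} (h : φ p • vl w = φ p' • vl w) :
    p - p' ∈ Ideal.torsionOf T (Mt φ Y) w :=
  (mem_tor w _).2 (by rw [map_sub, sub_smul, h, sub_self])

theorem fin_tor (w : Mt φ Y) (h : Finite (Submodule.span B {vl w})) :
    Finite (T ⧸ Ideal.torsionOf T (Mt φ Y) w) := by
  have hm : ∀ x : Submodule.span T {w}, vl x.1 ∈ Submodule.span B {vl w} := fun x => by
    obtain ⟨p, hp⟩ := Submodule.mem_span_singleton.1 x.2
    rw [← hp, vl_smul]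
    exact Submodule.smul_mem _ _ (Submodule.mem_span_singleton_self _)
  have : Finite (Submodule.span T {w}) := Finite.of_injective
    (fun x : Submodule.span T {w} => (⟨vl x.1, hm x⟩ : Submodule.span B {vl w}))
    fun a b e => Subtype.ext (vl_inj (Subtype.mk.inj e))
  exact Finite.of_equiv _ (Ideal.quotTorsionOfEquivSpanSingleton _ _ w).symm.toEquiv

theorem pow_two (u : B) (n : ℕ) : ∃ x : B, (u - 1) ^ 2 ^ n = u ^ 2 ^ n - 1 + 2 * x := by
  induction n with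
  | zero => exact ⟨0, by ring⟩
  | succ n ih =>
    obtain ⟨x, hx⟩ := ih
    refine ⟨1 - u ^ 2 ^ n + 2 * x * (u ^ 2 ^ n - 1) + 2 * x ^ 2, ?_⟩
    rw [pow_succ, pow_mul, pow_mul, hx]
    ring

theorem nil_u {u π c : B} {n k : ℕ} {v : G} (h2 : 2 = π * c) (hu : u ^ 2 ^ n • v = v)
    (hv : π ^ k • v = 0) : (u - 1) ^ (2 ^ n * k) • v = 0 := by
  obtain ⟨x, hx⟩ := pow_two u n
  obtain ⟨y, hy⟩ := sub_dvd_pow_sub_pow ((u - 1) ^ 2 ^ n) (2 * x) k
  have e : (u - 1) ^ (2 ^ n * k) = y * (u ^ 2 ^ n - 1) + (c * x) ^ k * π ^ k := by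
    rw [pow_mul, ← mul_pow, eq_add_of_sub_eq hy, hx, h2]
    ring
  rw [e, add_smul, mul_smul, mul_smul, hv, sub_smul, hu, one_smul, sub_self, smul_zero, smul_zero,
    add_zero]

end abs

variable {O F : Type} [CommRing O] [IsLocalRing O] [Co O] [Field F] [CharP F 2] {U : Su O F}

omit [CharP F 2] in
theorem not_dvd (hU : U.Ok) {r n M : ℕ} {q : Fin r → ℕ} {b : Fin r → (ZMod M)ˣ} {τ : Fin r → GQ}
    (hL : Lv U r n M q b τ) {l : ℕ} (hp : l.Prime) (hT : l ∉ U.S.T)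
    (hQ : l ∉ Finset.univ.image q) : ¬ l ∣ 2 * M := by
  intro h
  rw [hU.ok.hT] at hT
  simp only [Finset.mem_insert, Finset.mem_union, not_or] at hT
  rw [hL.eq, Su.N, hp.dvd_mul, hp.dvd_mul, hp.dvd_mul, hU.NC] at h
  rcases h with h | (h | h) | h
  · exact hT.2.1 ((Nat.prime_dvd_prime_iff_eq hp Nat.prime_two).1 h)
  · exact hT.2.2.1 ((hU.NW l hp).1 h)
  · obtain ⟨k, hk, h⟩ := hp.prime.exists_mem_finset_dvd h
    rw [(Nat.prime_dvd_prime_iff_eq hp (hU.ok.pr k (Finset.mem_union_right _ hk)).1).1 h] at hT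
    exact hT.2.2.2 hk
  · obtain ⟨i, -, h⟩ := hp.prime.exists_mem_finset_dvd h
    exact hQ (Finset.mem_image.2 ⟨i, Finset.mem_univ _,
      ((Nat.prime_dvd_prime_iff_eq hp (hL.pr i).1).1 h).symm⟩)

omit [CharP F 2] in
theorem two_dvd (hU : U.Ok) [CharP F 2] : U.ϖ ∣ 2 := by
  refine hU.uni.dvd 2 ((IsLocalRing.mem_maximalIdeal _).1 ((hU.ok.ker 2).1 ?_))
  rw [map_ofNat]
  exact CharTwo.two_eq_zero

variable [hC : ∀ l : U.L.C, Fact l.1.Prime] {r n : ℕ} {q : Fin r → ℕ} (P : Lq U r n q)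

theorem ev_c (c : O) : P.ev (cc c) = algebraMap O _ c := MvPolynomial.eval₂Hom_C _ _ c

theorem ev_t (g : GQ) : P.ev (tt g) = P.X.t g := MvPolynomial.eval₂Hom_X' _ _ _

theorem ev_d (g : GQ) : P.ev (dd g) = P.X.d g := MvPolynomial.eval₂Hom_X' _ _ _

theorem ev_y (i : ℕ) : P.ev (yy i) = if h : i < r then P.u (Sum.inl ⟨i, h⟩) - 1 else 0 :=
  MvPolynomial.eval₂Hom_X' _ _ _

end Gmr

open Gmr in
/-- **row GMR** -/
theorem gmrC {O F : Type} [CommRing O] [IsLocalRing O] [Co O] [Field F] [CharP F 2] {U : Su O F}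
    [hC : ∀ l : U.L.C, Fact l.1.Prime] (hU : U.Ok) (hH : HC U) (hL : LQ U) (hS : CLS U)
    (hD : DIA U) : GMR U := by
  intro r n q P Y hY w
  have hm := hL.1 _ _ _ _ _ _ P.lv
  have hc := hH P.M hm.odd (hm.le.trans (Nat.le_of_dvd hm.odd.pos hm.dvd))
  have ho := P.ok.op
  have hz : vl w ∈ P.X.Z := hY (vl_mem w)
  obtain ⟨k, hk⟩ := hc.tor (vl w)
  obtain ⟨V, -, hV, hI, hu⟩ := ho.opn (vl w)
  obtain ⟨c1, c2, -⟩ := hS r n q P _ hz
  refine ⟨fin_tor w (ho.fin _), ⟨k, (mem_tor w _).2 (by rw [map_pow, ev_c, hk])⟩, fun g => ?_,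
    fun g => ?_, fun i => ?_, sub_tor w (by rw [ev_t, ho.tf.one, map_ofNat]),
    fun g h => sub_tor w (by rw [ev_t, ev_t, ho.tf.comm]),
    fun g h => sub_tor w (by rw [map_mul, map_add, map_mul, ev_t, ev_t, ev_t, ev_d, ev_t,
      ho.tf.mul]),
    sub_tor w (by rw [ev_d, map_one, map_one, Units.val_one]),
    fun g h => sub_tor w (by rw [map_mul, ev_d, ev_d, ev_d, map_mul, Units.val_mul]),
    ⟨V, hV, fun u h g => sub_tor w (by rw [ev_t, ev_t, (hu u h).2])⟩,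
    fun l hp hT hQ Q hQ1 hQ2 s hs g => sub_tor w (by
      rw [ev_t, ev_t, (hu s (hI ⟨l, hp, not_dvd hU P.lv hp hT hQ⟩ s ⟨Q, hQ1, hQ2, hs⟩)).2]),
    fun g hg => sub_tor w (by rw [ev_t, ev_c]; exact c1 g hg),
    fun g hg => sub_tor w (by rw [ev_d, ev_c]; exact c2 g hg),
    fun i hi => (mem_tor w _).2 (by rw [ev_y, dif_neg (not_lt.2 hi), zero_smul])⟩
  · obtain ⟨j, hj, -⟩ := ho.nil g (vl w)
    exact ⟨j, (mem_tor w _).2 (by rw [map_pow, map_sub, ev_t, ev_c]; exact hj)⟩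
  · obtain ⟨j, -, hj⟩ := ho.nil g (vl w)
    exact ⟨j, (mem_tor w _).2 (by rw [map_pow, map_sub, ev_d, ev_c]; exact hj)⟩
  · by_cases hi : i < r
    · obtain ⟨c, h2⟩ := two_dvd hU
      have h3 : (2 : U.B P.M) = algebraMap O _ U.ϖ * algebraMap O _ c := by
        rw [← map_mul, ← h2, map_ofNat]
      exact ⟨2 ^ n * k, (mem_tor w _).2 (by
        rw [map_pow, ev_y, dif_pos hi]
        exact nil_u h3 (((hD r n q P).1 _ hz.1).2.2 _) hk)⟩
    · exact ⟨1, (mem_tor w _).2 (by rw [pow_one, ev_y, dif_neg hi, zero_smul])⟩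

end Vale.Agent.P022D.Fm
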