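import Vale.Agent.P022D.Fm.Rows
import Vale.Agent.P022D.Fm.Basic

/-!
# P022D, forms side: row HC
-/

set_option linter.all false

noncomputable section

namespace Vale.Agent.P022D.Fm

open Vale.Agent.P022 Vale.Agent.P022D.V

variable {O F : Type} [CommRing O] [IsLocalRing O] [Co O] [Field F] {U : Su O F} {M : ℕ}

theorem Su.Lm.three (h : U.Lm M) : 3 ≤ M := h.le.trans (Nat.le_of_dvd h.odd.pos h.dvd)

theorem Su.Lm.eq (h : U.Lm M) : M = U.N * (M / U.N) := (Nat.mul_div_cancel' h.dvd).symm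

theorem Su.Lm.spC (h : U.Lm M) (hU : U.Ok) {l : ℕ} (hl : l ∈ U.L.C) : Sp M (M / l) l :=
  hU.spC h.odd h.eq h.cop hl

theorem Lv.lm {r n : ℕ} {q : Fin r → ℕ} {b : Fin r → (ZMod M)ˣ} {τ : Fin r → GQ} (h : U.Ok)
    (H : Lv U r n M q b τ) : U.Lm M :=
  ⟨H.odd h, h.three, H.dvd, by
    rw [H.eq, Nat.mul_div_cancel_left _ (Nat.pos_of_ne_zero h.Nne)]
    exact H.cop h⟩

theorem GG_torp (hπ : Unif U.ϖ) (hM : Odd M) (h3 : 3 ≤ M) (v : U.GG M) :
    ∃ k : ℕ, U.ϖ ^ k • v = 0 := by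
  obtain ⟨n, hn⟩ := GG_tor hM h3 v
  obtain ⟨m, c, hc⟩ := Tr.two_dvd_pow (Pur.nu_alg hπ)
  exact ⟨m * n, by rw [pow_mul, hc, mul_pow, mul_comm, mul_smul, hn, smul_zero]⟩

theorem hcC (h : U.Ok) : HC U := fun M hM h3 =>
  haveI : NeZero M := ⟨hM.pos.ne'⟩
  { cm := cm_HA
    st := stb_GG hM h3 _
    rt := GG_rD hM h3
    com := fun _ hg e _ _ hv => B_rD hg e hv
    ex := fun _ _ had => exists_isU hM h3 had
    tor := fun v => by
      obtain ⟨k, hk⟩ := GG_torp h.uni hM h3 v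
      exact ⟨k, by rw [← map_pow]; exact hk⟩
    kq := fun L _ hg => Kq_NC L.dvd hg
    zp := fun L n _ => mem_sb (stb_Zp L.dvd h.zN n)
    zw := fun L n _ => mem_sb (stb_Zw L.dvd h.zN n)
    wb := fun L _ _ => mem_Wb L.dvd h.zN
    wp := fun _ => Zw_le_Zp }

end Vale.Agent.P022D.Fm
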