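import Vale.Agent.P022D.Fm.NwA
import Vale.Agent.P022D.Fm.Rows

/-!
# P022D, forms side: the rows NOINV, URF, NWF
-/

set_option linter.all false

open scoped MatrixGroups

noncomputable section

namespace Vale.Agent.P022D.Fm

open Vale.Agent.P022 Vale.Agent.P022D.V Vale.Agent.P027M.M
open Vale.Agent.P022D.G (Inert)
open Vale.Agent.P022D.W.Step (kl)
open Vale.Agent.P027M.S (mx)
open Vale.Agent.P022D.As (Tg tt)

namespace N6

section rep

open Vale.Agent.P022D.Rep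

variable {ι : Type} [Fintype ι] [DecidableEq ι] {F : Type} [Field F] [CharP F 2]
  {Γ : ι → Type} [∀ i, Group (Γ i)] [∀ i, Fintype (Γ i)] {T W : Type} [CommRing T]
  [AddCommGroup W] [Module T W] (E : Act F Γ T W) {l : ι} {K : Type} [Field K] [Fintype K]
  (D : BN K (Γ l)) (C : Rep.Ch K F)

omit [CharP F 2] in
theorem cut_al (J : Set T) (i : ι) (r : MonoidAlgebra F (Γ i)) (w : kl (⊤ : Submodule T W) J) :
    ((cutA E J).al i r w : W) = E.al i r w := by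
  refine el_ind (p := fun r => ((cutA E J).al i r w : W) = E.al i r w) r ?_ ?_ ?_
  · intro g
    rw [Act.al_el, Act.al_el]
    rfl
  · intro x y hx hy
    rw [map_add, map_add, LinearMap.add_apply, LinearMap.add_apply, Submodule.coe_add, hx, hy]
  · intro c x hx
    rw [Act.al_smul, Act.al_smul, Module.End.mul_apply, Module.End.mul_apply, ← hx]
    rfl

theorem ex_B {θ : W →+ W} (h : E.Hig θ) {I : Tu F Γ} (hI : I l = Ip D C) {w : W}
    (hw : w ∈ E.Y I) : ∃ v, (∀ b ∈ D.B, E.ρ (Pi.mulSingle l b) v = v) ∧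
      E.al l (trB D F) v = 0 ∧ E.al l (ee D C 1 * el F D.w) v = w := by
  obtain ⟨v, hv⟩ := E.stp_surj h I l (col_p D C) ⟨w, by rwa [← hI, Function.update_eq_self]⟩
  have a := (E.kill_sup l _ _ v.1).1 (E.mem_Y_update.1 v.2).1
  exact ⟨v, (E.kill_Ib D _).1 a.1, a.2 _ (Submodule.mem_span_singleton_self _),
    congrArg Subtype.val hv⟩

theorem kill_G {w : W} (hw : ∀ g, E.ρ (Pi.mulSingle l g) w = w) :
    E.al l (ee D C 1 * el F D.w) w = 0 := by
  refine (E.kill_It l w).2 hw _ ?_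
  have k : ∀ g : Γ l, el F g • (Submodule.Quotient.mk 1 : MonoidAlgebra F (Γ l) ⧸ It F (Γ l)) =
      (Submodule.Quotient.mk 1 : MonoidAlgebra F (Γ l) ⧸ It F (Γ l)) := fun g => by
    rw [← Submodule.Quotient.mk_smul, Submodule.Quotient.eq, smul_eq_mul, mul_one]
    exact Submodule.subset_span ⟨g, rfl⟩
  have e := ee1_bf D C fun b _ => k b
  rw [← k D.w, smul_smul, ← Submodule.Quotient.mk_smul, Submodule.Quotient.mk_eq_zero,
    smul_eq_mul, mul_one] at e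
  exact e

end rep

variable {O F : Type} [CommRing O] [IsLocalRing O] [Co O] [Field F] [CharP F 2] {U : Su O F}

omit [Co O] [CharP F 2] in
theorem inert_tau (hL : U.L.Ok U.S) {l : ℕ} (hl : l ∈ U.L.C) : Inert l (U.L.τ l) :=
  have a := Finset.mem_union_right U.L.W hl
  ⟨U.L.P l, (hL.hP l a).1, (hL.hP l a).2, (hL.tm l a).tau⟩

omit [Co O] [CharP F 2] in
theorem frob_phi (hL : U.L.Ok U.S) {l : ℕ} (hl : l ∈ U.L.C) : IsFrob l (U.L.φ l) :=
  have a := Finset.mem_union_right U.L.W hl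
  ⟨U.L.P l, (hL.hP l a).1, (hL.hP l a).2, (hL.tm l a).frob⟩

omit [CharP F 2] in
theorem three_div (hU : U.Ok) {M M₀ l : ℕ} (hM : U.N ∣ M) (sp : Sp M M₀ l) (hl : l ∈ U.L.C)
    (h : mx U.S.rb (U.L.τ l) = 1) : 3 ≤ M₀ := by
  have key : ∀ p ∈ U.L.W ∪ U.L.C, p ≠ l → p ∣ U.N → 3 ≤ M₀ := fun p hp ne d => by
    obtain ⟨p1, p2⟩ := hU.ok.pr p hp
    have a : p ∣ M₀ * l := sp.eq ▸ d.trans hM
    have b := Nat.le_of_dvd sp.M0pos
      (((Nat.coprime_primes p1 sp.prime).2 ne).dvd_of_dvd_mul_right a)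
    have := p1.two_le
    omega
  rcases hU.W3 with ⟨p, hp⟩ | ⟨p, hp, e⟩
  · have a := Finset.mem_union_left U.L.C hp
    exact key p a (fun e => Finset.disjoint_left.1 hU.ok.dj hp (e ▸ hl))
      (((hU.NW p (hU.ok.pr p a).1).2 hp).mul_right _)
  · refine key p (Finset.mem_union_right _ hp) (fun x => e (x ▸ h)) (Dvd.dvd.mul_left ?_ _)
    rw [hU.NC]
    exact Finset.dvd_prod_of_mem _ hp

/-- Iwahori vectors of trace zero become invariant -/
theorem core {M M₀ q : ℕ} (sp : Sp M M₀ q) {s : GM M} (hs : IsS M M₀ s) {t : GQ → U.B M}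
    {d : GQ →* (U.B M)ˣ} (h : U.Op t d) (hL : U.L.Ok U.S) (hN : Nw.NEWD O) {φ : GQ}
    (hφ : IsFrob q φ) (tl : ∀ f : U.GG M, (f : AM O M) ∈ Iv O (RD O) (Kq M M₀) →
      (1 + Ts O (RD O) M₀ q s) (W2 O (RD O) M M₀ q (zD O M) U.i f) =
        q • ((t φ • f : U.GG M) : AM O M))
    {v : U.GG M} (hb : (v : AM O M) ∈ Iv O (RD O) (Bq M M₀))
    (h1 : (1 + Ts O (RD O) M₀ q s) (v : AM O M) = 0) (h2 : (v : AM O M) + v = 0) :
    ((t φ ^ 5 • v : U.GG M) : AM O M) ∈ Iv O (RD O) (Kq M M₀) := by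
  have hM := sp.Mpos.ne'
  obtain ⟨k, hk⟩ := sp.qodd
  have wb := Nw.W2_B sp (pzD sp).pow hs U.i hb
  let x : U.GG M := ⟨_, GG_W sp hs v.2 hb⟩
  let f : U.GG M := ⟨_, GG_Tr sp hs x.2 wb⟩
  have fk : (f : AM O M) ∈ Iv O (RD O) (Kq M M₀) := Nw.Tr_K sp hs wb
  have f2 : f + f = 0 := Subtype.ext (by
    show (1 + Ts O (RD O) M₀ q s) (W2 O (RD O) M M₀ q (zD O M) U.i v) +
      (1 + Ts O (RD O) M₀ q s) (W2 O (RD O) M M₀ q (zD O M) U.i v) = 0
    rw [← map_add, ← map_add, h2, map_zero, map_zero])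
  have v2 : v + v = 0 := Subtype.ext h2
  have ev : ∀ y : U.GG M, y + y = 0 → ∀ m : ℕ, (2 * m) • (y : AM O M) = 0 := fun y hy m => by
    rw [mul_comm, mul_nsmul', two_nsmul, ← Submodule.coe_add, hy, Submodule.coe_zero, nsmul_zero]
  have tf : t φ • f + t φ • f = 0 := by rw [← smul_add, f2, smul_zero]
  have a1 := (op_nat h hM (ch_Tr sp hs U.i) φ hb (w := 0) h1.symm).1
  have a2 := (op_nat h hM (ch_W sp hs U.i) φ hb (w := x) rfl).1.2
  have a3 := (op_nat h hM (ch_Tr sp hs U.i) φ (v := x) wb (w := f) rfl).1.2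
  rw [smul_zero] at a1
  have nw := op_new sp hs h hL hN hφ (v := t φ • v - f) (sub_mem a1.1 (Nw.K_B fk))
    (by
      rw [Submodule.coe_sub, map_sub, ← a1.2, Nw.Tr_of_K sp hs fk,
        show q + 1 = 2 * (k + 1) by omega, ev f f2]
      exact sub_self _)
    (by
      rw [Submodule.coe_sub, map_sub, map_sub, ← a2, ← a3, tl f fk, hk, succ_nsmul, ev _ tf,
        zero_add, sub_self])
  have two : (2 : U.B M) ∈ Ideal.torsionOf (U.B M) _ (t φ • v - f) :=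
    (Ideal.mem_torsionOf_iff _ _).2 (by
      rw [two_smul, ← add_sub_add_comm, ← smul_add, v2, f2, smul_zero, sub_zero])
  have e := sub_mem ((Ideal.mem_torsionOf_iff _ _).2 nw) (Ideal.mul_mem_left _
    (2 * (k * t φ ^ 2 - 2 * (k + 1) ^ 2 * (d φ : U.B M)) *
      ((k + 1) * t φ ^ 2 - 2 * (k + 1) ^ 2 * (d φ : U.B M))) two)
  have e4 : t φ ^ 4 • (t φ • v - f) = 0 := (Ideal.mem_torsionOf_iff _ _).1 (by
    refine Eq.mp (congrArg _ ?_) e
    rw [hk]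
    push_cast
    ring)
  rw [smul_sub, sub_eq_zero, ← mul_sm, ← pow_succ] at e4
  have k4 : ∀ m : ℕ, ((t φ ^ m • f : U.GG M) : AM O M) ∈ Iv O (RD O) (Kq M M₀) := by
    intro m
    induction m with
    | zero => rwa [pow_zero, one_smul]
    | succ m ih => rw [pow_succ', mul_sm]; exact (op_iv h hM φ ih).1
  exact e4.symm ▸ k4 4

variable [hC : ∀ l : U.L.C, Fact l.1.Prime]

section dic

variable {M n : ℕ} {X : Dt U M n} {l : U.L.C} (sp : Sp M (M / l.1) l.1)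
  (act : ∀ (g : GL (Fin 2) (ZMod l.1)) (w : U.Wb M n),
    (((X.E.ρ (Pi.mulSingle l (QuotientGroup.mk g)) w : U.Wb M n) : U.GG M) : AM O M) =
      rD O (Rep.emb sp g) (w : U.GG M))
include act

theorem fixK (w : U.Wb M n) : (∀ g, X.E.ρ (Pi.mulSingle l g) w = w) ↔
    ((w : U.GG M) : AM O M) ∈ Iv O (RD O) (Kq M (M / l.1)) := by
  rw [mem_Iv]
  constructor
  · intro h g hg
    obtain ⟨g, rfl⟩ := (Rep.mem_Kq sp).1 hg
    exact (act g w).symm.trans (by rw [h])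
  · intro h g
    obtain ⟨g, rfl⟩ := QuotientGroup.mk_surjective g
    exact Subtype.ext (Subtype.ext ((act g w).trans (h _ (Rep.emb_mem sp g))))

theorem fixB {w : U.Wb M n} (h : ∀ b ∈ (U.bn l).B, X.E.ρ (Pi.mulSingle l b) w = w) :
    ((w : U.GG M) : AM O M) ∈ Iv O (RD O) (Bq M (M / l.1)) := by
  refine mem_Iv.2 fun g hg => ?_
  obtain ⟨g, rfl⟩ := (Rep.mem_Kq sp).1 hg.1
  exact (act g w).symm.trans (by
    rw [h (QuotientGroup.mk g) ⟨g, (Rep.emb_B sp).1 hg, rfl⟩])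

theorem trB_coe (w : U.Wb M n) :
    (((X.E.al l (Rep.trB (U.bn l) F) w : U.Wb M n) : U.GG M) : AM O M) =
      (1 + Ts O (RD O) (M / l.1) l.1 (Rep.emb sp (Rep.wG (ZMod l.1)))) (w : U.GG M) := by
  rw [Rep.Act.al_trB, LinearMap.add_apply, Rep.Ts_eq sp O (RD O) (Rep.emb_w sp), Submodule.coe_add,
    Submodule.coe_add, Submodule.coe_sum, Submodule.coe_sum]
  exact congrArg _ (Finset.sum_congr rfl fun y _ => act (Rep.uG y * Rep.wG (ZMod l.1)) w)

end dic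

theorem ev_tt {r n : ℕ} {q : Fin r → ℕ} (P : Lq U r n q) (g : GQ) : P.ev (tt g) = P.X.t g :=
  MvPolynomial.eval₂Hom_X' _ _ _

end N6

open N6

variable {O F : Type} [CommRing O] [IsLocalRing O] [Co O] [Field F] [CharP F 2] {U : Su O F}

/-- **row NOINV** -/
theorem noinvC (hU : U.Ok) : NOINV U := fun _ _ _ h _ _ hl hr sp _ hv =>
  op_noinv h hU.ok sp (inert_tau hU.ok hl) hr hv

variable [hC : ∀ l : U.L.C, Fact l.1.Prime] {Cc : ∀ l : U.L.C, Rep.Ch (ZMod l.1) F}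

/-- **row URF** -/
theorem urf6 (hU : U.Ok) (lq : LQ U) (dic : DIC U Cc) : URF U Cc := by
  intro r n q P J l hl g w
  obtain ⟨sp, act, -⟩ := dic P.M n (lq.1 _ _ _ _ _ _ P.lv) P.X P.ok
  obtain ⟨_, ⟨w, hw, rfl⟩, hJ⟩ := (w : P.X.Y (Rep.XJ U.bn Cc J).v)
  have a := (fixK (sp l) (act l (sp l)) w).1 ((P.X.E.kill_It l w).1 fun x hx =>
    hw l x (by rwa [Rep.XJ_out U.bn Cc hl]))
  refine Subtype.ext ?_
  show P.ev (tt (g * U.L.τ l)) • (w : U.GG P.M) = P.ev (tt g) • (w : U.GG P.M)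
  rw [ev_tt, ev_tt]
  exact P.ok.op.ur _ _ (sp l) _ (inert_tau hU.ok l.2) _ a g

/-- **row NWF** -/
theorem nwfC (hU : U.Ok) (hN : Nw.NEWD O) (hG : Gt.GT O) (lq : LQ U) (dic : DIC U Cc)
    (hz : HZ U) : NWF U Cc := by
  intro r n q P J l hl w
  have lm := lq.1 _ _ _ _ _ _ P.lv
  obtain ⟨sp, act, -⟩ := dic P.M n lm P.X P.ok
  obtain ⟨θ, hθ⟩ := (hz r n q P).1
  obtain ⟨_, ⟨w, hw, rfl⟩, hJ⟩ := (w : P.X.Y (Rep.XJ U.bn Cc J).v)
  obtain ⟨v, b1, b2, b3⟩ := ex_B P.Ec (U.bn l) (Cc l) hθ (Rep.XJ_in U.bn Cc hl)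
    (w := ⟨w, trivial, fun c hc => Subtype.ext (hJ c hc)⟩)
    fun i x hx => Subtype.ext ((cut_al P.X.E P.X.JW i x _).trans (hw i x hx))
  replace b2 := (cut_al P.X.E P.X.JW l _ v).symm.trans (congrArg Subtype.val b2)
  replace b3 := (cut_al P.X.E P.X.JW l _ v).symm.trans (congrArg Subtype.val b3)
  have hs := Rep.emb_w (sp l)
  have hφ := frob_phi hU.ok l.2
  have c := core (sp l) hs P.ok.op hU.ok hN hφ (v := v.1.1) (fun f hf => by
      by_cases e : mx U.S.rb (U.L.τ l) = 1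
      · exact (op_tl (sp l) hs P.ok.op hU.ok hG (three_div hU lm.dvd (sp l) l.2 e) hφ hf).1
      · rw [noinvC hU _ _ _ P.ok.op _ _ l.2 e (sp l) f hf, smul_zero, Submodule.coe_zero, map_zero,
          map_zero, nsmul_zero])
    (fixB (sp l) (act l (sp l)) fun b hb => congrArg Subtype.val (b1 b hb))
    ((trB_coe (sp l) (act l (sp l)) v.1).symm.trans (by rw [b2]; rfl)) (by
      obtain ⟨y, hy⟩ := hU.uni.dvd 2 (root O P.M lm.odd).2.2.2.2.2.2.2.2.1
      rw [← two_smul O, hy, mul_comm, mul_smul, mem_Tor.1 (mem_of_sub v.1.2).2, smul_zero])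
  have e := kill_G P.X.E (U.bn l) (Cc l)
    ((fixK (sp l) (act l (sp l)) (P.X.t (U.L.φ l) ^ 5 • v.1)).2 c)
  rw [map_smul, b3] at e
  refine Subtype.ext ?_
  show P.ev (tt (U.L.φ l) ^ 5) • (w : U.GG P.M) = 0
  rw [map_pow, ev_tt]
  exact congrArg Subtype.val e

end Vale.Agent.P022D.Fm
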