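import Vale.Agent.P022D.As.Pt
import Vale.Agent.P022D.G.Frob
import Vale.Agent.P027M.F.Tra

/-!
# P022D, forms side: units among the traces of the point
-/

set_option linter.all false

noncomputable section

namespace Vale.Agent.P022D.Fm

open IsLocalRing NumberField
open scoped Pointwise
open Vale.Agent.P022 Vale.Agent.P022D.R
open Vale.Agent.P027M.S (mx)
open Vale.Agent.P022D.Sel (M2 Dh)
open Vale.Agent.P022D.Loc (Pl)

/-- all Frobenius elements at an unramified prime have the same trace -/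
theorem frob_tr {A : Type} [CommRing A] (ρ : GQ →* M2 A) {l : ℕ} (hl : l.Prime)
    (hu : ∀ g, G.Inert l g → ρ g = 1) {φ φ' : GQ} (h : IsFrob l φ) (h' : IsFrob l φ') :
    (ρ φ).trace = (ρ φ').trace ∧ (ρ φ).det = (ρ φ').det := by
  obtain ⟨P, hP, h1, h2⟩ := h
  obtain ⟨Q, hQ, h3, h4⟩ := h'
  obtain ⟨g, rfl⟩ := P027M.F.Tra.trans hl hP hQ h1 h3
  have h5 : ρ (g * φ * g⁻¹ * φ'⁻¹) = 1 := by
    refine hu _ ⟨_, hQ, h3, fun x => ?_⟩
    have h6 := Ideal.smul_mem_pointwise_smul g _ P (h2 (g⁻¹ • φ'⁻¹ • x))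
    have h7 := h4 (φ'⁻¹ • x)
    rw [smul_sub, smul_pow', smul_inv_smul] at h6
    rw [smul_inv_smul] at h7
    have h8 := Ideal.sub_mem _ h6 h7
    rw [sub_sub_sub_cancel_right] at h8
    rw [mul_smul, mul_smul, mul_smul]
    exact h8
  have h9 : ρ φ' = ρ g * ρ φ * ρ g⁻¹ := by
    rw [← map_mul, ← map_mul, ← one_mul (ρ φ'), ← h5, ← map_mul, inv_mul_cancel_right]
  constructor
  · rw [h9, Matrix.trace_mul_cycle, ← map_mul, inv_mul_cancel, map_one, one_mul]
  · rw [h9, Matrix.det_mul, Matrix.det_mul, mul_right_comm, ← Matrix.det_mul, ← map_mul,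
      mul_inv_cancel, map_one, Matrix.det_one, one_mul]

theorem tr_pow_zero {A : Type} [CommRing A] (h2 : (2 : A) = 0) {m : M2 A} (h : m.trace = 0)
    (k : ℕ) : (m ^ k).trace = 0 := by
  have e : ∀ n : M2 A, (n * m * m).trace = m.trace * (n * m).trace - m.det * n.trace := by
    intro n
    simp only [Matrix.trace_fin_two, Matrix.det_fin_two, Matrix.mul_apply, Fin.sum_univ_two]
    ring
  induction k using Nat.twoStepInduction with
  | zero =>
    rw [pow_zero, Matrix.trace_fin_two, Matrix.one_apply_eq, Matrix.one_apply_eq,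
      one_add_one_eq_two, h2]
  | one => rw [pow_one, h]
  | more k h0 _ => rw [pow_succ, pow_succ, e, h, h0, zero_mul, mul_zero, sub_zero]

variable {O F : Type} [CommRing O] [Field F] {S : Dat O F}

/-- the residual representation spans the matrix algebra -/
theorem res_tr {H : Subgroup GQ} (dh : Dh S.rb H) {s : GQ} (hs : mx S.rb s ≠ 1) :
    ∃ g, (mx S.rb (g * s)).trace ≠ (mx S.rb g).trace := by
  by_contra hc
  push Not at hc
  have e : ∀ g h, mx S.rb (g * h) = mx S.rb g * mx S.rb h := fun g h =>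
    congrArg Units.val (map_mul S.rb g h)
  have e1 : mx S.rb 1 = 1 := congrArg Units.val (map_one S.rb)
  have n1 : S.g1 ∉ H := fun k => S.n01 (dh.dg _ k).1
  have a0 := hc 1
  have a1 := hc S.g0
  have a2 := hc S.g1
  have a3 := hc (S.g0 * S.g1)
  rw [e, e1] at a0
  rw [e] at a1 a2
  rw [e, e] at a3
  simp only [Matrix.trace_fin_two, Matrix.mul_apply, Fin.sum_univ_two, S.d01, S.d10,
    (dh.ad _ n1).1, (dh.ad _ n1).2, Matrix.one_apply_eq, Matrix.one_apply_ne, ne_eq, zero_ne_one,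
    one_ne_zero, not_false_eq_true, zero_mul, mul_zero, add_zero, zero_add, one_mul] at a0 a1 a2 a3
  have hd := sub_ne_zero.2 S.dne
  have b0 : mx S.rb s 0 0 = 1 := by
    refine sub_eq_zero.1 (mul_left_cancel₀ hd ?_)
    linear_combination a1 - mx S.rb S.g0 1 1 * a0
  have b1 : mx S.rb s 1 1 = 1 := by linear_combination a0 - b0
  have b2 : mx S.rb s 1 0 = 0 := by
    refine mul_left_cancel₀ S.n01 (mul_left_cancel₀ hd ?_)
    linear_combination a3 - mx S.rb S.g0 1 1 * a2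
  have b3 : mx S.rb s 0 1 = 0 := by
    refine mul_left_cancel₀ (As.h10_of_dh dh) ?_
    linear_combination a2 - mx S.rb S.g1 0 1 * b2
  refine hs ?_
  ext i j
  fin_cases i <;> fin_cases j
  exacts [b0, b3, b2, b1]

variable [IsLocalRing O] {L : Pl O}

theorem red_trace (hL : L.Ok S) (g : GQ) : S.red (L.r g).trace = (mx S.rb g).trace := by
  rw [← hL.lift g]; exact AddMonoidHom.map_trace S.red (L.r g)

theorem unit_of_red (hL : L.Ok S) {c : O} (h : S.red c ≠ 0) : IsUnit c :=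
  notMem_maximalIdeal.1 fun e => h ((hL.ker c).2 e)

theorem unit_tr (hL : L.Ok S) {s : GQ} (hs : mx S.rb s ≠ 1) :
    ∃ g, IsUnit ((L.r (g * s)).trace - (L.r g).trace) := by
  obtain ⟨g, hg⟩ := res_tr hL.dh hs
  exact ⟨g, unit_of_red hL (by rw [map_sub, red_trace hL, red_trace hL]; exact sub_ne_zero.2 hg)⟩

/-- a prime whose Frobenius elements have unit trace -/
theorem ex_l0 [CharP F 2] (hL : L.Ok S)
    (unr : ∀ l : ℕ, l.Prime → l ∉ S.T → ∀ g, G.Inert l g → L.r g = 1) (A : Finset ℕ) :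
    ∃ l0 : ℕ, l0.Prime ∧ l0 ∉ A ∧ l0 ∉ S.T ∧ (∃ φ, IsFrob l0 φ) ∧
      ∀ φ, IsFrob l0 φ → IsUnit (L.r φ).trace := by
  classical
  obtain ⟨l, φ, k, hl, hA, hφ, hu⟩ := G.frob S.rb.ker inferInstance hL.dh.opn S.g0 (A ∪ S.T)
  have hT : l ∉ S.T := fun e => hA (Finset.mem_union_right _ e)
  refine ⟨l, hl, fun e => hA (Finset.mem_union_left _ e), hT, ⟨φ, hφ⟩, fun φ' h' => ?_⟩
  rw [← (frob_tr L.r hl (unr l hl hT) hφ h').1]
  refine unit_of_red hL fun e => ?_
  rw [red_trace hL] at e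
  have h1 := tr_pow_zero (CharTwo.two_eq_zero (R := F)) e k
  have h2 : S.rb S.g0 = S.rb φ ^ k := by
    rw [MonoidHom.mem_ker, map_mul, map_inv, map_pow, inv_mul_eq_one] at hu
    exact hu
  have h3 : mx S.rb φ ^ k = mx S.rb S.g0 :=
    (Units.val_pow_eq_pow_val _ _).symm.trans (congrArg Units.val h2.symm)
  rw [h3, Matrix.trace_fin_two, CharTwo.add_eq_zero] at h1
  exact S.dne h1

end Vale.Agent.P022D.Fm
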