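import Vale.Agent.P022D.Fm.SbA
import Vale.Agent.P022D.Fm.Rows
import Vale.Agent.P022D.Fm.CycA
import Vale.Agent.P022D.Fm.Unit

/-!
# P022D, forms side: the socles are bounded
-/

set_option linter.all false

open Matrix IsLocalRing

noncomputable section

namespace Vale.Agent.P022D.Fm.Sb

open Vale.Agent.P022 Vale.Agent.P022D.V Vale.Agent.P022D.Gt
open Vale.Agent.P027M.M (ze)
open Vale.Agent.P027M.S (mx)
open Vale.Agent.P022D.As (Tg cc tt dd yy mT ev0 Sb2)

theorem sb2_of {T O Y A : Type} [CommRing T] [CommRing O] [AddCommGroup Y] [Module T Y]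
    [AddCommGroup A] [Module O A] (ι : Y →+ A) (inj : Function.Injective ι) (c : O → T)
    (hc : ∀ o w, ι (c o • w) = o • ι w) (P : Y → Prop) (h0 : P 0) (s : Finset A) {b : ℕ}
    (hs : s.card ≤ b) (h1 : ∀ x ∈ s, ∃ w, P w ∧ ι w = x)
    (h2 : ∀ w, P w → ι w ∈ Submodule.span O (s : Set A)) :
    ∃ f : Fin b → Y, (∀ j, P (f j)) ∧ ∀ w, P w → w ∈ Submodule.span T (Set.range f) := by
  classical
  choose g g1 g2 using h1
  let f : Fin b → Y := fun j =>
    if h : j.1 < s.card then g _ (s.equivFin.symm ⟨j.1, h⟩).2 else 0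
  refine ⟨f, fun j => ?_, fun w hw => ?_⟩
  · unfold f
    split_ifs
    exacts [g1 _ _, h0]
  · have key : ∀ v ∈ Submodule.span O (s : Set A), ∃ w' ∈ Submodule.span T (Set.range f),
        ι w' = v := fun v hv => by
      induction hv using Submodule.span_induction with
      | mem x hx =>
        refine ⟨_, Submodule.subset_span ⟨⟨(s.equivFin ⟨x, hx⟩).1,
          (s.equivFin ⟨x, hx⟩).2.trans_le hs⟩, rfl⟩, ?_⟩
        unfold f
        rw [dif_pos (s.equivFin ⟨x, hx⟩).2, g2]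
        simp
      | zero => exact ⟨0, zero_mem _, map_zero _⟩
      | add x y _ _ hx hy =>
        obtain ⟨a, a1, rfl⟩ := hx
        obtain ⟨d, d1, rfl⟩ := hy
        exact ⟨a + d, add_mem a1 d1, map_add _ _ _⟩
      | smul o x _ hx =>
        obtain ⟨a, a1, rfl⟩ := hx
        exact ⟨c o • a, Submodule.smul_mem _ _ a1, hc o a⟩
    obtain ⟨w', a, e⟩ := key _ (h2 w hw)
    exact inj e ▸ a

variable {O F : Type} [CommRing O] [IsLocalRing O] [Co O] [Field F] {U : Su O F}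

section lev

variable {r n M : ℕ} {q : Fin r → ℕ} {b : Fin r → (ZMod M)ˣ} {τ : Fin r → GQ}

theorem prC (hU : U.Ok) (l : U.L.C) : l.1.Prime ∧ l.1 ≠ 2 :=
  hU.ok.pr _ (Finset.mem_union_right _ l.2)

theorem NC_eq (hU : U.Ok) : U.NC = ∏ l : U.L.C, l.1 := by
  rw [hU.NC, Finset.prod_coe_sort U.L.C fun l => l]

theorem mem_of_dvd (hU : U.Ok) {p : ℕ} (hp : p.Prime) (h : p ∣ U.N) : p ∈ U.L.W ∪ U.L.C := by
  rcases (Nat.Prime.dvd_mul hp).1 h with h | h
  · exact Finset.mem_union_left _ ((hU.NW p hp).1 h)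
  · rw [NC_eq hU] at h
    obtain ⟨l, -, hl⟩ := (hp.prime.dvd_finset_prod_iff _).1 h
    rw [(Nat.prime_dvd_prime_iff_eq hp (prC hU l).1).1 hl]
    exact Finset.mem_union_right _ l.2

theorem aux_of (hU : U.Ok) (lv : Lv U r n M q b τ) : Aux M U.N n q b := by
  have hT : ∀ p ∈ U.L.W ∪ U.L.C, p ∈ U.S.T := fun p hp => by
    rw [hU.ok.hT]
    exact Finset.mem_insert_of_mem (Finset.mem_insert_of_mem hp)
  refine ⟨?_, lv.eq, lv.inj, fun j => ⟨(lv.pr j).1, fun h =>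
    (lv.pr j).2 (hT _ (mem_of_dvd hU (lv.pr j).1 h))⟩, lv.b1, lv.gen⟩
  rw [← Nat.not_even_iff_odd, even_iff_two_dvd, lv.eq]
  intro h
  rcases (Nat.Prime.dvd_mul Nat.prime_two).1 h with h | h
  · exact (hU.ok.pr _ (mem_of_dvd hU Nat.prime_two h)).2 rfl
  · obtain ⟨j, -, hj⟩ := (Nat.prime_two.prime.dvd_finset_prod_iff _).1 h
    refine (lv.pr j).2 ?_
    rw [← (Nat.prime_dvd_prime_iff_eq Nat.prime_two (lv.pr j).1).1 hj, hU.ok.hT]
    exact Finset.mem_insert_of_mem (Finset.mem_insert_self _ _)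

/-- the part of the level at `W` and `S` -/
def NS (U : Su O F) (S : Finset U.L.C) : ℕ := U.NW * ∏ l ∈ S, l.1

/-- the other part -/
def CS (U : Su O F) (S : Finset U.L.C) : ℕ := by classical exact ∏ l ∈ Sᶜ, l.1

theorem NS_CS (hU : U.Ok) (S : Finset U.L.C) : U.N = NS U S * CS U S := by
  classical
  rw [Su.N, NS, CS, NC_eq hU, mul_assoc, Finset.prod_mul_prod_compl]

theorem dvd_NS {S : Finset U.L.C} {l : U.L.C} (h : l ∈ S) : l.1 ∣ NS U S :=
  (Finset.dvd_prod_of_mem _ h).mul_left _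

theorem dvd_CS {S : Finset U.L.C} {l : U.L.C} (h : l ∉ S) : l.1 ∣ CS U S := by
  classical
  exact Finset.dvd_prod_of_mem _ (Finset.mem_compl.2 h)

theorem cop_NS (hU : U.Ok) (S : Finset U.L.C) : Nat.Coprime (NS U S) (CS U S) := by
  classical
  refine Nat.Coprime.prod_right fun l hl => Nat.Coprime.symm ?_
  refine (prC hU l).1.coprime_iff_not_dvd.2 fun h => ?_
  rcases (Nat.Prime.dvd_mul (prC hU l).1).1 h with h | h
  · exact Finset.disjoint_left.1 hU.ok.dj ((hU.NW _ (prC hU l).1).1 h) l.2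
  · obtain ⟨l', h1, h2⟩ := ((prC hU l).1.prime.dvd_finset_prod_iff _).1 h
    rw [← Subtype.ext ((Nat.prime_dvd_prime_iff_eq (prC hU l).1 (prC hU l').1).1 h2)] at h1
    exact Finset.mem_compl.1 hl h1

theorem spC (hU : U.Ok) (A : Aux M U.N n q b) (l : U.L.C) :
    Sp M (M / l.1) l.1 ∧ M / l.1 = U.N / l.1 * ∏ j, q j ∧ M / U.NC = U.NW * ∏ j, q j ∧
      M / U.NC ∣ M / l.1 := by
  classical
  have p := (prC hU l).1
  have e : U.N = NS U {l}ᶜ * l.1 := by
    rw [NS_CS hU {l}ᶜ, CS, compl_compl, Finset.prod_singleton]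
  have c := cop_NS hU {l}ᶜ
  rw [CS, compl_compl, Finset.prod_singleton] at c
  have e1 : U.N / l.1 = NS U {l}ᶜ := by rw [e, Nat.mul_div_cancel _ p.pos]
  have e2 : M / l.1 = NS U {l}ᶜ * ∏ j, q j := by
    rw [A.eq, e, mul_right_comm, Nat.mul_div_cancel _ p.pos]
  have e3 : M / U.NC = U.NW * ∏ j, q j := by
    have h0 : 0 < U.NC := Nat.pos_of_ne_zero fun h => A.odd.pos.ne' (by
      rw [A.eq, Su.N, h, mul_zero, zero_mul])
    rw [A.eq, Su.N, mul_right_comm, Nat.mul_div_cancel _ h0]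
  refine ⟨⟨?_, ?_, p, A.odd⟩, by rw [e1, e2], e3, ?_⟩
  · rw [e2, mul_right_comm, ← e, A.eq]
  · rw [e2]
    refine Nat.Coprime.mul_left c (Nat.Coprime.prod_left fun j _ => ?_)
    exact (A.pr j).1.coprime_iff_not_dvd.2 fun h => (A.pr j).2 (h.trans ⟨_, by rw [e, mul_comm]⟩)
  · rw [e2, e3]
    exact Nat.mul_dvd_mul_right (dvd_mul_right _ _) _

theorem kq_mono {N N' : ℕ} (hd : N ∣ N') {g : GM M} (hg : g ∈ Kq M N') : g ∈ Kq M N := by
  obtain ⟨c, rfl⟩ := hd
  intro i j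
  obtain ⟨y, hy⟩ := hg i j
  exact ⟨c * y, by rw [hy, Nat.cast_mul, mul_assoc]⟩

theorem pr_kq {N : ℕ} (h : N ∣ M) {g : GM M} (hg : g ∈ Kq M N) : pr h g = 1 := by
  apply Units.ext
  ext i j
  obtain ⟨y, hy⟩ := hg i j
  rw [pr_coe, hy, map_add, map_mul, map_natCast, ZMod.natCast_self, zero_mul, add_zero,
    Units.val_one, Matrix.one_apply, Matrix.one_apply]
  split_ifs
  exacts [map_one _, map_zero _]

theorem un_kq (N y : ℕ) : un ((N * y : ℕ) : ZMod M) ∈ Kq M N := fun i j => by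
  rw [un_coe]
  fin_cases i <;> fin_cases j
  exacts [⟨0, by simp⟩, ⟨y, by simp⟩, ⟨0, by simp⟩, ⟨0, by simp⟩]

theorem un_add (x y : ZMod M) : un (x + y) = un x * un y := by
  apply Units.ext
  rw [Units.val_mul, un_coe, un_coe, un_coe]
  ext i j
  fin_cases i <;> fin_cases j <;> simp [Matrix.mul_apply, Fin.sum_univ_two, add_comm]

variable [hC : ∀ l : U.L.C, Fact l.1.Prime] [CharP F 2] {X : Dt U M n}
  {Cc : ∀ l : U.L.C, Rep.Ch (ZMod l.1) F}

/-- the underlying tuple -/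
abbrev tu (w : U.Wb M n) : AM O M := (w : U.GG M)

theorem tu_mem (w : U.Wb M n) : tu w ∈ U.Zp M n ⊓ Tor (AM O M) U.ϖ := mem_of_sub w.2

/-- invariance outside `S` -/
theorem inv_XS (hU : U.Ok) (A : Aux M U.N n q b) (hX : X.Ok) {S : Finset U.L.C} {w : U.Wb M n}
    (hw : w ∈ X.E.Y (Rep.XS U.bn Cc S).v) :
    tu w ∈ Iv O (RD O) (Kq M (NS U S * ∏ j, q j)) := by
  classical
  refine mem_Iv.2 fun h hh => ?_
  have dv : ∀ l : U.L.C, l.1 ∣ M := fun l => Dvd.intro_left _ (spC hU A l).1.eq.symm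
  have e : M / U.NC ∣ NS U S * ∏ j, q j := by
    have h0 : 0 < U.NC := Nat.pos_of_ne_zero fun h => A.odd.pos.ne' (by
      rw [A.eq, Su.N, h, mul_zero, zero_mul])
    rw [A.eq, Su.N, mul_right_comm, Nat.mul_div_cancel _ h0]
    exact Nat.mul_dvd_mul_right (dvd_mul_right _ _) _
  let γ : ∀ l, U.Gam l := fun l => QuotientGroup.mk (pr (dv l) h)
  have a := hX.act h (kq_mono e hh) γ (fun _ _ => rfl) w
  let H : Subgroup (∀ l, U.Gam l) :=
    { carrier := {g | X.E.ρ g w = w}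
      one_mem' := by change X.E.ρ 1 w = w; rw [map_one]; rfl
      mul_mem' := fun {g g'} a b => by
        change X.E.ρ (g * g') w = w
        rw [map_mul, Module.End.mul_apply, b, a]
      inv_mem' := fun {g} a => by
        change X.E.ρ g⁻¹ w = w
        conv_lhs => rw [← a]
        rw [← Module.End.mul_apply, ← map_mul, inv_mul_cancel, map_one]
        rfl }
  have m : γ ∈ H := Subgroup.pi_mem_of_mulSingle_mem γ fun l => by
    by_cases hl : l ∈ S
    · have : γ l = 1 := by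
        change QuotientGroup.mk (pr (dv l) h) = 1
        rw [pr_kq _ (kq_mono ((dvd_NS hl).mul_right _) hh)]
        rfl
      rw [this, Pi.mulSingle_one]
      exact H.one_mem
    · exact ((X.E.mem_XS S w).1 hw).2 l hl _
  rw [show X.E.ρ γ w = w from m] at a
  exact a.symm

/-- the action of the unipotent group at `l` -/
theorem un_act (hU : U.Ok) (A : Aux M U.N n q b) (hX : X.Ok) (l : U.L.C) (y : ℕ) (w : U.Wb M n) :
    tu (X.E.ρ (Pi.mulSingle l ((U.bn l).u ((M / l.1 * y : ℕ) : ZMod l.1))) w) =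
      rt O _ (un ((M / l.1 * y : ℕ) : ZMod M)) (tu w) := by
  classical
  refine hX.act _ (kq_mono (spC hU A l).2.2.2 (un_kq _ y)) _ (fun l' hl' => ?_) w
  by_cases e : l' = l
  · subst e
    rw [Pi.mulSingle_eq_same, pr_un, map_natCast]
    rfl
  · rw [Pi.mulSingle_eq_of_ne e, pr_kq _ (kq_mono (Cyc.dvd_div (spC hU A l).1 hl'
      ((Nat.coprime_primes (prC hU l').1 (prC hU l).1).2 fun h => e (Subtype.ext h)))
      (un_kq _ y))]
    rfl

/-- the Whittaker condition at `W` and `S` -/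
theorem wh_XS (hU : U.Ok) (A : Aux M U.N n q b) (hX : X.Ok) (hc : U.IsCh Cc)
    {S : Finset U.L.C} {w : U.Wb M n} (hw : w ∈ X.E.Y (Rep.XS U.bn Cc S).v) {c : ℕ}
    (he : CS U S * c ≡ 1 [MOD NS U S]) : tu w ∈ Wh O (RD O) M ((U.z ^ CS U S) ^ c) := by
  classical
  haveI : NeZero M := ⟨A.odd.pos.ne'⟩
  have N0 : U.N ≠ 0 := fun h => A.odd.pos.ne' (by rw [A.eq, h, zero_mul])
  have zN := z_pow N0 hU.z
  have zM : U.z ^ M = 1 := by rw [A.eq, pow_mul, zN, one_pow]
  have md : ∀ {x y : ℕ}, x ≡ y [MOD NS U S] → x ≡ y [MOD CS U S] → U.z ^ x = U.z ^ y :=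
    fun h1 h2 => pow_mod zN (by
      rw [NS_CS hU S]
      exact (Nat.modEq_and_modEq_iff_modEq_mul (cop_NS hU S)).1 ⟨h1, h2⟩)
  have m1 : ∀ x : ℕ, CS U S ∣ x → U.z ^ (CS U S * c * x) = U.z ^ x := fun x hx =>
    md (by simpa using he.mul_right x)
      ((Nat.modEq_zero_iff_dvd.2 (hx.mul_left _)).trans (Nat.modEq_zero_iff_dvd.2 hx).symm)
  let P : ℕ → Prop := fun x => U.z ^ (CS U S * c * x) • rt O _ (un (x : ZMod M)) (tu w) = tu w
  have Pm : ∀ x y : ℕ, (x : ZMod M) = y → P x → P y := fun x y h a => by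
    unfold P at a ⊢
    rw [← h, ← pow_mod zM (((ZMod.natCast_eq_natCast_iff _ _ _).1 h).mul_left _), a]
  have Pa : ∀ x y, P x → P y → P (x + y) := fun x y a d => by
    unfold P at a d ⊢
    rw [Nat.cast_add, un_add, mul_add, pow_add, mul_smul, ← rt_rt, ← map_smul, d, a]
  have P1 : ∀ y, P (U.NC * y) := fun y => by
    unfold P
    rw [m1 _ (Dvd.dvd.mul_right (by
      rw [NC_eq hU, CS]
      exact Finset.prod_dvd_prod_of_subset _ _ _ (Finset.subset_univ _)) _)]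
    have e := (Submodule.mem_iInf _).1 (tu_mem w).1.1.2 y
    rw [LinearMap.mem_ker, LinearMap.sub_apply, sub_eq_zero] at e
    exact e
  have P2 : ∀ (l : U.L.C) y, P (M / l.1 * y) := fun l y => by
    unfold P
    have p := (prC hU l).1
    rw [← un_act hU A hX l y w]
    by_cases hl : l ∈ S
    · obtain ⟨k, hk⟩ := dvd_NS hl
      have e : U.N / l.1 = k * CS U S := by
        rw [NS_CS hU S, hk, mul_assoc, Nat.mul_div_cancel_left _ p.pos]
      rw [((X.E.mem_XS S w).1 hw).1 l hl, m1 _ (by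
        rw [(spC hU A l).2.1, e]
        exact ((dvd_mul_left _ _).mul_right _).mul_right _)]
      have e1 := hc l ((∏ j, q j) * y)
      rw [← mul_assoc, ← (spC hU A l).2.1, ← map_pow, mul_comm] at e1
      have e2 := hX.sc (U.z ^ (M / l.1 * y))
        (X.E.sc ((Cc l).ψ ((M / l.1 * y : ℕ) : ZMod l.1)) w)
      rw [← Module.End.mul_apply, ← map_mul, e1, map_one] at e2
      exact (congrArg tu e2).symm
    · obtain ⟨k, hk⟩ := dvd_CS hl
      have e : U.N / l.1 = NS U S * k := by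
        rw [NS_CS hU S, hk, mul_left_comm, Nat.mul_div_cancel_left _ p.pos]
      rw [((X.E.mem_XS S w).1 hw).2 l hl, md (y := 0) (Nat.modEq_zero_iff_dvd.2 ?_)
        (Nat.modEq_zero_iff_dvd.2 ((dvd_mul_right _ _).mul_right _)), pow_zero, one_smul]
      rw [(spC hU A l).2.1, e]
      exact (((dvd_mul_right _ _).mul_right _).mul_right _).mul_left _
  have key : ∀ T : Finset U.L.C, (∀ y, P ((∏ l ∈ T, l.1) * y)) → ∀ y, P y := fun T => by
    induction T using Finset.induction_on with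
    | empty => simp
    | insert l T hl ih =>
      intro h
      refine ih fun y => ?_
      obtain ⟨e, f, D⟩ := GrpP.dat (spC hU A l).1
      obtain ⟨u, hu⟩ := D.eM
      obtain ⟨v, hv⟩ := D.fq
      refine Pm _ _ ?_ (Pa _ _ (h (v.val * y)) (P2 l (u.val * ((∏ l ∈ T, l.1) * y))))
      rw [Finset.prod_insert hl]
      have ad := D.add
      simp only [Nat.cast_add, Nat.cast_mul, ZMod.natCast_zmod_val]
      linear_combination (((∏ l ∈ T, l.1 : ℕ) : ZMod M) * y) * (ad - hu - hv)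
  intro x
  rw [← pow_mul, ← pow_mul, ← mul_assoc]
  exact key Finset.univ (by rw [← NC_eq hU]; exact P1) x

theorem ev_cc (u : Fin r ⊕ Fin r → U.B M) (c : O) : X.ev u (cc c) = algebraMap O _ c := by
  simp [Dt.ev, cc]

theorem ev_tt (u : Fin r ⊕ Fin r → U.B M) (g : GQ) : X.ev u (tt g) = X.t g := by
  simp [Dt.ev, tt]

theorem ev_dd (u : Fin r ⊕ Fin r → U.B M) (g : GQ) : X.ev u (dd g) = X.d g := by
  simp [Dt.ev, dd]

theorem ev_yy (u : Fin r ⊕ Fin r → U.B M) (j : Fin r) :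
    X.ev u (yy j) = u (Sum.inl j) - 1 := by
  simp [Dt.ev, yy]

end lev

variable [hC : ∀ l : U.L.C, Fact l.1.Prime] [CharP F 2] [Finite F]

/-- **SB**: the socles are spanned by a number of elements which only depends on `r` -/
theorem sb (hE : GEN O) (hD : DIV O) (hP : PAR O) (hV : DESCV O) (hG : GT O) (hU : U.Ok) (r : ℕ) :
    ∃ b : ℕ, ∀ (n M : ℕ) (q : Fin r → ℕ) (b' : Fin r → (ZMod M)ˣ) (τ : Fin r → GQ),
    Lv U r n M q b' τ → ∀ X : Dt U M n, X.Ok → ∀ u, IsDia b' u → ∀ Cc, U.IsCh Cc →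
    ∀ (a : Rep.TX U.bn Cc) (K : Submodule (U.B M) (U.GG M)), K ≤ X.Y1 a.v →
      Sb2 (mT U.L.r) b (Mt (X.ev u) K) := by
  classical
  obtain ⟨b, hb⟩ := genD (S := U.S) (L := U.L) hE hD hP hV hG r
  refine ⟨b, fun n M q b' τ lv X hX u hu Cc hc a K hK => ?_⟩
  have A := aux_of hU lv
  haveI : NeZero M := ⟨A.odd.pos.ne'⟩
  obtain ⟨S, hS⟩ := X.E.le_XS a
  let ι : Mt (X.ev u) K →+ AM O M :=
    ((U.GG M).subtype.toAddMonoidHom).comp K.subtype.toAddMonoidHom
  have inj : Function.Injective ι := Subtype.val_injective.comp Subtype.val_injective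
  have sm : ∀ (p : Tg O) (w : Mt (X.ev u) K),
      ι (p • w) = ((X.ev u p • ((show K from w) : U.GG M) : U.GG M) : AM O M) := fun _ _ => rfl
  have ic : ∀ (o : O) w, ι (cc o • w) = o • ι w := fun o w => by rw [sm, ev_cc]; rfl
  let P : Mt (X.ev u) K → Prop := fun w => ∀ p ∈ mT U.L.r, p • w = 0
  let Xs : Submodule O (AM O M) :=
    { carrier := {v | ∃ w, P w ∧ ι w = v}
      zero_mem' := ⟨0, fun _ _ => smul_zero _, map_zero _⟩
      add_mem' := by
        rintro _ _ ⟨w, a, rfl⟩ ⟨w', a', rfl⟩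
        exact ⟨w + w', fun p hp => by rw [smul_add, a p hp, a' p hp, add_zero], map_add _ _ _⟩
      smul_mem' := by
        rintro o _ ⟨w, a, rfl⟩
        exact ⟨cc o • w, fun p hp => by rw [smul_comm, a p hp, smul_zero], ic o w⟩ }
  have ex : ∀ w : Mt (X.ev u) K, ∃ w' ∈ X.E.Y (Rep.XS U.bn Cc S).v, tu w' = ι w := fun w => by
    obtain ⟨w', h1, h2⟩ := hK (show K from w).2
    exact ⟨w', hS h1, congrArg Subtype.val h2⟩
  have h0 : ∀ w, U.ϖ • ι w = 0 := fun w => by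
    obtain ⟨w', -, e⟩ := ex w
    exact e ▸ (tu_mem w').2
  have ft : ∀ w, P w → ∀ g, ((X.t g • ((show K from w) : U.GG M) : U.GG M) : AM O M) =
      (U.L.r g).trace • ι w := fun w hw g => by
    have e := hw (tt g - cc (U.L.r g).trace) (by simp [mT, ev0, tt, cc])
    rw [sub_smul, sub_eq_zero] at e
    rw [← ic, ← e, sm, ev_tt]
  have fd : ∀ w, P w → ∀ g, (((X.d g : U.B M) • ((show K from w) : U.GG M) : U.GG M) : AM O M) =
      ι w := fun w hw g => by
    have e := hw (dd g - cc (U.L.r g).det) (by simp [mT, ev0, dd, cc])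
    rw [sub_smul, sub_eq_zero] at e
    rw [← ev_dd u, ← sm, e, ic, sm_eq hU.ok hU.uni (b := 1) (by rw [red_det hU.ok, map_one]) (h0 w),
      one_smul]
  have fy : ∀ w, P w → ∀ j, rt O _ (dg 1 (b' j)) (ι w) = ι w := fun w hw j => by
    have e := congrArg ι (hw (yy j) (by simp [mT, ev0, yy]))
    rw [sm, ev_yy, sub_smul, one_smul, map_zero, Submodule.coe_sub, (hu j).1, sub_eq_zero] at e
    exact e
  suffices h : ∃ s : Finset (AM O M), s.card ≤ b ∧ Submodule.span O (s : Set _) = Xs by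
    obtain ⟨s, s1, s2⟩ := h
    exact sb2_of ι inj cc ic P (fun _ _ => smul_zero _) s s1
      (fun x hx => show x ∈ Xs from s2 ▸ Submodule.subset_span hx)
      (fun w hw => s2.symm ▸ (⟨w, hw, rfl⟩ : ι w ∈ Xs))
  have eN := NS_CS hU S
  have dN : NS U S ∣ U.N := ⟨_, eN⟩
  have oN : Odd (NS U S) := A.odd.of_dvd_nat (dN.trans ⟨_, A.eq⟩)
  by_cases h3 : 3 ≤ NS U S
  · haveI : NeZero (NS U S) := ⟨oN.pos.ne'⟩
    let c := ((ZMod.unitOfCoprime _ (cop_NS hU S).symm)⁻¹ : (ZMod (NS U S))ˣ)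
    have he : CS U S * (c : ZMod (NS U S)).val ≡ 1 [MOD NS U S] := by
      rw [← ZMod.natCast_eq_natCast_iff, Nat.cast_mul, ZMod.natCast_zmod_val,
        ← ZMod.coe_unitOfCoprime _ (cop_NS hU S).symm, Units.mul_inv, Nat.cast_one]
    refine hb M U.N (NS U S) U.i (c : ZMod (NS U S)).val (List.ofFn q) (U.z ^ CS U S) U.ϖ ∅ hU.ok
      hU.uni A.odd A.eq' dN h3 A.nodup (List.forall_mem_ofFn_iff.2 A.pr) List.length_ofFn ?_
      (ZMod.val_coe_unit_coprime c) Xs ?_ ?_ ?_ ?_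
    · rw [map_pow, hU.z, eN]
      refine Cyc.ze_pw oN.pos.ne' fun h => A.odd.pos.ne' ?_
      rw [A.eq, eN, h, mul_zero, zero_mul]
    · rintro _ ⟨w, -, rfl⟩
      obtain ⟨w', h1, e⟩ := ex w
      rw [← e, List.prod_ofFn]
      exact ⟨⟨(w' : U.GG M).2.1, inv_XS hU A hX h1⟩, wh_XS hU A hX hc h1 he⟩
    · rintro _ ⟨w, -, rfl⟩
      exact h0 w
    · rintro x y hx hy _ ⟨w, hw, rfl⟩
      obtain ⟨w', -, e⟩ := ex w
      have tq : ∀ x y : (ZMod M)ˣ, Cg M U.N x 1 → Cg M U.N y 1 →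
          dg (x ^ 2 ^ n) (y ^ 2 ^ n) ∈ stH O (ι w) := fun x y hx hy => by
        rw [← e]
        exact mem_Iv.1 (tu_mem w').1.2 _ ⟨x, y, hx, hy, rfl⟩
      have b2 : ∀ j, dg 1 (b' j) ∈ stH O (ι w) := fy w hw
      have b1 : ∀ j, dg (b' j) 1 ∈ stH O (ι w) := fun j => by
        have e1 : dg (b' j) (b' j) ∈ stH O (ι w) :=
          (hX.op.dI (q j) (lv.pr j).1 (fun h => by
            have := (A.sp j).1.odd.of_dvd_nat (Dvd.intro_left _ (A.sp j).1.eq.symm)
            rw [h] at this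
            exact absurd this (by decide)) (τ j) (lv.ine j) (b' j) (lv.cyc j) _).symm.trans
            (fd w hw _)
        have e2 := (stH O (ι w)).mul_mem e1 ((stH O (ι w)).inv_mem (b2 j))
        rwa [show dg (b' j) (b' j) = dg (b' j) 1 * dg 1 (b' j) by rw [dg_mul, mul_one, one_mul],
          mul_inv_cancel_right] at e2
      have k1 := A.mem ((stH O (ι w)).comap (dgl M)) b1 (fun j c h => by
        have := tq c 1 (Cyc.Cg.of_dvd h (A.sp j).2) Cyc.cg_one
        rwa [one_pow] at this) hx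
      have k2 := A.mem ((stH O (ι w)).comap (dgr M)) b2 (fun j c h => by
        have := tq 1 c Cyc.cg_one (Cyc.Cg.of_dvd h (A.sp j).2)
        rwa [one_pow] at this) hy
      rw [show dg x y = dg x 1 * dg 1 y by rw [dg_mul, mul_one, one_mul]]
      exact (stH O (ι w)).mul_mem k1 k2
    · rintro p φ hp - hM hφ _ ⟨w, hw, rfl⟩
      have e : uP (⟨p, hp, hM⟩ : PA M) = cl M p :=
        Units.ext ((ZMod.coe_unitOfCoprime _ _).trans (nd2 hp hM).2.symm)
      rw [← e]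
      exact ⟨(hX.op.frT ⟨p, hp, hM⟩ φ hφ _).symm.trans (ft w hw φ),
        (hX.op.frS ⟨p, hp, hM⟩ φ hφ _).symm.trans (fd w hw φ)⟩
  · have e1 : NS U S = 1 := by
      obtain ⟨k, hk⟩ := oN
      omega
    obtain ⟨l, hl, hτ⟩ := hU.W3.resolve_left fun ⟨l, hl⟩ => by
      have p := (hU.ok.pr l (Finset.mem_union_left _ hl)).1
      exact p.one_lt.ne' (Nat.dvd_one.1 (e1 ▸ ((hU.NW l p).2 hl).mul_right _))
    have hl' := Finset.mem_union_right U.L.W hl
    obtain ⟨g, hg⟩ := unit_tr hU.ok hτ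
    refine ⟨∅, Nat.zero_le _, ?_⟩
    rw [Finset.coe_empty, Submodule.span_empty]
    refine ((Submodule.eq_bot_iff _).2 ?_).symm
    rintro _ ⟨w, hw, rfl⟩
    obtain ⟨w', h1, e⟩ := ex w
    have sp := spC hU A ⟨l, hl⟩
    have m : ι w ∈ Iv O (RD O) (Kq M (M / l)) := mem_Iv.2 fun h hh => by
      rw [← e]
      refine mem_Iv.1 (inv_XS hU A hX h1) h (kq_mono ?_ hh)
      rw [e1, sp.2.1]
      exact Nat.mul_dvd_mul_right (one_dvd _) _
    have e2 := congrArg Subtype.val (hX.op.ur _ l sp.1 (U.L.τ l)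
      ⟨_, (hU.ok.hP l hl').1, (hU.ok.hP l hl').2, (hU.ok.tm l hl').tau⟩ _ m g)
    have e3 := (ft w hw _).symm.trans (e2.trans (ft w hw g))
    rw [← sub_eq_zero, ← sub_smul] at e3
    exact hg.smul_eq_zero.1 e3

end Vale.Agent.P022D.Fm.Sb

namespace Vale.Agent.P022D.Fm

open Vale.Agent.P022D.V Vale.Agent.P022D.As

variable {O F : Type} [CommRing O] [IsLocalRing O] [Co O] [Field F] [CharP F 2] {U : Su O F}
  [hC : ∀ l : U.L.C, Fact l.1.Prime] {Cc : ∀ l : U.L.C, Rep.Ch (ZMod l.1) F}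

/-- row SBR -/
theorem sbr [Finite F] (hE : GEN O) (hD : DIV O) (hP : PAR O) (hV : DESCV O) (hG : Gt.GT O)
    (hU : U.Ok) (hc : U.IsCh Cc) : SBR U Cc := fun r => by
  obtain ⟨b, hb⟩ := Sb.sb hE hD hP hV hG hU r
  exact ⟨b, fun n q P i => hb n P.M q P.b P.τ P.lv P.X P.ok P.u P.dia Cc hc i _ fun _ h => h.1⟩

end Vale.Agent.P022D.Fm
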