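import Vale.Agent.P022D.Fm.Sg
import Vale.Agent.P022D.Fm.OpA

/-!
# P022D, forms side: row GOP
-/

set_option linter.all false

open IsLocalRing
open scoped MatrixGroups NumberField Pointwise

noncomputable section

namespace Vale.Agent.P022D.Fm

open Vale.Agent.P022 Vale.Agent.P022D.V Vale.Agent.P022.H853
open Vale.Agent.P022D.G (Wd wT wS Inert)
open Vale.Agent.P027M.S (mx)
open Vale.Agent.P022D.Gt (Xo Ga)

namespace OpP

variable {O F : Type} [CommRing O] [Co O] [Field F] {M : ℕ}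

/-- the operators as elements of the completed Hecke ring -/
theorem exB [NeZero M] {i l N : ℕ} {t d : GQ → Module.End O (Xo O M i l)} (h : Ga M i l t d)
    (G : Submodule O (AM O M)) (le : G ≤ Xo O M i l)
    (st : ∀ ℓ : PA M, ∀ v ∈ G, T2 O (RD O) i ℓ.1 (uP ℓ) v ∈ G ∧ S2 O (RD O) i ℓ.1 (uP ℓ) v ∈ G) :
    ∃ (t' : GQ → BT (HA O M N i) G) (d' : GQ →* (BT (HA O M N i) G)ˣ), H346.TF t' d' ∧ ∀ g (v : G),
      Submodule.inclusion le (t' g • v) = t g (Submodule.inclusion le v) ∧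
      Submodule.inclusion le ((d' g : BT (HA O M N i) G) • v) = d g (Submodule.inclusion le v) := by
  classical
  have mem : ∀ g (v : G), (t g (Submodule.inclusion le v) : AM O M) ∈ G ∧
      (d g (Submodule.inclusion le v) : AM O M) ∈ G := fun g v =>
    h.mem ∅ G.toAddSubgroup (fun p hp _ hM v hv => by
      have := st ⟨p, hp, hM⟩ v hv
      rwa [uP_cl] at this) g _ v.2
  have loc : ∀ (s : Finset G) g, ∃ P ∈ HA O M N i, ∃ Q ∈ HA O M N i, ∀ v ∈ s,
      (t g (Submodule.inclusion le v) : AM O M) = P v ∧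
      (d g (Submodule.inclusion le v) : AM O M) = Q v := fun s g => by
    obtain ⟨P, Q, ⟨P', a, b⟩, ⟨Q', a', b'⟩, e⟩ := Gt.law_ind h.law (2 * M).primeFactors
      (fun e => ∃ x ∈ HA O M N i, ∀ v, (e v : AM O M) = x v) ⟨1, one_mem _, fun _ => rfl⟩
      (by
        rintro _ _ ⟨x, a, b⟩ ⟨y, a', b'⟩
        exact ⟨x + y, add_mem a a', fun v => by
          rw [LinearMap.add_apply, Submodule.coe_add, b, b', LinearMap.add_apply]⟩)
      (by
        rintro _ _ ⟨x, a, b⟩ ⟨y, a', b'⟩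
        exact ⟨x - y, sub_mem a a', fun v => by
          rw [LinearMap.sub_apply, Submodule.coe_sub, b, b', LinearMap.sub_apply]⟩)
      (by
        rintro _ _ ⟨x, a, b⟩ ⟨y, a', b'⟩
        exact ⟨x * y, mul_mem a a', fun v => by
          rw [Module.End.mul_apply, b, b', Module.End.mul_apply]⟩)
      (fun ℓ φ hl hS hφ => by
        have m := Gt.not_mem_pf (NeZero.ne M) hl hS
        exact ⟨⟨_, Algebra.subset_adjoin (Or.inl ⟨wT ⟨ℓ, hl, m⟩, rfl⟩), fun v => by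
            rw [bw_T, uP_cl]; exact (h.fr hl m hφ v).1⟩,
          ⟨_, Algebra.subset_adjoin (Or.inl ⟨wS ⟨ℓ, hl, m⟩, rfl⟩), fun v => by
            rw [bw_S, uP_cl]; exact (h.fr hl m hφ v).2⟩⟩)
      (s.image (Submodule.inclusion le)) g
    exact ⟨P', a, Q', a', fun v hv => by
      rw [(e _ (Finset.mem_image_of_mem _ hv)).1, (e _ (Finset.mem_image_of_mem _ hv)).2, b, b']
      exact ⟨rfl, rfl⟩⟩
  let t' : GQ → BT (HA O M N i) G := fun g =>
    (⟨LinearMap.codRestrict G ((Xo O M i l).subtype ∘ₗ t g ∘ₗ Submodule.inclusion le)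
      fun v => (mem g v).1, fun s => by
        obtain ⟨P, a, Q, -, e⟩ := loc s g
        exact ⟨P, (cm_HA (O := O) N i).symm ▸ a, fun v hv => (e v hv).1⟩⟩ : LS (cm (HA O M N i)) G)
  let d' : GQ → BT (HA O M N i) G := fun g =>
    (⟨LinearMap.codRestrict G ((Xo O M i l).subtype ∘ₗ d g ∘ₗ Submodule.inclusion le)
      fun v => (mem g v).2, fun s => by
        obtain ⟨P, -, Q, a, e⟩ := loc s g
        exact ⟨Q, (cm_HA (O := O) N i).symm ▸ a, fun v hv => (e v hv).2⟩⟩ : LS (cm (HA O M N i)) G)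
  have kt : ∀ g v, Submodule.inclusion le (t' g • v) = t g (Submodule.inclusion le v) :=
    fun _ _ => Subtype.ext rfl
  have kd : ∀ g v, Submodule.inclusion le (d' g • v) = d g (Submodule.inclusion le v) :=
    fun _ _ => Subtype.ext rfl
  have ji := Submodule.inclusion_injective le
  let D : GQ →* BT (HA O M N i) G :=
    { toFun := d'
      map_one' := BT.ext fun v => ji (by rw [kd, h.law.d1, one_smul]; rfl)
      map_mul' := fun a b => BT.ext fun v => ji (by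
        rw [kd, h.law.dm, mul_smul, kd, kd, Module.End.mul_apply]) }
  refine ⟨t', D.toHomUnits, ⟨BT.ext fun v => ji ?_, fun a b => BT.ext fun v => ji ?_,
    fun a b => BT.ext fun v => ji ?_⟩, fun g v => ⟨kt g v, kd g v⟩⟩
  · rw [kt, h.law.one, two_smul, map_add, Module.End.ofNat_apply, two_smul]
  · rw [kt, kt, h.law.comm]
  · change _ = Submodule.inclusion le ((t' (a * b) + d' b * t' (a * b⁻¹)) • v)
    rw [mul_smul, add_smul, mul_smul, map_add, kt, kt, kt, kd, kt, ← Module.End.mul_apply,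
      h.law.mul, LinearMap.add_apply, Module.End.mul_apply]

/-- the operators are congruent to the values at the point -/
theorem nilB [IsLocalRing O] {U : Su O F} (hU : U.Ok) {B Y : Type} [CommRing B] [Algebra O B]
    [AddCommGroup Y] [Module B Y] {t : GQ → B} {d : GQ →* Bˣ} (tf : H346.TF t d) (S : Finset ℕ)
    (v : Y) (opn : ∃ V : Subgroup GQ, V.Normal ∧ IsOpen (V : Set GQ) ∧
      ∀ u ∈ V, (d u : B) • v = v ∧ ∀ g, t (g * u) • v = t g • v)
    (h0 : ∃ k : ℕ, algebraMap O B U.ϖ ^ k • v = 0)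
    (fr' : ∀ (l : ℕ) φ, l.Prime → l ∉ S → IsFrob l φ →
      (∃ k : ℕ, (t φ - algebraMap O B (U.tr φ)) ^ k • v = 0) ∧
      ∃ k : ℕ, ((d φ : B) - algebraMap O B (U.dt φ)) ^ k • v = 0) (g : GQ) :
    ∃ k : ℕ, (t g - algebraMap O B (U.tr g)) ^ k • v = 0 ∧
      ((d g : B) - algebraMap O B (U.dt g)) ^ k • v = 0 := by
  let I := (Ideal.torsionOf B Y v).radical
  have mI : ∀ x : B, x ∈ I ↔ ∃ k : ℕ, x ^ k • v = 0 := fun x => Iff.rfl
  obtain ⟨V, n, o, e⟩ := opn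
  obtain ⟨l, φ, k, hl, hS, hφ, hu⟩ := G.frob (V ⊓ U.S.rb.ker) inferInstance
    (o.inter hU.ok.dh.opn) g S
  obtain ⟨a, b⟩ := fr' l φ hl hS hφ
  rw [← mI, ← Ideal.Quotient.eq] at a b
  let π := Ideal.Quotient.mk I
  have kt : ∀ k : ℕ, π (t (φ ^ k)) = π (algebraMap O B (U.tr (φ ^ k))) ∧
      π (t (φ ^ (k + 1))) = π (algebraMap O B (U.tr (φ ^ (k + 1)))) := fun k => by
    induction k with
    | zero =>
      refine ⟨?_, by rw [zero_add, pow_one]; exact a⟩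
      rw [pow_zero, tf.one, Su.tr, map_one, Matrix.trace_one, Fintype.card_fin, map_natCast,
        Nat.cast_ofNat]
    | succ k ih =>
      refine ⟨ih.2, ?_⟩
      have x := ih.1
      have y := ih.2
      unfold Su.tr Su.dt at *
      rw [G.SubA.step tf, tf_mat]
      simp only [map_sub, map_mul]
      rw [x, y, show π _ = π _ from a, show π _ = π _ from b]
  have kd : π (d (φ ^ k) : B) = π (algebraMap O B (U.dt (φ ^ k))) := by
    unfold Su.dt at *
    rw [map_pow, map_pow, Units.val_pow_eq_pow_val, Matrix.det_pow, map_pow, map_pow, map_pow,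
      show π _ = π _ from b]
  have er : U.S.rb g = U.S.rb (φ ^ k) := by
    have := (Subgroup.mem_inf.1 hu).2
    rw [MonoidHom.mem_ker, map_mul, map_inv, inv_mul_eq_one] at this
    exact this
  have hp : ∀ x y : O, U.ϖ ∣ x - y → π (algebraMap O B x) = π (algebraMap O B y) := by
    rintro x y ⟨c, hc⟩
    rw [Ideal.Quotient.eq, ← map_sub, hc, map_mul]
    exact I.mul_mem_right _ ((mI _).2 h0)
  have eg : φ ^ k = g * (g⁻¹ * φ ^ k) := by rw [mul_inv_cancel_left]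
  have e1 : π (t g) = π (t (φ ^ k)) := by
    rw [Ideal.Quotient.eq, mI]
    exact ⟨1, by rw [pow_one, sub_smul, eg, (e _ hu.1).2, sub_self]⟩
  have e2 : π (d g : B) = π (d (φ ^ k) : B) := by
    rw [Ideal.Quotient.eq, mI]
    exact ⟨1, by rw [pow_one, sub_smul, eg, map_mul, Units.val_mul, mul_smul, (e _ hu.1).1, sub_self]⟩
  obtain ⟨k1, h1⟩ := (mI _).1 (Ideal.Quotient.eq.1
    (e1.trans ((kt k).1.trans (hp _ _ (cg_of hU er).1).symm)))
  obtain ⟨k2, h2⟩ := (mI _).1 (Ideal.Quotient.eq.1 (e2.trans (kd.trans (hp _ _ (cg_of hU er).2).symm)))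
  exact ⟨k1 + k2, by rw [add_comm, pow_add, mul_smul, h1, smul_zero],
    by rw [pow_add, mul_smul, h2, smul_zero]⟩

theorem pow_act {H : Subalgebra O (Module.End O (AM O M))} {G : Submodule O (AM O M)} {e : BT H G}
    {T : Module.End O (AM O M)} (h : ∀ v : G, ((e • v : G) : AM O M) = T v) (c : O) (k : ℕ) (v : G) :
    (((e - algebraMap O _ c) ^ k • v : G) : AM O M) = ((T - algebraMap O _ c) ^ k) v := by
  induction k with
  | zero => rw [pow_zero, pow_zero, one_smul]; rfl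
  | succ k ih =>
    rw [pow_succ', pow_succ', mul_smul, Module.End.mul_apply, ← ih, sub_smul, Submodule.coe_sub, h,
      LinearMap.sub_apply]
    rfl

variable [IsDomain O] [IsDiscreteValuationRing O] [Finite F] [CharP F 2] {U : Su O F}

theorem two_ne' (a : ℕ) : (2 : O) ^ a ≠ 0 := pow_ne_zero _ fun e => by
  have := congrArg (Co.j : O →+* ℂ) e
  rw [map_ofNat, map_zero] at this
  exact two_ne_zero this

theorem hq (hU : U.Ok) (a : ℕ) : Finite (O ⧸ Ideal.span {(2 : O) ^ a}) :=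
  fin_quo U.S.red hU.ok.ker (two_ne' a)

theorem two_dvd (hU : U.Ok) (a : ℕ) : ∃ k, (2 : O) ^ a ∣ U.ϖ ^ k := by
  have hi : Irreducible U.ϖ := (IsDiscreteValuationRing.irreducible_iff_uniformizer _).2 (le_antisymm
    (fun x hx => Ideal.mem_span_singleton.2 (hU.uni.dvd x hx))
    ((Ideal.span_singleton_le_iff_mem _).2 hU.uni.nu))
  obtain ⟨n, u, e⟩ := IsDiscreteValuationRing.eq_unit_mul_pow_irreducible (two_ne' (O := O) a) hi
  exact ⟨n, by rw [e]; exact (Units.mul_left_dvd).2 dvd_rfl⟩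

theorem XP_le (hU : U.Ok) (hD : DIV O) {l : ℕ} (lv : Gt.Lv M l) {S : Finset ℕ} (hl : l ∉ S)
    (hu : IsUnit (U.tr (fr l))) : U.XP M S ≤ Xo O M U.i l := fun v hv => by
  obtain ⟨a, ha⟩ := Gt.ex_two hD lv.odd lv.three le_rfl ⟨v, hv.1⟩
  have h := (mem_Pm.1 hv.2 ⟨l, lv.prime, lv.nd⟩ hl).1
  rw [bw_T, uP_cl] at h
  exact ⟨hv.1, per (hq hU) hu h (congrArg Subtype.val ha)⟩

/-- the operators on `XP M S` -/
theorem exX (hU : U.Ok) (hD : DIV O) (hK : HKV O) [NeZero M] {l : ℕ} (lv : Gt.Lv M l)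
    {S : Finset ℕ} (le : U.XP M S ≤ Xo O M U.i l) {t d : GQ → Module.End O (Xo O M U.i l)}
    (h : Ga M U.i l t d) :
    ∃ (t' : GQ → BT (HA O M U.N U.i) (U.XP M S)) (d' : GQ →* (BT (HA O M U.N U.i) (U.XP M S))ˣ),
      H346.TF t' d' ∧ (∀ g (v : U.XP M S),
      Submodule.inclusion le (t' g • v) = t g (Submodule.inclusion le v) ∧
      Submodule.inclusion le ((d' g : BT (HA O M U.N U.i) (U.XP M S)) • v) =
        d g (Submodule.inclusion le v)) ∧
      ∀ g (v : U.XP M S), ∃ k : ℕ, (t' g - algebraMap O _ (U.tr g)) ^ k • v = 0 ∧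
        ((d' g : BT (HA O M U.N U.i) (U.XP M S)) - algebraMap O _ (U.dt g)) ^ k • v = 0 := by
  classical
  obtain ⟨t', d', tf, k⟩ := exB (N := U.N) h (U.XP M S) le fun ℓ v hv => XP_TS hK U lv.odd S ℓ hv
  have ji := Submodule.inclusion_injective le
  refine ⟨t', d', tf, k, fun g v => nilB hU tf (S ∪ (U.S.T ∪ (2 * M).primeFactors)) v ?_ ?_
    (fun p φ hp hS hφ => ?_) g⟩
  · obtain ⟨V, n, o, e⟩ := h.law.opn (Submodule.inclusion le v)
    exact ⟨V, n, o, fun u hu => ⟨ji (by rw [(k u v).2, (e u hu).1]),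
      fun g => ji (by rw [(k _ v).1, (k _ v).1, (e u hu).2])⟩⟩
  · obtain ⟨a, ha⟩ := Gt.ex_two hD lv.odd lv.three (V := U.XP M S) inf_le_left v
    obtain ⟨j, c, hc⟩ := two_dvd hU a
    refine ⟨j, ?_⟩
    rw [← map_pow, BT.alg_smul, hc, mul_comm, mul_smul, ← Nat.cast_ofNat, ← Nat.cast_pow,
      Nat.cast_smul_eq_nsmul, ha, smul_zero]
  · rw [Finset.mem_union, Finset.mem_union, not_or, not_or] at hS
    have m := Gt.not_mem_pf (NeZero.ne M) hp hS.2.2
    obtain ⟨x, y⟩ := mem_Pm.1 v.2.2 ⟨p, hp, m⟩ hS.1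
    obtain ⟨a, ha⟩ := mem_Nl.1 x
    obtain ⟨b, hb⟩ := mem_Nl.1 y
    rw [bw_T, uP_cl] at ha
    rw [bw_S, uP_cl] at hb
    obtain ⟨e1, e2⟩ := tr_fr hU hp hS.2.1 hφ
    refine ⟨⟨a, Subtype.ext ?_⟩, ⟨b, Subtype.ext ?_⟩⟩
    · rw [pow_act (fun w => (congrArg Subtype.val (k φ w).1).trans (h.fr hp m hφ _).1), ← e1]
      exact ha
    · rw [pow_act (fun w => (congrArg Subtype.val (k φ w).2).trans (h.fr hp m hφ _).2), ← e2]
      exact hb

theorem ex_lv (hU : U.Ok) (hM : Odd M) (h3 : 3 ≤ M) (S : Finset ℕ) :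
    ∃ l, Gt.Lv M l ∧ l ∉ S ∧ IsUnit (U.tr (fr l)) := by
  classical
  obtain ⟨l, hl, hS, -, hu⟩ := ex_l0 hU (S ∪ (2 * M).primeFactors)
  rw [Finset.mem_union, not_or] at hS
  exact ⟨l, ⟨hM, h3, hl, Gt.not_mem_pf hM.pos.ne' hl hS.2⟩, hS.1, hu⟩

theorem XP_eq (hU : U.Ok) (hT : Gt.GT O) (hD : DIV O) (hK : HKV O) (hM : Odd M) (h3 : 3 ≤ M)
    (S : Finset ℕ) : U.XP M S = U.GG M := by
  haveI : NeZero M := ⟨hM.pos.ne'⟩
  refine le_antisymm (fun v hv => ⟨hv.1, mem_Pm.2 fun ℓ _ => ?_⟩)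
    fun v hv => ⟨hv.1, mem_Pm.2 fun ℓ _ => mem_Pm.1 hv.2 ℓ (Finset.notMem_empty _)⟩
  obtain ⟨l, lv, hl, hu⟩ := ex_lv hU hM h3 S
  obtain ⟨t, d, h⟩ := hT M U.i l lv
  obtain ⟨t', d', -, k, nil⟩ := exX hU hD hK lv (XP_le hU hD lv hl hu) h
  obtain ⟨j, a, b⟩ := nil (fr ℓ.1) ⟨v, hv⟩
  have hφ := fr_frob ℓ.2.1
  have a' := congrArg Subtype.val a
  have b' := congrArg Subtype.val b
  rw [pow_act (fun w => (congrArg Subtype.val (k _ w).1).trans (h.fr ℓ.2.1 ℓ.2.2 hφ _).1)] at a'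
  rw [pow_act (fun w => (congrArg Subtype.val (k _ w).2).trans (h.fr ℓ.2.1 ℓ.2.2 hφ _).2)] at b'
  rw [bw_T, bw_S, uP_cl]
  exact ⟨mem_Nl.2 ⟨j, a'⟩, mem_Nl.2 ⟨j, b'⟩⟩

omit [IsDomain O] [IsDiscreteValuationRing O] in
/-- unramified at `q` on vectors of level prime to `q`, no condition on the level -/
theorem unl' (hT : Gt.GT O) (hK : HKV O) (hV : DESCV O) [NeZero M] {i l : ℕ} (lv : Gt.Lv M l)
    {t d : GQ → Module.End O (Xo O M i l)} (h : Ga M i l t d) {M₀ q : ℕ} (sp : Sp M M₀ q)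
    {s : GQ} (hs : Inert q s) (v : Xo O M i l) (hv : (v : AM O M) ∈ Iv O (RD O) (Kq M M₀)) (g : GQ) :
    t (g * s) v = t g v := by
  obtain ⟨p, hle, hp⟩ := Nat.exists_infinite_primes (2 * M + l + 1)
  have h3 := lv.three
  have pM : ¬ p ∣ M := fun e => absurd (Nat.le_of_dvd (by omega) e) (by omega)
  have po : Odd p := hp.odd_of_ne_two (by omega)
  haveI : NeZero (M * p) := ⟨mul_ne_zero (NeZero.ne M) hp.ne_zero⟩
  have M0 : M₀ ≠ 0 := fun e => NeZero.ne M (by rw [sp.eq, e, zero_mul])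
  haveI : NeZero (M₀ * p) := ⟨mul_ne_zero M0 hp.ne_zero⟩
  have lv' : Gt.Lv (M * p) l := ⟨lv.odd.mul po, h3.trans (Nat.le_mul_of_pos_right _ hp.pos),
    lv.prime, fun e => by
      rw [← mul_assoc] at e
      exact ((Nat.Prime.dvd_mul lv.prime).1 e).elim lv.nd fun e =>
        absurd ((Nat.prime_dvd_prime_iff_eq lv.prime hp).1 e) (by omega)⟩
  obtain ⟨t', d', h'⟩ := hT (M * p) i l lv'
  have hd : M ∣ M * p := dvd_mul_right _ _
  have m := (Gt.Xo_ifl (i := i) hd hK hV lv' h3).le (Submodule.mem_map_of_mem v.2)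
  have k := fun g => (h.ifl hd h' g v ⟨_, m.1⟩ rfl).1
  have q2 : ¬ q ∣ 2 * (M₀ * p) := fun e => by
    have qM : q ∣ M := ⟨M₀, by rw [sp.eq, mul_comm]⟩
    rcases (Nat.Prime.dvd_mul sp.prime).1 e with e | e
    · exact lv.odd.not_two_dvd_nat (((Nat.prime_dvd_prime_iff_eq sp.prime Nat.prime_two).1 e) ▸ qM)
    · rcases (Nat.Prime.dvd_mul sp.prime).1 e with e | e
      · exact (Nat.Prime.coprime_iff_not_dvd sp.prime).1 sp.cop.symm e
      · exact pM (((Nat.prime_dvd_prime_iff_eq sp.prime hp).1 e) ▸ qM)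
  have iv : ifl O (RD O) hd v ∈ Iv O (RD O) (Kq (M * p) (M₀ * p)) := by
    rw [mem_Iv] at hv ⊢
    intro x hx
    rw [← ifl_rt, hv _ fun a b => ?_]
    obtain ⟨y, hy⟩ := hx a b
    refine ⟨(p : ZMod M) * ZMod.castHom hd (ZMod M) y, ?_⟩
    rw [pr_coe, hy, map_add, map_mul, map_natCast, Nat.cast_mul, mul_assoc, Matrix.one_apply,
      Matrix.one_apply, apply_ite (ZMod.castHom hd (ZMod M)), map_one, map_zero]
  have u := (h'.unl (mul_dvd_mul_right sp.dvd p) hT hK hV lv'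
    ((show 3 ≤ p by omega).trans (Nat.le_mul_of_pos_left _ (Nat.pos_of_ne_zero M0))) sp.prime q2
    ⟨_, m.1⟩ iv).1 s hs
  refine Subtype.ext (ifl_inj (S := O) hd lv'.odd ?_)
  rw [← k, ← k, u.2]

theorem exOp (hU : U.Ok) (hT : Gt.GT O) (hD : DIV O) (hK : HKV O) (hV : DESCV O) (hM : Odd M)
    (h3 : 3 ≤ M) : ∃ (t : GQ → U.B M) (d : GQ →* (U.B M)ˣ), U.Op t d := by
  haveI : NeZero M := ⟨hM.pos.ne'⟩
  obtain ⟨l, lv, hl, hu⟩ := ex_lv hU hM h3 ∅
  obtain ⟨t, d, h⟩ := hT M U.i l lv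
  have le : U.GG M ≤ Xo O M U.i l := XP_le hU hD lv hl hu
  obtain ⟨t', d', tf, k, nil⟩ : ∃ (t' : GQ → U.B M) (d' : GQ →* (U.B M)ˣ),
      H346.TF t' d' ∧ (∀ g (v : U.GG M),
      Submodule.inclusion le (t' g • v) = t g (Submodule.inclusion le v) ∧
      Submodule.inclusion le ((d' g : U.B M) • v) = d g (Submodule.inclusion le v)) ∧
      ∀ g (v : U.GG M), ∃ k : ℕ, (t' g - algebraMap O _ (U.tr g)) ^ k • v = 0 ∧
        ((d' g : U.B M) - algebraMap O _ (U.dt g)) ^ k • v = 0 := exX hU hD hK lv le h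
  have ji := Submodule.inclusion_injective le
  have kt : ∀ g (v : U.GG M), ((t' g • v : U.GG M) : AM O M) = t g (Submodule.inclusion le v) :=
    fun g v => congrArg Subtype.val (k g v).1
  have kd : ∀ g (v : U.GG M), (((d' g : U.B M) • v : U.GG M) : AM O M) =
      d g (Submodule.inclusion le v) := fun g v => congrArg Subtype.val (k g v).2
  have cu : ∀ {s : GQ} {u : (ZMod M)ˣ}, Cy M s (u : ZMod M).val → cyc M s = u := fun e =>
    cy_eq e (ZMod.natCast_zmod_val _).symm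
  refine ⟨t', d', tf, fun v => ?_, fun ℓ φ hφ v => ?_, fun ℓ φ hφ v => ?_, fun v => ?_, nil,
    fun v => ?_, fun p hp p2 s hs u e v => ?_, fun c hc => BT.ext fun v => ji ?_,
    fun M₀ q sp s hs u e v hv => ?_, fun M₀ q sp s hs v hv g => ji ?_⟩
  · let V : Subgroup GQ :=
      { carrier := {u | (d' u : U.B M) • v = v ∧ ∀ g, t' (g * u) • v = t' g • v}
        one_mem' := ⟨by rw [map_one, Units.val_one, one_smul], fun g => by rw [mul_one]⟩
        mul_mem' := fun {a b} x y => ⟨by rw [map_mul, Units.val_mul, mul_smul, y.1, x.1],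
          fun g => by rw [← mul_assoc, y.2, x.2]⟩
        inv_mem' := fun {a} x => ⟨by
            conv_lhs => rw [← x.1]
            rw [smul_smul, ← Units.val_mul, ← map_mul, inv_mul_cancel, map_one, Units.val_one,
              one_smul],
          fun g => by rw [← x.2, inv_mul_cancel_right]⟩ }
    obtain ⟨W, -, o, e⟩ := h.law.opn (Submodule.inclusion le v)
    refine ⟨V, ⟨fun a x b => ⟨?_, fun g => ?_⟩⟩, Subgroup.isOpen_mono (fun u hu =>
      ⟨ji (by rw [(k u v).2, (e u hu).1]), fun g => ji (by rw [(k _ v).1, (k _ v).1, (e u hu).2])⟩) o,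
      fun ℓ s hs => ?_, fun u hu => hu⟩
    · rw [map_mul, map_mul, mul_right_comm, ← map_mul, mul_inv_cancel, map_one, one_mul]
      exact x.1
    · rw [show g * (b * a * b⁻¹) = g * b * a * b⁻¹ by group, tf.comm,
        show b⁻¹ * (g * b * a) = b⁻¹ * (g * b) * a by group, x.2, tf.comm, mul_inv_cancel_right]
    · obtain ⟨a, b⟩ := h.unr ℓ.1 ℓ.2.1 ℓ.2.2 s hs
      exact ⟨ji (by rw [(k s v).2, a]; rfl), fun g => ji (by rw [(k _ v).1, (k _ v).1, b])⟩
  · rw [kt, uP_cl]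
    exact (h.fr ℓ.2.1 ℓ.2.2 hφ _).1
  · rw [kd, uP_cl]
    exact (h.fr ℓ.2.1 ℓ.2.2 hφ _).2
  · obtain ⟨s, hv, cl⟩ := h.fin (Submodule.inclusion le v)
    let A : Submodule O (AM O M) := Submodule.span O ((Xo O M U.i l).subtype '' s)
    have hA : (A : Set (AM O M)).Finite := fin_span (hq hU) (s.finite_toSet.image _) (by
      rintro _ ⟨w, -, rfl⟩
      obtain ⟨a, ha⟩ := Gt.ex_two hD hM h3 Gt.Xo_le w
      exact ⟨a, congrArg Subtype.val ha⟩)
    have gen : ∀ f : Module.End O (AM O M), (∀ w ∈ s, ∃ w' ∈ s, (w' : AM O M) = f w) →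
        ∀ w ∈ A, f w ∈ A := fun f hf w hw => by
      refine (Submodule.span_le.2 ?_ : A ≤ A.comap f) hw
      rintro _ ⟨x, hx, rfl⟩
      obtain ⟨y, hy, e⟩ := hf x hx
      exact Submodule.subset_span ⟨y, hy, e⟩
    have st : ∀ f ∈ HA O M U.N U.i, ∀ w ∈ A, f w ∈ A := fun f hf =>
      HA_ind (fun f => ∀ w ∈ A, f w ∈ A) (fun c w hw => A.smul_mem c hw)
        (fun a b x y w hw => A.add_mem (x w hw) (y w hw)) (fun a b x y w hw => x _ (y w hw))
        (fun ℓ => ⟨gen _ fun w hw => ⟨_, ((cl w hw).1 (fr ℓ.1)).1, by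
            rw [uP_cl]; exact (h.fr ℓ.2.1 ℓ.2.2 (fr_frob ℓ.2.1) w).1⟩,
          gen _ fun w hw => ⟨_, ((cl w hw).1 (fr ℓ.1)).2, by
            rw [uP_cl]; exact (h.fr ℓ.2.1 ℓ.2.2 (fr_frob ℓ.2.1) w).2⟩⟩)
        (fun a b _ => gen _ fun w hw => ⟨Gt.rX hK hD lv U.i (dg a b) w,
          (cl w hw).2 (dg a b) _ rfl, rfl⟩) hf
    refine Set.Finite.to_subtype ((hA.preimage Subtype.val_injective.injOn).subset fun w hw => ?_)
    obtain ⟨e, rfl⟩ := Submodule.mem_span_singleton.1 hw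
    obtain ⟨f, hf, e1⟩ := e.loc {v}
    change (e.op v : AM O M) ∈ A
    rw [e1 v (Finset.mem_singleton_self v)]
    exact st f (cm_HA (O := O) (M := M) U.N U.i ▸ hf) _ (Submodule.subset_span ⟨_, hv, rfl⟩)
  · obtain ⟨a, ha⟩ := Gt.ex_two hD hM h3 Gt.Xo_le (Submodule.inclusion le v)
    refine ⟨a + 1, fun g x u hx hu e => ?_⟩
    rw [kd, h.det a x g _ ha hx (cy_dvd (dvd_mul_right _ _) e),
      cy_eq (cy_dvd (dvd_mul_left _ _) e) hu]
    rfl
  · rw [kd, h.dI hD lv hp p2 hs, cu e]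
    rfl
  · rw [(k c v).2, h.dc c hc, neg_smul, one_smul, map_neg]
    rfl
  · rw [kt, h.i1 M₀ q sp s hs _ hv, cu e]
    rfl
  · rw [(k _ v).1, (k _ v).1, unl' hT hK hV lv h sp hs _ hv]

end OpP

/-- **row GOP** -/
theorem gop {O F : Type} [CommRing O] [IsDomain O] [IsDiscreteValuationRing O] [Co O] [Field F]
    [Finite F] [CharP F 2] {U : Su O F} (hU : U.Ok) (hT : Gt.GT O) (hD : DIV O) (hK : HKV O)
    (hV : DESCV O) : GOP U := fun M hM h3 =>
  ⟨OpP.exOp hU hT hD hK hV hM h3, OpP.XP_eq hU hT hD hK hM h3⟩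

end Vale.Agent.P022D.Fm
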