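import Vale.Agent.P022D.W.Mod
import Vale.Agent.P022D.W.Step
import Vale.Agent.P022D.G.Ops

/-!
# P022D, forms: the module over the ring of symbols given by commuting operators
-/

set_option linter.all false

noncomputable section

namespace Vale.Agent.P022D.Fm

open NumberField IsLocalRing
open Vale.Agent.P022 Vale.Agent.P022D.As
open Vale.Agent.P027M.S (Inert)
open Vale.Agent.P022D.Sel (M2)
open Vale.Agent.P022D.Loc (Pl)

variable {O V : Type} [CommRing O] [AddCommGroup V] [Module O V]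

/-- the operators of the symbols -/
def gen (t d : GQ → Module.End O V) (y : ℕ → Module.End O V) : GQ ⊕ GQ ⊕ ℕ → Module.End O V :=
  Sum.elim t (Sum.elim d y)

/-- commuting operators -/
def Op (t d : GQ → Module.End O V) (y : ℕ → Module.End O V) : Prop :=
  ∀ a b, Commute (gen t d y a) (gen t d y b)

variable {t d : GQ → Module.End O V} {y : ℕ → Module.End O V}

theorem Op.mc (h : Op t d y) : IsMulCommutative (Algebra.adjoin O (Set.range (gen t d y))) :=
  Algebra.isMulCommutative_adjoin O (by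
    rintro _ ⟨a, rfl⟩ _ ⟨b, rfl⟩
    exact (h a b).eq)

open scoped IsMulCommutative in
theorem Op.ex (h : Op t d y) : ∃ f : Tg O →ₐ[O] Module.End O V,
    ∀ a, f (MvPolynomial.X a) = gen t d y a := by
  have := h.mc
  refine ⟨(Algebra.adjoin O (Set.range (gen t d y))).val.comp (MvPolynomial.aeval
    fun a => ⟨gen t d y a, Algebra.subset_adjoin ⟨a, rfl⟩⟩), fun a => ?_⟩
  rw [AlgHom.comp_apply, MvPolynomial.aeval_X]
  rfl

/-- the action of the ring of symbols -/
def act (h : Op t d y) : Tg O →ₐ[O] Module.End O V := h.ex.choose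

theorem act_X (h : Op t d y) (a : GQ ⊕ GQ ⊕ ℕ) : act h (MvPolynomial.X a) = gen t d y a :=
  h.ex.choose_spec a

theorem act_cc (h : Op t d y) (c : O) (v : V) : act h (cc c) v = c • v := by
  rw [show cc c = algebraMap O (Tg O) c from rfl, AlgHom.commutes]
  rfl

/-- the laws of a pseudo character give commuting operators -/
theorem op_of_law (hl : G.Law t d) (htt : ∀ g k, Commute (t g) (t k))
    (htd : ∀ g k, Commute (t g) (d k)) (hdd : ∀ g k, Commute (d g) (d k))
    (hty : ∀ g i, Commute (t g) (y i)) (hdy : ∀ g i, Commute (d g) (y i))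
    (hyy : ∀ i j, Commute (y i) (y j)) : Op t d y := by
  rintro (a | a | a) (b | b | b)
  exacts [htt a b, htd a b, hty a b, (htd b a).symm, hdd a b, hdy a b, (hty b a).symm,
    (hdy b a).symm, hyy a b]

/-- the module given by an action -/
def Md (f : Tg O →ₐ[O] Module.End O V) : Type := V

namespace Md
variable (f : Tg O →ₐ[O] Module.End O V)

instance : AddCommGroup (Md f) := inferInstanceAs (AddCommGroup V)
instance : Module (Tg O) (Md f) := Module.compHom V f.toRingHom

/-- the identity map -/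
def vl : Md f ≃+ V := AddEquiv.refl V

theorem vl_smul (p : Tg O) (v : Md f) : vl f (p • v) = f p (vl f v) := rfl

theorem vl_cc (c : O) (v : Md f) : vl f (cc c • v) = c • vl f v := by
  rw [vl_smul, show cc c = algebraMap O (Tg O) c from rfl, AlgHom.commutes]
  rfl

end Md

theorem vl_tt (h : Op t d y) (g : GQ) (v : Md (act h)) :
    Md.vl _ ((tt g : Tg O) • v) = t g (Md.vl _ v) := by
  rw [Md.vl_smul, tt, act_X]; rfl

theorem vl_dd (h : Op t d y) (g : GQ) (v : Md (act h)) :
    Md.vl _ ((dd g : Tg O) • v) = d g (Md.vl _ v) := by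
  rw [Md.vl_smul, dd, act_X]; rfl

theorem vl_yy (h : Op t d y) (i : ℕ) (v : Md (act h)) :
    Md.vl _ ((yy i : Tg O) • v) = y i (Md.vl _ v) := by
  rw [Md.vl_smul, yy, act_X]; rfl

section ind
variable {X X' : Type} [AddCommGroup X] [Module (Tg O) X] [AddCommGroup X'] [Module (Tg O) X']

/-- a subgroup which is stable under the symbols is stable -/
theorem smul_mem_of (K : AddSubgroup X) (hc : ∀ c : O, ∀ v ∈ K, cc c • v ∈ K)
    (ht : ∀ g, ∀ v ∈ K, (tt g : Tg O) • v ∈ K) (hd : ∀ g, ∀ v ∈ K, (dd g : Tg O) • v ∈ K)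
    (hy : ∀ i, ∀ v ∈ K, (yy i : Tg O) • v ∈ K) (p : Tg O) : ∀ v ∈ K, p • v ∈ K := by
  induction p using MvPolynomial.induction_on with
  | C c => exact hc c
  | add p q hp hq => exact fun v hv => by rw [add_smul]; exact K.add_mem (hp v hv) (hq v hv)
  | mul_X p s hp =>
    intro v hv
    rw [mul_smul]
    rcases s with g | g | i
    exacts [hp _ (ht g v hv), hp _ (hd g v hv), hp _ (hy i v hv)]

/-- the submodule of a stable subgroup -/
def subT (K : AddSubgroup X) (hc : ∀ c : O, ∀ v ∈ K, cc c • v ∈ K)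
    (ht : ∀ g, ∀ v ∈ K, (tt g : Tg O) • v ∈ K) (hd : ∀ g, ∀ v ∈ K, (dd g : Tg O) • v ∈ K)
    (hy : ∀ i, ∀ v ∈ K, (yy i : Tg O) • v ∈ K) : Submodule (Tg O) X where
  carrier := K
  zero_mem' := K.zero_mem
  add_mem' := K.add_mem
  smul_mem' p _ hv := smul_mem_of K hc ht hd hy p _ hv

/-- an additive map which is compatible with the symbols on a submodule is linear there -/
theorem map_smul_on (K : Submodule (Tg O) X) (β : X →+ X')
    (hc : ∀ c : O, ∀ v ∈ K, β (cc c • v) = cc c • β v)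
    (ht : ∀ g, ∀ v ∈ K, β ((tt g : Tg O) • v) = (tt g : Tg O) • β v)
    (hd : ∀ g, ∀ v ∈ K, β ((dd g : Tg O) • v) = (dd g : Tg O) • β v)
    (hy : ∀ i, ∀ v ∈ K, β ((yy i : Tg O) • v) = (yy i : Tg O) • β v) (p : Tg O) :
    ∀ v ∈ K, β (p • v) = p • β v := by
  induction p using MvPolynomial.induction_on with
  | C c => exact hc c
  | add p q hp hq => exact fun v hv => by rw [add_smul, map_add, hp v hv, hq v hv, add_smul]
  | mul_X p s hp =>
    intro v hv
    rw [mul_smul, mul_smul, hp _ (K.smul_mem _ hv)]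
    rcases s with g | g | i
    exacts [congrArg _ (ht g v hv), congrArg _ (hd g v hv), congrArg _ (hy i v hv)]

/-- the linear map of a compatible additive map -/
def linT (β : X →+ X') (hc : ∀ (c : O) v, β (cc c • v) = cc c • β v)
    (ht : ∀ g v, β ((tt g : Tg O) • v) = (tt g : Tg O) • β v)
    (hd : ∀ g v, β ((dd g : Tg O) • v) = (dd g : Tg O) • β v)
    (hy : ∀ i v, β ((yy i : Tg O) • v) = (yy i : Tg O) • β v) : X →ₗ[Tg O] X' where
  toFun := β
  map_add' := β.map_add
  map_smul' p v := map_smul_on ⊤ β (fun c v _ => hc c v) (fun g v _ => ht g v)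
    (fun g v _ => hd g v) (fun i v _ => hy i v) p v trivial

/-- the laws of a pseudo character on a module -/
structure Lw (X : Type) [AddCommGroup X] [Module (Tg O) X] : Prop where
  t1 : ∀ w : X, (tt 1 : Tg O) • w = (2 : Tg O) • w
  tc : ∀ g h (w : X), (tt (g * h) : Tg O) • w = (tt (h * g) : Tg O) • w
  tm : ∀ g h (w : X),
    (tt g * tt h : Tg O) • w = (tt (g * h) + dd h * tt (g * h⁻¹) : Tg O) • w
  d1 : ∀ w : X, (dd 1 : Tg O) • w = w
  dm : ∀ g h (w : X), (dd (g * h) : Tg O) • w = (dd g * dd h : Tg O) • w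
  opn : ∀ w : X, ∃ U : Subgroup GQ, IsOpen (U : Set GQ) ∧
    ∀ u ∈ U, (dd u : Tg O) • w = w ∧ ∀ g, (tt (g * u) : Tg O) • w = (tt g : Tg O) • w

theorem Lw.of_inj (h : Lw (O := O) X') (β : X →ₗ[Tg O] X') (hβ : Function.Injective β) :
    Lw (O := O) X where
  t1 w := hβ (by rw [map_smul, map_smul, h.t1])
  tc g k w := hβ (by rw [map_smul, map_smul, h.tc])
  tm g k w := hβ (by rw [map_smul, map_smul, h.tm])
  d1 w := hβ (by rw [map_smul, h.d1])
  dm g k w := hβ (by rw [map_smul, map_smul, h.dm])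
  opn w := by
    obtain ⟨U, hU, e⟩ := h.opn (β w)
    exact ⟨U, hU, fun u hu => ⟨hβ (by rw [map_smul, (e u hu).1]),
      fun g => hβ (by rw [map_smul, map_smul, (e u hu).2])⟩⟩

theorem mT_tt [IsLocalRing O] (r : GQ →* M2 O) (g : GQ) : tt g - cc (r g).trace ∈ mT r := by
  simp [mT, ev0, tt, cc]

theorem mT_dd [IsLocalRing O] (r : GQ →* M2 O) (g : GQ) : dd g - cc (r g).det ∈ mT r := by
  simp [mT, ev0, dd, cc]

theorem mT_yy [IsLocalRing O] (r : GQ →* M2 O) (i : ℕ) : yy i ∈ mT r := by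
  simp [mT, ev0, yy]

theorem mT_cc [IsLocalRing O] (r : GQ →* M2 O) {c : O} (hc : c ∈ maximalIdeal O) :
    cc c ∈ mT r := by
  simpa [mT, ev0, cc] using hc

theorem mT_max [IsLocalRing O] (r : GQ →* M2 O) : (mT r).IsMaximal :=
  Ideal.comap_isMaximal_of_surjective _ fun c => ⟨cc c, by simp [ev0, cc]⟩

/-- **primary vectors with finite orbits have good annihilators** -/
theorem Lw.gp0 [IsLocalRing O] (h : Lw (O := O) X) {r : GQ →* M2 O} {w : X}
    (hf : Finite (Submodule.span (Tg O) {w})) (hp : ∃ n : ℕ, ∀ a ∈ mT r ^ n, a • w = 0) :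
    Gp0 r (Ideal.torsionOf (Tg O) X w) := by
  obtain ⟨n, hn⟩ := hp
  have k : ∀ a ∈ mT r, ∃ k : ℕ, a ^ k ∈ Ideal.torsionOf (Tg O) X w := fun a ha =>
    ⟨n, (Ideal.mem_torsionOf_iff _ _).2 (hn _ (Ideal.pow_mem_pow ha n))⟩
  have e : ∀ {a b : Tg O}, a • w = b • w → a - b ∈ Ideal.torsionOf (Tg O) X w := fun e =>
    (Ideal.mem_torsionOf_iff _ _).2 (by rw [sub_smul, e, sub_self])
  refine ⟨Finite.of_equiv _ (Ideal.quotTorsionOfEquivSpanSingleton _ X w).symm.toEquiv,
    fun g => k _ (mT_tt r g), fun g => k _ (mT_dd r g), fun i => k _ (mT_yy r i), e (h.t1 w),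
    fun g g' => e (h.tc g g' w), fun g g' => e (h.tm g g' w), e (by rw [h.d1, one_smul]),
    fun g g' => e (h.dm g g' w), ?_⟩
  obtain ⟨U, hU, hu⟩ := h.opn w
  exact ⟨U, hU, fun u hu' g => e ((hu u hu').2 g)⟩

/-- from `Gp0` to `Gw` -/
theorem gw_of {ϖ : O} {L : Pl O} {T Q : Finset ℕ} {r : ℕ} {w : X}
    (h : Gp0 L.r (Ideal.torsionOf (Tg O) X w)) (h0 : ∃ k : ℕ, cc ϖ ^ k • w = 0)
    (hu : ∀ l : ℕ, l.Prime → l ∉ T → l ∉ Q → ∀ P : Ideal (𝓞 Qb), P.IsPrime → (l : 𝓞 Qb) ∈ P →
      ∀ s, Inert P s → ∀ g, (tt (g * s) : Tg O) • w = (tt g : Tg O) • w)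
    (ht : ∀ g ∈ L.TT, (tt g : Tg O) • w = cc (L.r g).trace • w)
    (hd : ∀ g ∈ L.DD, (dd g : Tg O) • w = cc (L.r g).det • w)
    (hy : ∀ i, r ≤ i → (yy i : Tg O) • w = 0) : Gw ϖ L T Q r (Ideal.torsionOf (Tg O) X w) := by
  have e : ∀ {a b : Tg O}, a • w = b • w → a - b ∈ Ideal.torsionOf (Tg O) X w := fun e =>
    (Ideal.mem_torsionOf_iff _ _).2 (by rw [sub_smul, e, sub_self])
  exact ⟨h.fin, h0, h.nilt, h.nild, h.nily, h.t1, h.tc, h.tm, h.d1, h.dm, h.opn,
    fun l a b c P hP hl s hs g => e (hu l a b c P hP hl s hs g), fun g hg => e (ht g hg),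
    fun g hg => e (hd g hg), hy⟩

theorem tors_inj (β : X →ₗ[Tg O] X') (hβ : Function.Injective β) (w : X) :
    Ideal.torsionOf (Tg O) X w = Ideal.torsionOf (Tg O) X' (β w) :=
  Ideal.ext fun a => by
    rw [Ideal.mem_torsionOf_iff, Ideal.mem_torsionOf_iff, ← map_smul, map_eq_zero_iff _ hβ]

theorem gm_inj {ϖ : O} {L : Pl O} {T Q : Finset ℕ} {r : ℕ} (β : X →ₗ[Tg O] X')
    (hβ : Function.Injective β) (h : ∀ w, Gw ϖ L T Q r (Ideal.torsionOf (Tg O) X' (β w))) :
    Gm ϖ L T Q r X := fun w => by rw [tors_inj β hβ]; exact h w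

theorem gm_sub {ϖ : O} {L : Pl O} {T Q : Finset ℕ} {r : ℕ} (K : Submodule (Tg O) X)
    (h : ∀ w ∈ K, Gw ϖ L T Q r (Ideal.torsionOf (Tg O) X w)) : Gm ϖ L T Q r K :=
  gm_inj K.subtype K.subtype_injective fun w => h w w.2

end ind

/-- the law on the module -/
theorem lw_md (h : Op t d y) (hl : G.Law t d) : Lw (O := O) (Md (act h)) where
  t1 w := (Md.vl _).injective (by rw [vl_tt, hl.one, Md.vl_smul, map_ofNat])
  tc g k w := (Md.vl _).injective (by rw [vl_tt, vl_tt, hl.comm])
  tm g k w := (Md.vl _).injective (by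
    rw [add_smul, mul_smul, mul_smul, map_add, vl_tt, vl_tt, vl_tt, vl_dd, vl_tt]
    exact LinearMap.congr_fun (hl.mul g k) _)
  d1 w := (Md.vl _).injective (by rw [vl_dd, hl.d1]; rfl)
  dm g k w := (Md.vl _).injective (by rw [mul_smul, vl_dd, vl_dd, vl_dd, hl.dm]; rfl)
  opn w := by
    obtain ⟨U, -, hU, e⟩ := hl.opn (Md.vl _ w)
    exact ⟨U, hU, fun u hu => ⟨(Md.vl _).injective (by rw [vl_dd, (e u hu).1]),
      fun g => (Md.vl _).injective (by rw [vl_tt, vl_tt, (e u hu).2])⟩⟩

/-- an operator which commutes with the generators commutes with the action -/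
theorem act_comm (h : Op t d y) {x : Module.End O V} (hx : ∀ a, Commute x (gen t d y a))
    (p : Tg O) : Commute x (act h p) := by
  induction p using MvPolynomial.induction_on with
  | C c => rw [show MvPolynomial.C c = algebraMap O (Tg O) c from rfl, AlgHom.commutes]
           exact (Algebra.commutes c x).symm
  | add p q hp hq => rw [map_add]; exact hp.add_right hq
  | mul_X p s hp => rw [map_mul, act_X]; exact hp.mul_right (hx s)

/-- a stable submodule is stable under the action -/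
theorem act_mem (h : Op t d y) (K : Submodule O V) (hK : ∀ a, ∀ v ∈ K, gen t d y a v ∈ K)
    (p : Tg O) : ∀ v ∈ K, act h p v ∈ K := by
  induction p using MvPolynomial.induction_on with
  | C c => exact fun v hv => by rw [show MvPolynomial.C c = cc c from rfl, act_cc]
                                exact K.smul_mem c hv
  | add p q hp hq => exact fun v hv => by rw [map_add]; exact K.add_mem (hp v hv) (hq v hv)
  | mul_X p s hp => exact fun v hv => by rw [map_mul, act_X]; exact hp _ (hK s v hv)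

/-- the submodule of a stable submodule -/
def subM (h : Op t d y) (K : Submodule O V) (hK : ∀ a, ∀ v ∈ K, gen t d y a v ∈ K) :
    Submodule (Tg O) (Md (act h)) where
  carrier := {v | Md.vl _ v ∈ K}
  zero_mem' := K.zero_mem
  add_mem' := K.add_mem
  smul_mem' p _ hv := act_mem h K hK p _ hv

theorem mem_subM {h : Op t d y} {K : Submodule O V} {hK : ∀ a, ∀ v ∈ K, gen t d y a v ∈ K}
    {v : Md (act h)} : v ∈ subM h K hK ↔ Md.vl _ v ∈ K := Iff.rfl

/-- finite orbits: a finite set of torsion vectors of finite type which is stable up to span -/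
theorem fin_orbit (h : Op t d y) (v : Md (act h)) (s : Finset V) (hv : Md.vl _ v ∈ s)
    (hs : ∀ a, ∀ w ∈ s, gen t d y a w ∈ Submodule.span O (s : Set V))
    (hf : ∀ w ∈ s, Finite (Submodule.span O {w})) : Finite (Submodule.span (Tg O) {v}) := by
  have hK : ∀ a, ∀ w ∈ Submodule.span O (s : Set V), gen t d y a w ∈ Submodule.span O (s : Set V) :=
    fun a w hw => (Submodule.span_le (p := (Submodule.span O (s : Set V)).comap (gen t d y a))).2
      (fun x hx => hs a x hx) hw
  have hfin : Finite (Submodule.span O (s : Set V)) := by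
    classical
    clear hK hs hv
    induction s using Finset.induction_on with
    | empty => rw [Finset.coe_empty, Submodule.span_empty]; infer_instance
    | insert a s ha ih =>
      have h1 := hf a (Finset.mem_insert_self _ _)
      have h2 := ih fun w hw => hf w (Finset.mem_insert_of_mem hw)
      rw [Finset.coe_insert, Submodule.span_insert]
      refine Finite.of_surjective (fun x : Submodule.span O {a} × Submodule.span O (s : Set V) =>
        (⟨x.1 + x.2, Submodule.add_mem_sup x.1.2 x.2.2⟩ :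
          ↥(Submodule.span O {a} ⊔ Submodule.span O (s : Set V)))) ?_
      rintro ⟨x, hx⟩
      obtain ⟨b, hb, c, hc, rfl⟩ := Submodule.mem_sup.1 hx
      exact ⟨(⟨b, hb⟩, ⟨c, hc⟩), rfl⟩
  have hle : Submodule.span (Tg O) {v} ≤ subM h _ hK :=
    (Submodule.span_singleton_le_iff_mem _ _).2 (mem_subM.2 (Submodule.subset_span hv))
  exact Finite.of_injective (fun x : Submodule.span (Tg O) {v} =>
    (⟨Md.vl _ x.1, hle x.2⟩ : Submodule.span O (s : Set V)))
    fun a b e => Subtype.ext ((Md.vl _).injective (Subtype.mk.inj e))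

end Vale.Agent.P022D.Fm
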