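import Vale.Agent.P022D.Fm.Rows
import Vale.Agent.P022D.G.Ops

/-!
# P022D, forms side: row NAT
-/

set_option linter.all false

namespace Vale.Agent.P022D.Fm.H89

open Vale.Agent.P022 Vale.Agent.P022D.V

theorem law_of {B V : Type} [CommRing B] [AddCommGroup V] [Module B V] {t : GQ → B}
    {d : GQ →* Bˣ} (tf : H346.TF t d) (opn : ∀ v : V, ∃ U : Subgroup GQ, U.Normal ∧
      IsOpen (U : Set GQ) ∧ ∀ u ∈ U, (d u : B) • v = v ∧ ∀ g, t (g * u) • v = t g • v) :
    G.Law (fun g => algebraMap B (Module.End B V) (t g))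
      fun g => algebraMap B (Module.End B V) (d g : B) where
  one := by rw [tf.one, map_ofNat]
  comm g k := by rw [tf.comm]
  mul g k := by rw [← map_mul, tf.mul, map_add, map_mul]
  d1 := by rw [map_one, Units.val_one, map_one]
  dm g k := by rw [map_mul, Units.val_mul, map_mul]
  opn := opn

/-- **row NAT** -/
theorem natC {O F : Type} [CommRing O] [Co O] [Field F] (U : Su O F) : NAT U :=
  fun M M' t d t' d' h h' K f S hf g v =>
    (law_of (V := K) h.tf fun v => by
      obtain ⟨V, n, o, -, e⟩ := h.opn v.1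
      exact ⟨V, n, o, fun u hu =>
        ⟨Subtype.ext (e u hu).1, fun g => Subtype.ext ((e u hu).2 g)⟩⟩).nat
    (law_of (V := U.GG M') h'.tf fun v => by
      obtain ⟨V, n, o, -, e⟩ := h'.opn v
      exact ⟨V, n, o, e⟩) f S hf g v

end Vale.Agent.P022D.Fm.H89
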