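import Vale.Agent.P022D.Fm.NmD
import Vale.Agent.P022D.Fm.Prj

/-!
# P022D, forms side: invariants are norms before the cut
-/

set_option linter.all false

open scoped MatrixGroups

noncomputable section

namespace Vale.Agent.P022D.Fm

open Classical Vale.Agent.P022 Vale.Agent.P022D.V Vale.Agent.P027M.M Vale.Agent.P022D.Fm.Ac

namespace H16

/-- a sum over a union of cosets -/
theorem coset_sum {G V τ : Type} [Group G] [AddCommMonoid V] (f : G → V) (s s0 : Finset G)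
    (T : Finset τ) (r : τ → G) (H0 : Subgroup G) (h0 : ∀ g, g ∈ s0 ↔ g ∈ H0)
    (h1 : ∀ g ∈ s, ∃ x ∈ T, ∃ k ∈ H0, g = r x * k) (h2 : ∀ x ∈ T, ∀ k ∈ H0, r x * k ∈ s)
    (h3 : ∀ x ∈ T, ∀ y ∈ T, ∀ k ∈ H0, r x * k = r y → x = y) :
    ∑ g ∈ s, f g = ∑ x ∈ T, ∑ k ∈ s0, f (r x * k) := by
  rw [← Finset.sum_product' (f := fun x k => f (r x * k))]
  refine (Finset.sum_bij (fun p _ => r p.1 * p.2) ?_ ?_ ?_ fun _ _ => rfl).symm
  · intro p hp
    obtain ⟨a, b⟩ := Finset.mem_product.1 hp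
    exact h2 _ a _ ((h0 _).1 b)
  · intro p hp p' hp' e
    obtain ⟨a, b⟩ := Finset.mem_product.1 hp
    obtain ⟨a', b'⟩ := Finset.mem_product.1 hp'
    have e1 := h3 _ a _ a' _ (H0.mul_mem ((h0 _).1 b) (H0.inv_mem ((h0 _).1 b')))
      (by rw [← mul_assoc, e, mul_inv_cancel_right])
    rw [e1] at e
    exact Prod.ext e1 (mul_left_cancel e)
  · intro g hg
    obtain ⟨x, hx, k, hk, rfl⟩ := h1 g hg
    exact ⟨(x, k), Finset.mem_product.2 ⟨hx, (h0 _).2 hk⟩, rfl⟩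

/-- a submonoid of a finite group -/
def subG {G : Type} [Group G] [Finite G] (S : Submonoid G) : Subgroup G :=
  { S with
    inv_mem' := fun {g} hg => by
      have e : g⁻¹ = g ^ (orderOf g - 1) := by
        refine inv_eq_of_mul_eq_one_right ?_
        rw [← pow_succ', Nat.sub_add_cancel (orderOf_pos g), pow_orderOf_eq_one]
      rw [e]
      exact S.pow_mem hg _ }

variable {O F : Type} [CommRing O] [Field F] [Co O] {U : Su O F} {M : ℕ}

/-- the powers in the torus -/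
def tq (U : Su O F) (M n : ℕ) : Submonoid (GM M) where
  carrier := U.TQ M n
  one_mem' := ⟨1, 1, cg_refl _, cg_refl _, by rw [one_pow, dg_one]⟩
  mul_mem' := by
    rintro _ _ ⟨a, d, h1, h2, rfl⟩ ⟨a', d', h3, h4, rfl⟩
    exact ⟨a * a', d * d', cg_mul1 h1 h3, cg_mul1 h2 h4, by rw [dg_mul, mul_pow, mul_pow]⟩

theorem tq_dg {n : ℕ} {x : GM M} (hx : x ∈ U.TQ M n) :
    ∃ a d : (ZMod M)ˣ, V.Cg M U.N a 1 ∧ V.Cg M U.N d 1 ∧ x = dg a d := by
  obtain ⟨a, d, h1, h2, rfl⟩ := hx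
  exact ⟨_, _, (U1 M U.N).pow_mem (mem_U1.2 h1) _, (U1 M U.N).pow_mem (mem_U1.2 h2) _, rfl⟩

theorem dg_comm (a d a' d' : (ZMod M)ˣ) : dg a d * dg a' d' = dg a' d' * dg a d := by
  rw [dg_mul, dg_mul, mul_comm a, mul_comm d]

theorem dg_inj {a d a' d' : (ZMod M)ˣ} (h : dg a d = dg a' d') : a = a' ∧ d = d' := by
  have e := congrArg (fun g : GM M => (g : Matrix (Fin 2) (Fin 2) (ZMod M))) h
  simp only [dg_coe] at e
  exact ⟨Units.ext (by simpa using congrFun (congrFun e 0) 0),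
    Units.ext (by simpa using congrFun (congrFun e 1) 1)⟩

/-- scalars at `C` times powers in the torus -/
def h0 (U : Su O F) (M n : ℕ) : Submonoid (GM M) where
  carrier := {g | ∃ c : (ZMod M)ˣ, V.Cg M (M / U.NC) c 1 ∧ ∃ x ∈ U.TQ M n, g = dg c c * x}
  one_mem' := ⟨1, cg_refl _, 1, (tq U M n).one_mem, by rw [dg_one, one_mul]⟩
  mul_mem' := by
    rintro _ _ ⟨c, hc, x, hx, rfl⟩ ⟨c', hc', x', hx', rfl⟩
    refine ⟨c * c', cg_mul1 hc hc', x * x', (tq U M n).mul_mem hx hx', ?_⟩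
    rw [mul_assoc, ← mul_assoc x, ← dg_center, ← dg_mul]
    simp only [mul_assoc]

section dd
variable {ι : Type} [Fintype ι] (a d : ι → (ZMod M)ˣ)

/-- the products of the generators -/
def DD (k : ι → ℕ) : GM M := dg (∏ s, a s ^ k s) (∏ s, d s ^ k s)

theorem DD_add (k m : ι → ℕ) : DD a d (k + m) = DD a d k * DD a d m := by
  simp only [DD, dg_mul, Pi.add_apply, pow_add, Finset.prod_mul_distrib]

theorem DD_zero : DD a d 0 = 1 := by simp [DD, dg_one]

variable {a d}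

theorem DD_tq {n : ℕ} {p : ι → ℕ} (h : ∀ s, dg (a s ^ p s) (d s ^ p s) ∈ U.TQ M n) (m : ι → ℕ) :
    DD a d (p * m) ∈ U.TQ M n := by
  have : ∀ t : Finset ι, dg (∏ s ∈ t, a s ^ (p * m) s) (∏ s ∈ t, d s ^ (p * m) s) ∈ tq U M n := by
    intro t
    induction t using Finset.induction_on with
    | empty => rw [Finset.prod_empty, Finset.prod_empty, dg_one]; exact (tq U M n).one_mem
    | insert s t hs ih =>
      rw [Finset.prod_insert hs, Finset.prod_insert hs, ← dg_mul, Pi.mul_apply, pow_mul, pow_mul,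
        ← dg_pow2]
      exact (tq U M n).mul_mem ((tq U M n).pow_mem (h s) _) ih
  exact this _

theorem DD_cg {N : ℕ} (h : ∀ s, V.Cg M N (a s) (d s)) (k : ι → ℕ) :
    V.Cg M N (∏ s, a s ^ k s : (ZMod M)ˣ) (∏ s, d s ^ k s : (ZMod M)ˣ) := by
  have : ∀ t : Finset ι,
      V.Cg M N (∏ s ∈ t, a s ^ k s : (ZMod M)ˣ) (∏ s ∈ t, d s ^ k s : (ZMod M)ˣ) := by
    intro t
    induction t using Finset.induction_on with
    | empty => exact cg_refl _
    | insert s t hs ih =>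
      rw [Finset.prod_insert hs, Finset.prod_insert hs, Units.val_mul, Units.val_mul,
        Units.val_pow_eq_pow_val, Units.val_pow_eq_pow_val]
      exact cg_mul2 (cg_pow (h s) _) ih
  exact this _

end dd

variable [hC : ∀ l : U.L.C, Fact l.1.Prime]

/-- the class in the projective groups -/
def cl (h : Lk U M) : GM M →* ∀ l, U.Gam l :=
  MonoidHom.pi fun l => (QuotientGroup.mk' _).comp (pr ((h.lC l).trans h.dC))

theorem cl_apply (h : Lk U M) (k : GM M) (l : U.L.C) (hl : l.1 ∣ M) :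
    cl h k l = QuotientGroup.mk (pr hl k) := rfl

/-- a lift of a class -/
def lf (h : Lk U M) (γ : ∀ l, U.Gam l) : GM M := h.emP fun l => (γ l).out

theorem lf_Kq (h : Lk U M) (γ : ∀ l, U.Gam l) : lf h γ ∈ Kq M (M / U.NC) := h.emP_Kq _

theorem cl_lf (h : Lk U M) (γ : ∀ l, U.Gam l) : cl h (lf h γ) = γ := funext fun l => by
  rw [cl_apply h _ l ((h.lC l).trans h.dC), lf, h.pr_emP, QuotientGroup.out_eq']

theorem cl_dg (h : Lk U M) {a d : (ZMod M)ˣ} (e : V.Cg M U.NC a d) : cl h (dg a d) = 1 := by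
  haveI := h.nz
  funext l
  have hl := (h.lC l).trans h.dC
  have e1 := (cg_cast hl).1 (cg_dvd (h.lC l) e)
  rw [cl_apply h _ l hl, Pi.one_apply, QuotientGroup.eq_one_iff]
  refine ⟨Units.map (ZMod.castHom hl (ZMod l.1)).toMonoidHom a, trivial, Units.ext ?_⟩
  ext i j
  rw [V.pr_coe, dg_coe]
  fin_cases i <;> fin_cases j
  exacts [rfl, (map_zero _).symm, (map_zero _).symm, e1]

theorem cl_ker (h : Lk U M) {k : GM M} (hk : k ∈ Kq M (M / U.NC)) (e : cl h k = 1) :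
    ∃ c : (ZMod M)ˣ, V.Cg M (M / U.NC) c 1 ∧ k = dg c c := by
  haveI := h.nz
  have key : ∀ l : U.L.C, V.Cg M l.1 ((k : Matrix (Fin 2) (Fin 2) (ZMod M)) 0 1) 0 ∧
      V.Cg M l.1 ((k : Matrix (Fin 2) (Fin 2) (ZMod M)) 1 0) 0 ∧
      V.Cg M l.1 ((k : Matrix (Fin 2) (Fin 2) (ZMod M)) 1 1)
        ((k : Matrix (Fin 2) (Fin 2) (ZMod M)) 0 0) := fun l => by
    have hl := (h.lC l).trans h.dC
    have e1 := congrFun e l
    rw [cl_apply h _ l hl, Pi.one_apply, QuotientGroup.eq_one_iff] at e1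
    obtain ⟨z, -, hz⟩ := e1
    simp only [cg_cast hl, ← V.pr_coe, ← hz, map_zero]
    exact ⟨rfl, rfl, rfl⟩
  have e01 := h.crt (by simpa [V.Cg] using hk 0 1) fun l => (key l).1
  have e10 := h.crt (by simpa [V.Cg] using hk 1 0) fun l => (key l).2.1
  have c0 : V.Cg M (M / U.NC) ((k : Matrix (Fin 2) (Fin 2) (ZMod M)) 0 0) 1 := hk 0 0
  have c1 : V.Cg M (M / U.NC) ((k : Matrix (Fin 2) (Fin 2) (ZMod M)) 1 1) 1 := hk 1 1
  have e11 := h.crt (cg_trans c1 (cg_symm c0)) fun l => (key l).2.2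
  have hu := (Matrix.GeneralLinearGroup.det k).isUnit
  rw [Matrix.GeneralLinearGroup.val_det_apply, Matrix.det_fin_two, e10, mul_zero, sub_zero] at hu
  obtain ⟨c, hc⟩ := isUnit_of_mul_isUnit_left hu
  refine ⟨c, hc ▸ c0, Units.ext ?_⟩
  rw [dg_coe]
  ext i j
  fin_cases i <;> fin_cases j <;> simp [hc, e01, e10, e11]

theorem kq_mul (h : Lk U M) {g k : GM M} (hg : g ∈ Kq M (M / U.NC)) (hk : k ∈ Kq M (M / U.NC)) :
    g * k ∈ Kq M (M / U.NC) := by
  rw [h.mem_K (Nat.div_dvd_of_dvd h.dC)] at hg hk ⊢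
  rw [map_mul, hg, hk, one_mul]

theorem kq_inv (h : Lk U M) {g : GM M} (hg : g ∈ Kq M (M / U.NC)) : g⁻¹ ∈ Kq M (M / U.NC) := by
  rw [h.mem_K (Nat.div_dvd_of_dvd h.dC)] at hg ⊢
  rw [map_inv, hg, inv_one]

/-- the big group -/
def hh (h : Lk U M) (n : ℕ) {ι : Type} [Fintype ι] {a d : ι → (ZMod M)ˣ}
    (h1 : ∀ s, V.Cg M U.N (a s) (d s)) (S : Subgroup (∀ l, U.Gam l)) : Submonoid (GM M) where
  carrier := {g | ∃ m : ι → ℕ, ∃ k ∈ Kq M (M / U.NC), cl h k ∈ S ∧ ∃ x ∈ U.TQ M n,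
    g = DD a d m * k * x}
  one_mem' := ⟨0, 1, (h.mem_K (Nat.div_dvd_of_dvd h.dC)).2 (map_one _),
    by rw [map_one]; exact S.one_mem, 1, (tq U M n).one_mem, by rw [DD_zero, one_mul, one_mul]⟩
  mul_mem' := by
    rintro _ _ ⟨m, k, hk, hS, x, hx, rfl⟩ ⟨m', k', hk', hS', x', hx', rfl⟩
    refine ⟨m + m', k * k', kq_mul h hk hk', by rw [map_mul]; exact S.mul_mem hS hS', x * x',
      (tq U M n).mul_mem hx hx', ?_⟩
    obtain ⟨A, D, c1, c2, rfl⟩ := tq_dg hx
    have e1 := Kq_NC h.dvd hk' A D (cg_trans c1 (cg_symm c2))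
    have e2 : k * DD a d m' = DD a d m' * k := Kq_NC h.dvd hk _ _ (DD_cg h1 m')
    have e3 : dg A D * DD a d m' = DD a d m' * dg A D := dg_comm _ _ _ _
    rw [DD_add]
    calc DD a d m * k * dg A D * (DD a d m' * k' * x')
        = DD a d m * (k * (dg A D * DD a d m') * k') * x' := by simp only [mul_assoc]
      _ = DD a d m * (k * DD a d m' * (dg A D * k')) * x' := by rw [e3]; simp only [mul_assoc]
      _ = _ := by rw [e2, ← e1]; simp only [mul_assoc]

theorem prod_act {n : ℕ} {ι : Type} [Fintype ι] {a d : ι → (ZMod M)ˣ} {u : ι → U.B M}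
    (h : ∀ s (w : U.Wb M n), (((u s • w : U.Wb M n) : U.GG M) : AM O M) =
      rD O (dg (a s) (d s)) (w : U.GG M)) (k : ι → ℕ) (w : U.Wb M n) :
    ((((∏ s, u s ^ k s) • w : U.Wb M n) : U.GG M) : AM O M) = rt O _ (DD a d k) (w : U.GG M) := by
  have p : ∀ (s : ι) (j : ℕ) (w : U.Wb M n), (((u s ^ j • w : U.Wb M n) : U.GG M) : AM O M) =
      rt O _ (dg (a s ^ j) (d s ^ j)) (w : U.GG M) := fun s j => by
    induction j with
    | zero => intro w; rw [pow_zero, one_smul, pow_zero, pow_zero, dg_one, V.rt_one]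
    | succ j ih =>
      intro w
      rw [pow_succ, mul_smul, ih, h, rD_apply, V.rt_rt, dg_mul, pow_succ, pow_succ]
  have : ∀ (t : Finset ι) (w : U.Wb M n),
      ((((∏ s ∈ t, u s ^ k s) • w : U.Wb M n) : U.GG M) : AM O M) =
      rt O _ (dg (∏ s ∈ t, a s ^ k s) (∏ s ∈ t, d s ^ k s)) (w : U.GG M) := fun t => by
    induction t using Finset.induction_on with
    | empty =>
      intro w
      rw [Finset.prod_empty, Finset.prod_empty, Finset.prod_empty, one_smul, dg_one, V.rt_one]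
    | insert s t hs ih =>
      intro w
      rw [Finset.prod_insert hs, Finset.prod_insert hs, Finset.prod_insert hs, mul_smul, p, ih,
        V.rt_rt, dg_mul]
  exact this _ w

end H16

open H16

/-- **HIGN** -/
theorem H16.hign {O F : Type} [CommRing O] [IsDomain O] [IsDiscreteValuationRing O] [Core.Coef O]
    [Co O] [Field F] [CharP F 2] {U : Su O F} [hC : ∀ l : U.L.C, Fact l.1.Prime] (hU : U.Ok)
    (hW : Nm.WHP U) : Nm.HIGN U := by
  intro M n L X hX ι _ p a d u hp hu h1 h2 h3 h4 S t ht w w1 w2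
  have h := lk_of hU L
  haveI := h.nz
  haveI := Pj.finq hU.uni
  obtain ⟨e, e1, e2, e3, e4, e5⟩ := hW M L
  obtain ⟨wz, w0⟩ := h.wb.1 w.2
  have act : ∀ k ∈ Kq M (M / U.NC), ∀ x : U.Wb M n,
      (((X.E.ρ (cl h k) x : U.Wb M n) : U.GG M) : AM O M) = rt O _ k (x : U.GG M) :=
    fun k hk x => hX.act k hk _ (fun l hl => cl_apply h k l hl) x
  have wD : ∀ m, rt O (RD O) (DD a d m) ((w : U.GG M) : AM O M) = (w : U.GG M) := fun m => by
    rw [← prod_act hu]
    congr 2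
    refine Finset.prod_induction _ (fun c : U.B M => c • w = w) (fun x y hx hy => ?_)
      (one_smul _ _) fun s _ => ?_
    · rw [mul_smul, hy, hx]
    · induction m s with
      | zero => rw [pow_zero, one_smul]
      | succ j ih => rw [pow_succ, mul_smul, w2, ih]
  let H := subG (hh h n h1 S)
  let H0 := subG (h0 U M n)
  obtain ⟨v, hv, v0, ev⟩ := Pj.nrm L.odd L.three hU.uni (Pj.hn2 hU.uni) hU.uni.ne H
    (H : Set (GM M)).toFinite.toFinset (fun _ => Set.Finite.mem_toFinset _) (fun _ => 1) rfl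
    (fun _ _ _ _ => (one_mul _).symm) (w : U.GG M).2 w0 (by
      rintro _ ⟨m, k, hk, hS, x, hx, rfl⟩
      rw [← V.rt_rt, ← V.rt_rt, (mem_Zp.1 wz).2.2 x hx, ← act k hk, w1 _ hS, wD, one_smul])
  have eH : ∀ g ∈ H, ∀ x, e (rt O (RD O) g x) = rt O (RD O) g (e x) := by
    rintro _ ⟨m, k, hk, hS, x, hx, rfl⟩ y
    obtain ⟨A, D, c1, c2, rfl⟩ := tq_dg hx
    have c := ((e5 _ _ (DD_cg h1 m)).mul_right (e4 k hk)).mul_right
      (e5 A D (cg_trans c1 (cg_symm c2)))
    rw [← rD_mul, ← rD_mul] at c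
    exact LinearMap.congr_fun c.eq y
  have sub : ∀ (m : ι → ℕ), ∀ γ ∈ S, ∀ k ∈ H0, DD a d m * lf h γ * k ∈ H := by
    rintro m γ hγ _ ⟨c, hc, x, hx, rfl⟩
    refine ⟨m, lf h γ * dg c c, kq_mul h (lf_Kq h γ) (dg_Kq hc hc), ?_, x, hx, ?_⟩
    · rw [map_mul, cl_lf, cl_dg h (cg_refl _), mul_one]
      exact hγ
    · simp only [mul_assoc]
  have le : ∀ k ∈ H0, k ∈ H := by
    rintro _ ⟨c, hc, x, hx, rfl⟩
    exact ⟨0, dg c c, dg_Kq hc hc, by rw [cl_dg h (cg_refl _)]; exact S.one_mem, x, hx,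
      by rw [DD_zero, one_mul]⟩
  let s0 := (H0 : Set (GM M)).toFinite.toFinset
  have m0 : ∀ g, g ∈ s0 ↔ g ∈ H0 := fun _ => Set.Finite.mem_toFinset _
  let y : AM O M := ∑ k ∈ s0, rt O (RD O) k (e v)
  have yG : y ∈ U.GG M := Submodule.sum_mem _ fun k _ => GG_rD L.odd L.three k _ (e3 v hv)
  have y0 : U.ϖ • y = 0 := by
    rw [Finset.smul_sum]
    exact Finset.sum_eq_zero fun k _ => by rw [← map_smul, ← map_smul, v0, map_zero, map_zero]
  have yi : ∀ g ∈ H0, rt O (RD O) g y = y := fun g hg => by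
    rw [map_sum]
    refine Finset.sum_bij (fun k _ => g * k) (fun k hk => (m0 _).2 (H0.mul_mem hg ((m0 _).1 hk)))
      (fun _ _ _ _ e => mul_left_cancel e) (fun k hk => ⟨g⁻¹ * k,
        (m0 _).2 (H0.mul_mem (H0.inv_mem hg) ((m0 _).1 hk)), mul_inv_cancel_left _ _⟩)
      fun k _ => V.rt_rt _ _ _
  have yW : y ∈ U.WhP M := Submodule.sum_mem _ fun k hk => by
    rw [← eH k (le k ((m0 _).1 hk))]
    exact e1 _
  have yZ : y ∈ U.Zp M n := by
    refine mem_Zp.2 ⟨fun c hc => ?_, mem_WhP.1 yW, fun x hx =>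
      yi x ⟨1, cg_refl _, x, hx, by rw [dg_one, one_mul]⟩⟩
    obtain ⟨z, hz⟩ := hU.omr _ ((ZMod.val_coe_unit_coprime c).coprime_dvd_right h.dvd)
    rw [yi _ ⟨c, hc, 1, (tq U M n).one_mem, (mul_one _).symm⟩, eq_add_of_sub_eq hz, add_smul,
      mul_comm, mul_smul, y0, smul_zero, zero_add, one_smul]
  refine ⟨⟨⟨y, yG⟩, h.wb.2 ⟨yZ, y0⟩⟩, Subtype.ext (Subtype.ext ?_)⟩
  have k1 : ((w : U.GG M) : AM O M) =
      ∑ g ∈ (H : Set (GM M)).toFinite.toFinset, rt O (RD O) g (e v) := by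
    rw [← e2 _ wz.1.2, ev, map_sum]
    exact Finset.sum_congr rfl fun g hg => by
      rw [one_smul, eH g ((Set.Finite.mem_toFinset _).1 hg)]
  rw [k1, coset_sum _ _ s0 ((Fintype.piFinset fun s => Finset.range (p s)) ×ˢ t)
    (fun x => DD a d x.1 * lf h x.2) H0 m0, Finset.sum_product, Finset.prod_univ_sum,
    Finset.sum_smul, AddSubmonoidClass.coe_finsetSum, AddSubmonoidClass.coe_finsetSum]
  · refine Finset.sum_congr rfl fun m _ => ?_
    rw [prod_act hu, AddSubmonoidClass.coe_finsetSum, AddSubmonoidClass.coe_finsetSum, map_sum]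
    refine Finset.sum_congr rfl fun γ _ => ?_
    have := act _ (lf_Kq h γ) ⟨⟨y, yG⟩, h.wb.2 ⟨yZ, y0⟩⟩
    rw [cl_lf] at this
    rw [this, V.rt_rt]
    simp only [y, map_sum, V.rt_rt]
  · intro g hg
    obtain ⟨m, k, hk, hS, x, hx, rfl⟩ := (Set.Finite.mem_toFinset _).1 hg
    obtain ⟨c, hc, ec⟩ := cl_ker h (kq_mul h (kq_inv h (lf_Kq h (cl h k))) hk)
      (by rw [map_mul, map_inv, cl_lf, inv_mul_cancel])
    have em : m = (fun s => m s % p s) + p * fun s => m s / p s :=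
      funext fun s => (Nat.mod_add_div _ _).symm
    refine ⟨(fun s => m s % p s, cl h k), Finset.mem_product.2 ⟨Fintype.mem_piFinset.2 fun s =>
      Finset.mem_range.2 (Nat.mod_lt _ (Nat.pos_of_ne_zero (hp s))), (ht _).2 hS⟩, _,
      ⟨c, hc, _, (tq U M n).mul_mem (DD_tq h3 fun s => m s / p s) hx, rfl⟩, ?_⟩
    have e6 : k * DD a d (p * fun s => m s / p s) = DD a d (p * fun s => m s / p s) * k :=
      Kq_NC h.dvd hk _ _ (DD_cg h1 _)
    rw [← ec]
    conv_lhs => rw [em, DD_add]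
    simp only [mul_assoc, mul_inv_cancel_left]
    rw [← mul_assoc k, e6, mul_assoc]
  · intro x hx k hk
    exact (Set.Finite.mem_toFinset _).2 (sub _ _ ((ht _).1 (Finset.mem_product.1 hx).2) k hk)
  · rintro ⟨m, γ⟩ hx ⟨m', γ'⟩ hy _ ⟨c, hc, x, hx', rfl⟩ eq
    obtain ⟨A, D, c1, c2, rfl⟩ := tq_dg hx'
    have dC : U.NC ∣ U.N := Dvd.intro_left _ rfl
    have cD : ∀ m, cl h (DD a d m) = 1 := fun m => cl_dg h (cg_dvd dC (DD_cg h1 m))
    have eg : γ = γ' := by
      have := congrArg (cl h) eq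
      simpa only [map_mul, cD, cl_lf, cl_dg h (cg_refl _), one_mul, mul_one,
        cl_dg h (cg_dvd dC (cg_trans c1 (cg_symm c2)))] using this
    subst eg
    have e7 : DD a d m * (dg c c * dg A D) = DD a d m' := by
      have c3 := Kq_NC h.dvd (lf_Kq h γ) A D (cg_trans c1 (cg_symm c2))
      dsimp only at eq
      rw [mul_assoc, ← mul_assoc (lf h γ), ← dg_center, mul_assoc, c3, ← mul_assoc (dg c c),
        ← mul_assoc] at eq
      exact mul_right_cancel eq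
    have aC : ∀ m : ι → ℕ, (∏ s, a s ^ m s) ∈ U1 M U.NC := fun m =>
      Subgroup.prod_mem _ fun s _ => Subgroup.pow_mem _ (mem_U1.2 (h2 s)) _
    have ec : c = 1 := by
      have e8 := e7
      rw [DD, DD, dg_mul, dg_mul] at e8
      have e9 : c = (∏ s, a s ^ m s)⁻¹ * (∏ s, a s ^ m' s) * A⁻¹ := by
        rw [← (dg_inj e8).1, inv_mul_cancel_left, mul_inv_cancel_right]
      have e10 : c ∈ U1 M U.NC := e9 ▸ Subgroup.mul_mem _ (Subgroup.mul_mem _
        (Subgroup.inv_mem _ (aC m)) (aC m')) (Subgroup.inv_mem _ (mem_U1.2 (cg_dvd dC c1)))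
      exact Units.ext (h.crt hc fun l => cg_dvd (h.lC l) e10)
    rw [ec, dg_one, one_mul] at e7
    have hm := Fintype.mem_piFinset.1 (Finset.mem_product.1 hx).1
    have hm' := Fintype.mem_piFinset.1 (Finset.mem_product.1 hy).1
    have e8 : DD a d (m' + (p - 1) * m) ∈ U.TQ M n := by
      have e9 : m + (p - 1) * m = p * m := funext fun s => by
        obtain ⟨j, hj⟩ := Nat.exists_eq_succ_of_ne_zero (hp s)
        simp only [Pi.add_apply, Pi.mul_apply, Pi.sub_apply, Pi.one_apply, hj]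
        rw [Nat.succ_sub_one, Nat.succ_mul, add_comm]
      have e10 : DD a d m * dg A D = dg A D * DD a d m := dg_comm _ _ _ _
      rw [DD_add, ← e7, e10, mul_assoc, ← DD_add, e9]
      exact (tq U M n).mul_mem hx' (DD_tq h3 m)
    refine Prod.ext (funext fun s => ?_) rfl
    have e9 := h4 _ e8 s
    have b1 := Finset.mem_range.1 (hm s)
    have b2 := Finset.mem_range.1 (hm' s)
    obtain ⟨j, hj⟩ := Nat.exists_eq_succ_of_ne_zero (hp s)
    simp only [Pi.add_apply, Pi.mul_apply, Pi.sub_apply, Pi.one_apply] at e9 b1 b2 ⊢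
    have e10 : m' s + (p s - 1) * m s + m s = m' s + p s * m s := by
      rw [hj, Nat.succ_sub_one, Nat.succ_mul, add_assoc]
    have e11 : m s ≡ m' s [MOD p s] := by
      have := ((Nat.modEq_zero_iff_dvd.2 e9).add_right (m s)).symm
      rw [zero_add, e10] at this
      exact this.trans (by simp [Nat.ModEq])
    exact e11.eq_of_lt_of_lt b1 b2

end Vale.Agent.P022D.Fm
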