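import Vale.Agent.P022D.Fm.NmD
import Vale.Agent.P022D.Fm.Prj

/-!
# P022D, forms side: invariants are norms
-/

set_option linter.all false

noncomputable section

namespace Vale.Agent.P022D.Fm.H35

open Classical Vale.Agent.P022 Vale.Agent.P022D.V Vale.Agent.P027M.M

section grp

variable {G A Γ ι : Type} [Group G] [Fintype G] [CommGroup A] [Group Γ] [Fintype ι]

theorem cosets {V κ : Type} [AddCommMonoid V] (f : G → V) {H K : Subgroup G} (hK : K ≤ H)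
    (s : Finset κ) (c : κ → G) (h1 : ∀ a ∈ s, c a ∈ H) (h2 : ∀ h ∈ H, ∃ a ∈ s, ∃ k ∈ K, h = c a * k)
    (h3 : ∀ a ∈ s, ∀ a' ∈ s, ∀ k ∈ K, c a' = c a * k → a' = a) :
    ∑ h ∈ Finset.univ.filter (· ∈ H), f h =
      ∑ a ∈ s, ∑ k ∈ Finset.univ.filter (· ∈ K), f (c a * k) := by
  rw [← Finset.sum_product']
  refine (Finset.sum_bij (fun x _ => c x.1 * x.2) (fun x hx => ?_) (fun x hx y hy e => ?_)
    (fun h hh => ?_) fun _ _ => rfl).symm
  · simp only [Finset.mem_product, Finset.mem_filter, Finset.mem_univ, true_and] at hx ⊢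
    exact H.mul_mem (h1 _ hx.1) (hK hx.2)
  · simp only [Finset.mem_product, Finset.mem_filter, Finset.mem_univ, true_and] at hx hy
    have e1 : x.1 = y.1 := h3 _ hy.1 _ hx.1 (y.2 * x.2⁻¹) (K.mul_mem hy.2 (K.inv_mem hx.2))
      (by rw [← mul_assoc, ← e, mul_inv_cancel_right])
    refine Prod.ext e1 ?_
    rw [e1] at e
    exact mul_left_cancel e
  · obtain ⟨a, ha, k, hk, rfl⟩ := h2 h (Finset.mem_filter.1 hh).2
    exact ⟨(a, k), by simp [ha, hk], rfl⟩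

/-- the product of two commuting groups -/
def Pr (φ : A →* G) (T : Subgroup A) (Z : Subgroup G)
    (hc : ∀ y ∈ T, ∀ g ∈ Z, g * φ y = φ y * g) : Subgroup G where
  carrier := {h | ∃ y ∈ T, ∃ g ∈ Z, h = φ y * g}
  one_mem' := ⟨1, T.one_mem, 1, Z.one_mem, by simp⟩
  mul_mem' := by
    rintro _ _ ⟨y, a, g, b, rfl⟩ ⟨y', a', g', b', rfl⟩
    exact ⟨y * y', T.mul_mem a a', g * g', Z.mul_mem b b', by
      rw [map_mul, mul_assoc, ← mul_assoc g, hc y' a' g b, mul_assoc, mul_assoc]⟩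
  inv_mem' := by
    rintro _ ⟨y, a, g, b, rfl⟩
    exact ⟨y⁻¹, T.inv_mem a, g⁻¹, Z.inv_mem b, by
      rw [mul_inv_rev, ← map_inv, hc _ (T.inv_mem a) _ (Z.inv_mem b)]⟩

variable {T : Subgroup A} {x : ι → A} {p : ι → ℕ}

theorem pw_mem (h : ∀ s, x s ^ p s ∈ T) (m : ι → ℕ) : ∏ s, x s ^ (p s * m s) ∈ T :=
  T.prod_mem fun s _ => by rw [pow_mul]; exact T.pow_mem (h s) _

theorem pw_add (k k' : ι → ℕ) : ∏ s, x s ^ (k s + k' s) = (∏ s, x s ^ k s) * ∏ s, x s ^ k' s := by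
  simp only [pow_add, Finset.prod_mul_distrib]

/-- the group generated by `T` and the `x s` -/
def T1 (hp : ∀ s, p s ≠ 0) (h : ∀ s, x s ^ p s ∈ T) : Subgroup A where
  carrier := {y | ∃ k : ι → ℕ, ∃ t ∈ T, y = (∏ s, x s ^ k s) * t}
  one_mem' := ⟨0, 1, T.one_mem, by simp⟩
  mul_mem' := by
    rintro _ _ ⟨k, t, a, rfl⟩ ⟨k', t', a', rfl⟩
    exact ⟨fun s => k s + k' s, t * t', T.mul_mem a a', by rw [pw_add, mul_mul_mul_comm]⟩
  inv_mem' := by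
    rintro _ ⟨k, t, a, rfl⟩
    refine ⟨fun s => (p s - 1) * k s, (∏ s, x s ^ (p s * k s))⁻¹ * t⁻¹,
      T.mul_mem (T.inv_mem (pw_mem h k)) (T.inv_mem a), ?_⟩
    have e : ∏ s, x s ^ (p s * k s) = (∏ s, x s ^ ((p s - 1) * k s)) * ∏ s, x s ^ k s := by
      rw [← pw_add]
      exact Finset.prod_congr rfl fun s _ => by
        rw [← Nat.succ_mul, Nat.succ_eq_add_one, Nat.sub_add_cancel (Nat.pos_of_ne_zero (hp s))]
    rw [e, mul_inv, mul_inv, ← mul_assoc, mul_inv_cancel_left]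

theorem dec (φ : A →* G) (Z : Subgroup G) (π : G →* Γ) {Tb : Subgroup A} (h0 : T ≤ Tb)
    (hx : ∀ s, x s ∈ Tb) (hc : ∀ y ∈ Tb, ∀ g ∈ Z, g * φ y = φ y * g)
    (hi : ∀ y ∈ Tb, φ y ∈ Z → y = 1) (hp : ∀ s, p s ≠ 0) (h : ∀ s, x s ^ p s ∈ T)
    (hd : ∀ k : ι → ℕ, ∏ s, x s ^ k s ∈ T → ∀ s, p s ∣ k s) (c : Γ → G) (c1 : ∀ γ, c γ ∈ Z)
    (c2 : ∀ γ, π (c γ) = γ) (S : Subgroup Γ) (t : Finset Γ) (ht : ∀ γ, γ ∈ t ↔ γ ∈ S) :
    ∃ H K : Subgroup G, (∀ u ∈ H, ∃ k : ι → ℕ, ∃ y ∈ T, ∃ g ∈ Z, π g ∈ S ∧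
        u = φ (∏ s, x s ^ k s) * (φ y * g)) ∧
      (∀ u, u ∈ K ↔ ∃ y ∈ T, ∃ g ∈ Z, π g = 1 ∧ u = φ y * g) ∧
      (∀ u ∈ H, ∃ y ∈ Tb, ∃ g ∈ Z, u = φ y * g) ∧ K ≤ H ∧
      ∀ (V : Type) [AddCommMonoid V] (f : G → V), ∑ u ∈ Finset.univ.filter (· ∈ H), f u =
        ∑ k ∈ Fintype.piFinset fun s => Finset.range (p s), ∑ γ ∈ t,
          ∑ u ∈ Finset.univ.filter (· ∈ K), f (φ (∏ s, x s ^ k s) * (c γ * u)) := by
  have e1 : ∀ k : ι → ℕ, ∏ s, x s ^ k s ∈ Tb := fun k => Tb.prod_mem fun s _ => Tb.pow_mem (hx s) _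
  have l1 : T1 hp h ≤ Tb := by
    rintro _ ⟨k, y, a, rfl⟩
    exact Tb.mul_mem (e1 k) (h0 a)
  have le : Pr φ T (Z ⊓ π.ker) (fun y a g b => hc y (h0 a) g b.1) ≤
      Pr φ (T1 hp h) (Z ⊓ S.comap π) fun y a g b => hc y (l1 a) g b.1 := by
    rintro _ ⟨y, a, g, b, rfl⟩
    exact ⟨y, ⟨0, y, a, by simp⟩, g, ⟨b.1, Subgroup.mem_comap.2 (by
      rw [show π g = 1 from b.2]; exact S.one_mem)⟩, rfl⟩
  refine ⟨_, _, ?_, fun u => ⟨?_, ?_⟩, ?_, le, fun V _ f => ?_⟩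
  · rintro _ ⟨_, ⟨k, y, a, rfl⟩, g, b, rfl⟩
    exact ⟨k, y, a, g, b.1, b.2, by rw [map_mul, mul_assoc]⟩
  · rintro ⟨y, a, g, b, rfl⟩
    exact ⟨y, a, g, b.1, b.2, rfl⟩
  · rintro ⟨y, a, g, b, b', rfl⟩
    exact ⟨y, a, g, ⟨b, b'⟩, rfl⟩
  · rintro _ ⟨y, a, g, b, rfl⟩
    exact ⟨y, l1 a, g, b.1, rfl⟩
  rw [cosets f le ((Fintype.piFinset fun s => Finset.range (p s)) ×ˢ t)
    (fun a => φ (∏ s, x s ^ a.1 s) * c a.2), Finset.sum_product]
  · simp only [mul_assoc]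
  · rintro ⟨k, γ⟩ a
    exact ⟨_, ⟨k, 1, T.one_mem, (mul_one _).symm⟩, c γ, ⟨c1 γ, Subgroup.mem_comap.2 (by
      rw [c2]; exact (ht γ).1 (Finset.mem_product.1 a).2)⟩, rfl⟩
  · rintro _ ⟨_, ⟨k, y, a, rfl⟩, g, b, rfl⟩
    have m := T.mul_mem (pw_mem h fun s => k s / p s) a
    refine ⟨(fun s => k s % p s, π g), Finset.mem_product.2 ⟨Fintype.mem_piFinset.2 fun s =>
      Finset.mem_range.2 (Nat.mod_lt _ (Nat.pos_of_ne_zero (hp s))), (ht _).2 b.2⟩, _,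
      ⟨_, m, (c (π g))⁻¹ * g, ⟨Z.mul_mem (Z.inv_mem (c1 _)) b.1, MonoidHom.mem_ker.2 (by
        rw [map_mul, map_inv, c2, inv_mul_cancel])⟩, rfl⟩, ?_⟩
    rw [mul_assoc, ← mul_assoc (c _), hc _ (h0 m) _ (c1 _), mul_assoc, mul_inv_cancel_left,
      ← mul_assoc, ← map_mul, ← mul_assoc, ← pw_add]
    simp only [Nat.mod_add_div]
  · rintro ⟨k, γ⟩ a ⟨k', γ'⟩ a' _ ⟨y, b, g, b', rfl⟩ e
    have m := Tb.mul_mem (e1 k) (h0 b)
    have e2 : φ (((∏ s, x s ^ k s) * y)⁻¹ * ∏ s, x s ^ k' s) = c γ * g * (c γ')⁻¹ := by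
      rw [mul_assoc, ← mul_assoc (c _), hc _ (h0 b) _ (c1 _), mul_assoc, ← mul_assoc,
        ← map_mul] at e
      rw [map_mul, map_inv, inv_mul_eq_iff_eq_mul, ← mul_assoc, ← e, mul_inv_cancel_right]
    have e3 := hi _ (Tb.mul_mem (Tb.inv_mem m) (e1 k'))
      (e2 ▸ Z.mul_mem (Z.mul_mem (c1 _) b'.1) (Z.inv_mem (c1 _)))
    rw [e3, map_one] at e2
    have e4 := congrArg π e2
    rw [map_one, map_mul, map_mul, map_inv, c2, c2, show π g = 1 from b'.2, mul_one, eq_comm,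
      mul_inv_eq_one] at e4
    refine Prod.ext (funext fun s => ?_) e4.symm
    have e5 : ∏ s, x s ^ (k' s + (p s - 1) * k s) = (∏ s, x s ^ (p s * k s)) * y := by
      rw [pw_add, ← inv_mul_eq_one.1 e3, mul_right_comm, ← pw_add]
      exact congrArg (· * y) (Finset.prod_congr rfl fun s _ => by
        rw [add_comm, ← Nat.succ_mul, Nat.succ_eq_add_one,
          Nat.sub_add_cancel (Nat.pos_of_ne_zero (hp s))])
    have e6 := hd _ (e5 ▸ T.mul_mem (pw_mem h k) b) s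
    have i1 := Finset.mem_range.1 (Fintype.mem_piFinset.1 (Finset.mem_product.1 a).1 s)
    have i2 := Finset.mem_range.1 (Fintype.mem_piFinset.1 (Finset.mem_product.1 a').1 s)
    have e7 : k' s ≡ k s [MOD p s] := by
      refine Nat.ModEq.add_right_cancel' ((p s - 1) * k s) (((Nat.modEq_zero_iff_dvd).2 e6).trans
        ((Nat.modEq_zero_iff_dvd).2 ⟨k s, ?_⟩).symm)
      rw [add_comm, ← Nat.succ_mul, Nat.succ_eq_add_one,
        Nat.sub_add_cancel (Nat.pos_of_ne_zero (hp s))]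
    exact Nat.ModEq.eq_of_lt_of_lt e7 i2 i1

end grp

/-- the diagonal matrices -/
def dH (M : ℕ) : (ZMod M)ˣ × (ZMod M)ˣ →* GM M where
  toFun y := dg y.1 y.2
  map_one' := dg_one
  map_mul' _ _ := (dg_mul _ _ _ _).symm

theorem dH_inj {M : ℕ} : Function.Injective (dH M) := fun y y' e => by
  have h := congrArg (fun g : GM M => (g : Matrix (Fin 2) (Fin 2) (ZMod M))) e
  exact Prod.ext (Units.ext (congrFun (congrFun h 0) 0)) (Units.ext (congrFun (congrFun h 1) 1))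

/-- scalar modulo `N`, one modulo `K` -/
def Tb (M N K : ℕ) : Subgroup ((ZMod M)ˣ × (ZMod M)ˣ) where
  carrier := {y | V.Cg M N y.1 y.2 ∧ V.Cg M K y.1 1}
  one_mem' := ⟨cg_refl _, cg_refl _⟩
  mul_mem' := fun a b => ⟨cg_mul2 a.1 b.1, Pj.cg1 a.2 b.2⟩
  inv_mem' := fun a => ⟨cg_inv a.1, cg_inv1 a.2⟩

theorem smul_prod {B W A ι : Type} [CommRing B] [AddCommGroup W] [Module B W] [CommMonoid A]
    [Fintype ι] {X : Type} (j : W → X) (f : A → X → X) (f1 : ∀ v, f 1 v = v)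
    (fm : ∀ a b v, f (a * b) v = f a (f b v)) (u : ι → B) (x : ι → A)
    (h : ∀ s w, j (u s • w) = f (x s) (j w)) (k : ι → ℕ) (w : W) :
    j ((∏ s, u s ^ k s) • w) = f (∏ s, x s ^ k s) (j w) := by
  revert w
  refine Finset.prod_hom_rel (r := fun (b : B) (a : A) => ∀ w, j (b • w) = f a (j w))
    (fun w => by rw [one_smul, f1]) fun s b a ih w => ?_
  rw [mul_smul, fm, ← ih]
  generalize b • w = v
  induction k s with
  | zero => rw [pow_zero, pow_zero, one_smul, f1]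
  | succ m ih => rw [pow_succ', pow_succ', mul_smul, fm, h, ih]

theorem fin_sum {B W ι : Type} [CommRing B] [AddCommGroup W] [Module B W] [Fintype ι] (u : ι → B)
    (p : ι → ℕ) (w : W) : (∏ s, ∑ j ∈ Finset.range (p s), u s ^ j) • w =
      ∑ k ∈ Fintype.piFinset fun s => Finset.range (p s), (∏ s, u s ^ k s) • w := by
  rw [Finset.prod_univ_sum, Finset.sum_smul]

theorem fix_prod {B W ι : Type} [CommRing B] [AddCommGroup W] [Module B W] [Fintype ι] {u : ι → B}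
    {w : W} (h : ∀ s, u s • w = w) (k : ι → ℕ) : (∏ s, u s ^ k s) • w = w := by
  refine Finset.prod_induction _ (fun x : B => x • w = w)
    (fun a b ha hb => by rw [mul_smul, hb, ha]) (one_smul _ _) fun s _ => ?_
  induction k s with
  | zero => rw [pow_zero, one_smul]
  | succ m ih => rw [pow_succ, mul_smul, h, ih]

variable {O F : Type} [CommRing O] [IsDomain O] [IsDiscreteValuationRing O] [Core.Coef O] [Co O]
  [Field F] [CharP F 2] {U : Su O F} [hC : ∀ l : U.L.C, Fact l.1.Prime]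

theorem hign (hU : U.Ok) (hW : Nm.WHP U) : Nm.HIGN U := by
  intro M n L X hX ι _ p a d u hp hu h1 h2 h3 h4 S t ht w hw hf
  have k := Ac.lk_of hU L
  haveI := k.nz
  haveI := Pj.finq hU.uni
  have hA := Nat.div_dvd_of_dvd k.dC
  obtain ⟨e, a1, a2, a3, a4, a5⟩ := hW M L
  let T : Subgroup ((ZMod M)ˣ × (ZMod M)ˣ) :=
    ((U1 M U.N).prod (U1 M U.N)).map (powMonoidHom (2 ^ n))
  have hT : ∀ y, y ∈ T ↔ dH M y ∈ U.TQ M n := fun y =>
    ⟨fun ⟨z, b, c⟩ => ⟨z.1, z.2, b.1, b.2, c ▸ rfl⟩,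
      fun ⟨z, z', b, b', c⟩ => ⟨(z, z'), ⟨b, b'⟩, dH_inj c.symm⟩⟩
  let π : GM M →* ∀ l, U.Gam l := Pi.monoidHom fun l =>
    (QuotientGroup.mk' _).comp (pr ((k.lC l).trans k.dC))
  have hZ : ∀ g, g ∈ (pr hA).ker ↔ g ∈ Kq M (M / U.NC) := fun g => (k.mem_K hA).symm
  have act : ∀ g ∈ (pr hA).ker, ∀ v : U.Wb M n,
      (((X.E.ρ (π g) v : U.Wb M n) : U.GG M) : AM O M) = rD O g (v : U.GG M) :=
    fun g hg => hX.act g ((hZ g).1 hg) _ fun _ _ => rfl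
  have c2 : ∀ γ, π (k.emP fun l => (γ l).out) = γ := fun γ => funext fun l =>
    (congrArg QuotientGroup.mk (k.pr_emP _ l _)).trans (QuotientGroup.out_eq' _)
  have c1 : ∀ γ : ∀ l, U.Gam l, (k.emP fun l => (γ l).out) ∈ (pr hA).ker := fun γ =>
    (hZ _).2 (k.emP_Kq _)
  have NCN : U.NC ∣ U.N := Dvd.intro_left _ rfl
  obtain ⟨H, K, b1, b2, b3, b4, b5⟩ := dec (T := T) (x := fun s => (a s, d s)) (p := p) (dH M)
    (pr hA).ker π (Tb := Tb M U.N U.NC)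
    (by
      rintro _ ⟨z, b, rfl⟩
      exact ⟨cg_trans (Pj.cgp b.1 _) (cg_symm (Pj.cgp b.2 _)), Ac.cg_dvd NCN (Pj.cgp b.1 _)⟩)
    (fun s => ⟨h1 s, h2 s⟩) (fun y b g c => Kq_NC L.dvd ((hZ g).1 c) _ _ b.1)
    (fun y b c => by
      have c' := (hZ _).1 c
      exact Prod.ext (Units.ext (k.crt (c' 0 0) fun l => Ac.cg_dvd (k.lC l) b.2))
        (Units.ext (k.crt (c' 1 1) fun l => Ac.cg_dvd (k.lC l)
          (cg_trans (cg_symm (Ac.cg_dvd NCN b.1)) b.2))))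
    hp (fun s => (hT _).2 (h3 s))
    (fun m b => h4 m (by
      have := (hT _).1 b
      rwa [show dH M (∏ s, (a s, d s) ^ m s) = dg (∏ s, a s ^ m s) (∏ s, d s ^ m s) from
        congrArg₂ dg (Prod.fst_prod ..) (Prod.snd_prod ..)] at this)) _ c1 c2 S t ht
  have sp := smul_prod (fun v : U.Wb M n => ((v : U.GG M) : AM O M)) (fun y => rD O (dH M y))
    (fun v => by rw [map_one, rD_one]; rfl) (fun y y' v => by rw [map_mul, rD_mul]; rfl) u
    (fun s => (a s, d s)) hu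
  have wz := k.wb.1 w.2
  obtain ⟨v, v1, v2, v3⟩ := Pj.nrm L.odd L.three hU.uni (Pj.hn2 hU.uni) hU.uni.ne H
    (Finset.univ.filter (· ∈ H)) (by simp) (fun _ => 1) rfl (fun _ _ _ _ => (one_mul _).symm)
    (w : U.GG M).2 wz.2 (fun h hh => by
      obtain ⟨m, y, c, g, c', c'', rfl⟩ := b1 h hh
      rw [one_smul, ← rD_apply, rD_mul, rD_mul, Module.End.mul_apply, Module.End.mul_apply,
        ← act g c', hw _ c'', show rD O (dH M y) _ = _ from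
          (Ac.mem_Zp.1 wz.1).2.2 _ ((hT y).1 c)]
      exact (sp m w).symm.trans (by rw [fix_prod hf]))
  have ce : ∀ h ∈ H, ∀ z, e (rD O h z) = rD O h (e z) := fun h hh z => by
    obtain ⟨y, c, g, c', rfl⟩ := b3 h hh
    rw [rD_mul]
    exact LinearMap.congr_fun ((a5 _ _ c.1).mul_right (a4 g ((hZ g).1 c'))).eq z
  obtain ⟨v', hv'⟩ : ∃ v', v' = ∑ h ∈ Finset.univ.filter (· ∈ K), rD O h (e v) := ⟨_, rfl⟩
  have f1 : ∀ h ∈ K, rD O h v' = v' := fun h hh => by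
    rw [hv', map_sum]
    refine Finset.sum_equiv (Equiv.mulLeft h) (fun g => ?_) fun g _ => ?_
    · simp [K.mul_mem_cancel_left hh]
    · rw [Equiv.coe_mulLeft, rD_mul, Module.End.mul_apply]
  have f2 : v' ∈ U.GG M := hv' ▸ Submodule.sum_mem _ fun h _ => GG_rD L.odd L.three h _ (a3 v v1)
  have f3 : U.ϖ • v' = 0 := by
    rw [hv', Finset.smul_sum]
    exact Finset.sum_eq_zero fun h _ => by rw [← map_smul, ← map_smul, v2, map_zero, map_zero]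
  have f4 : v' ∈ U.WhP M := hv' ▸ Submodule.sum_mem _ fun h hh =>
    ce h (b4 (Finset.mem_filter.1 hh).2) v ▸ a1 _
  have f5 : (⟨v', f2⟩ : U.GG M) ∈ U.Wb M n := k.wb.2 ⟨⟨⟨mem_Ce.2 fun c hc => by
      obtain ⟨z, hz⟩ := hU.omr _ ((ZMod.val_coe_unit_coprime c).coprime_dvd_right L.dvd)
      change rD O _ v' = _ • v'
      rw [eq_add_of_sub_eq hz, add_smul, mul_comm, mul_smul, f3, smul_zero, zero_add, one_smul]
      refine f1 _ ((b2 _).2 ⟨1, T.one_mem, _, (hZ _).2 (Ac.dg_Kq hc hc), funext fun l => ?_,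
        by rw [map_one, one_mul]⟩)
      refine (QuotientGroup.eq_one_iff _).2 ⟨Units.map (ZMod.castHom ((k.lC l).trans k.dC)
        (ZMod l.1)).toMonoidHom c, trivial, Units.ext ?_⟩
      ext i j
      fin_cases i <;> fin_cases j <;> simp [Rep.scal, Rep.tG_coe, pr, dg_coe], f4⟩,
    V.mem_Iv.2 fun g hg => by
      obtain ⟨z, z', c, c', rfl⟩ := id hg
      exact f1 _ ((b2 _).2 ⟨(z ^ 2 ^ n, z' ^ 2 ^ n), (hT _).2 hg, 1, one_mem _, map_one _,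
        (mul_one _).symm⟩)⟩, f3⟩
  refine ⟨⟨_, f5⟩, Subtype.ext (Subtype.ext ?_)⟩
  have e1 : ((w : U.GG M) : AM O M) = ∑ h ∈ Finset.univ.filter (· ∈ H), rD O h (e v) := by
    rw [← a2 _ wz.1.1.2, v3, map_sum]
    exact Finset.sum_congr rfl fun h hh => by
      rw [one_smul, ← ce h (Finset.mem_filter.1 hh).2]; rfl
  refine Eq.trans ?_ (congrArg (fun v : U.Wb M n => ((v : U.GG M) : AM O M))
    (fin_sum u p _)).symm
  beta_reduce
  rw [e1, b5, Submodule.coe_sum, Submodule.coe_sum]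
  refine Finset.sum_congr rfl fun m _ => Eq.trans ?_ (sp m _).symm
  beta_reduce
  rw [Submodule.coe_sum, Submodule.coe_sum, map_sum]
  refine Finset.sum_congr rfl fun γ _ => ?_
  have e2 := act _ (c1 γ) ⟨_, f5⟩
  rw [c2] at e2
  rw [e2]
  change _ = rD O _ (rD O _ v')
  rw [hv', map_sum, map_sum]
  exact Finset.sum_congr rfl fun h _ => by rw [rD_mul, rD_mul]; rfl

end Vale.Agent.P022D.Fm.H35
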