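import Vale.Agent.P022D.Fm.NmD
import Vale.Agent.P022D.Fm.Nz1
import Vale.Agent.P022D.Fm.Nz2
import Vale.Agent.P022D.Fm.Inst

/-!
# P022D, forms side: the row NZ0 from the norm statement for diagonal families
-/

set_option linter.all false

noncomputable section

namespace Vale.Agent.P022D.Fm.H87

open Vale.Agent.P022 Vale.Agent.P022D.V Vale.Agent.P027M.M

theorem dg_inj {M : ℕ} {a d a' d' : (ZMod M)ˣ} (h : dg a d = dg a' d') : a = a' ∧ d = d' := by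
  have e : (dg a d : Matrix (Fin 2) (Fin 2) (ZMod M)) = dg a' d' := congrArg Units.val h
  rw [dg_coe, dg_coe] at e
  exact ⟨Units.ext (by simpa using congrFun (congrFun e 0) 0),
    Units.ext (by simpa using congrFun (congrFun e 1) 1)⟩

theorem sum_val {B : Type} [CommRing B] (m : ℕ) [NeZero m] (x : B) :
    ∑ k : ZMod m, x ^ k.val = ∑ j ∈ Finset.range m, x ^ j := by
  refine Finset.sum_bij (fun k _ => k.val) (fun k _ => Finset.mem_range.2 (ZMod.val_lt k))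
    (fun a _ b _ h => ZMod.val_injective m h) (fun j hj => ⟨(j : ZMod m), Finset.mem_univ _,
      ZMod.val_cast_of_lt (Finset.mem_range.1 hj)⟩) fun _ _ => rfl

theorem nrm_eq {B : Type} [CommRing B] {r : ℕ} (n : ℕ) (u : Fin r ⊕ Fin r → B) :
    nrm n u = ∏ s, ∑ j ∈ Finset.range (2 ^ n), u s ^ j := by
  classical
  rw [nrm, ← Fintype.prod_sum (fun s (k : ZMod (2 ^ n)) => u s ^ k.val)]
  exact Finset.prod_congr rfl fun s _ => sum_val _ _

theorem fix_of {B G : Type} [CommRing B] [AddCommGroup G] [Module B G] {Y : Submodule B G}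
    {x : B} {w : Y} (h : (x - 1) • w = 0) : x • w = w := by
  rwa [sub_smul, one_smul, sub_eq_zero] at h

variable {O F : Type} [CommRing O] [IsLocalRing O] [Co O] [Field F] [CharP F 2] {U : Su O F}
variable [hC : ∀ l : U.L.C, Fact l.1.Prime]

/-- a family of diagonal elements as in `HIGN` -/
structure Fam (M n : ℕ) {ι : Type} [Fintype ι] (p : ι → ℕ) (a d : ι → (ZMod M)ˣ)
    (u : ι → U.B M) : Prop where
  ne : ∀ s, p s ≠ 0
  act : ∀ s (w : U.Wb M n), (((u s • w : U.Wb M n) : U.GG M) : AM O M) =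
    rD O (dg (a s) (d s)) (w : U.GG M)
  sc : ∀ s, V.Cg M U.N (a s) (d s)
  one : ∀ s, V.Cg M U.NC (a s) 1
  pw : ∀ s, dg (a s ^ p s) (d s ^ p s) ∈ U.TQ M n
  ind : ∀ k : ι → ℕ, dg (∏ s, a s ^ k s) (∏ s, d s ^ k s) ∈ U.TQ M n → ∀ s, p s ∣ k s

section fam

variable {M n : ℕ} {ι κ : Type} [Fintype ι] [Fintype κ] {p : ι ⊕ κ → ℕ}
  {a d : ι ⊕ κ → (ZMod M)ˣ} {u : ι ⊕ κ → U.B M}

theorem Fam.left (h : Fam M n p a d u) : Fam M n (fun s => p (.inl s)) (fun s => a (.inl s))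
    (fun s => d (.inl s)) (fun s => u (.inl s)) :=
  ⟨fun s => h.ne _, fun s => h.act _, fun s => h.sc _, fun s => h.one _, fun s => h.pw _,
    fun k hk s => h.ind (Sum.elim k 0) (by
      simpa [Fintype.prod_sum_type] using hk) (.inl s)⟩

theorem Fam.right (h : Fam M n p a d u) : Fam M n (fun s => p (.inr s)) (fun s => a (.inr s))
    (fun s => d (.inr s)) (fun s => u (.inr s)) :=
  ⟨fun s => h.ne _, fun s => h.act _, fun s => h.sc _, fun s => h.one _, fun s => h.pw _,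
    fun k hk s => h.ind (Sum.elim 0 k) (by
      simpa [Fintype.prod_sum_type] using hk) (.inr s)⟩

end fam

theorem fam (hU : U.Ok) {r n : ℕ} {q : Fin r → ℕ} (P : Lq U r n q) {c : ℕ → ℕ} (hc : U.Ex c) :
    ∃ a d : U.L.W ⊕ (Fin r ⊕ Fin r) → (ZMod P.M)ˣ,
      Fam P.M n (Sum.elim (fun l => 2 ^ c l.1) fun _ => 2 ^ n) a d
        (Sum.elim (fun l => (P.X.d (U.L.τ l.1) : U.B P.M)) P.u) := by
  choose e e1 e2 e3 e4 using fun l : U.L.W => Nz.wdat hU P hc l.2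
  have hb : ∀ i, P.b i ∈ U1 P.M U.N := fun i => cg_dvd2 (P.lv.cn_N_div hU i) (P.lv.b1 i)
  have pr : ∀ l : U.L.W, l.1.Prime := fun l => (hU.ok.pr l (Finset.mem_union_left _ l.2)).1
  have lN : ∀ l : U.L.W, l.1 ∣ U.N := fun l =>
    (hU.cn_dvd_N (pr l)).2 (Finset.mem_union_left _ l.2)
  have NM := P.lv.cn_N_dvd
  refine ⟨Sum.elim e (Sum.elim (fun _ => 1) P.b), Sum.elim e (Sum.elim P.b fun i => (P.b i)⁻¹),
    ?_, ?_, ?_, ?_, ?_, ?_⟩
  · rintro (l | s) <;> exact pow_ne_zero _ two_ne_zero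
  · rintro (l | i | i) w
    · exact e4 l w
    · exact (P.dia i).1 w
    · exact (P.dia i).2 w
  · rintro (l | i | i)
    · exact cg_refl _
    · exact cg_symm (hb i)
    · exact cg_trans (hb i) (cg_symm (cg_inv1 (hb i)))
  · rintro (l | i | i)
    · refine e2 l _ ((Dvd.intro_left _ rfl).trans NM) ?_
      refine ((Nat.Prime.coprime_iff_not_dvd (pr l)).2 fun h => ?_).symm
      exact Finset.disjoint_left.1 hU.ok.dj l.2 ((hU.cn_dvd_NC (pr l)).1 h)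
    · exact cg_refl _
    · exact cg_dvd2 (Dvd.intro_left _ rfl) (hb i)
  · rintro (l | i | i)
    · exact ⟨1, 1, cg_refl _, cg_refl _, by simp [e1 l]⟩
    · exact ⟨1, P.b i, cg_refl _, hb i, rfl⟩
    · exact ⟨P.b i, (P.b i)⁻¹, hb i, cg_inv1 (hb i), rfl⟩
  · rintro k ⟨a', d', ha, hd, h⟩
    obtain ⟨h1, h2⟩ := dg_inj h
    simp only [Fintype.prod_sum_type, Sum.elim_inl, Sum.elim_inr, one_pow, Finset.prod_const_one,
      one_mul] at h1 h2
    have hx : ∀ j, V.Cg P.M (q j) ((∏ l, e l ^ k (.inl l) : (ZMod P.M)ˣ) : ZMod P.M) 1 := fun j =>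
      mem_U1.1 (prod_mem fun l _ => pow_mem (mem_U1.2 (e2 l _ (P.lv.cn_q_dvd j)
        ((Nat.coprime_primes (P.lv.pr j).1 (pr l)).2 fun h =>
          P.lv.cn_q_N hU j (h ▸ lN l)))) _)
    have hq := Nz.qind hU P.lv (fun j => k (.inr (.inl j))) (fun j => k (.inr (.inr j))) _ a' d' hx
      (by rw [mul_comm]; exact h1) (by rw [mul_comm, Finset.prod_mul_distrib]; exact h2)
    rintro (l | i | i)
    · refine e3 l _ (mem_U1.1 ?_)
      have m1 : a' ^ 2 ^ n ∈ U1 P.M l.1 := pow_mem (mem_U1.2 (cg_dvd2 (lN l) ha)) _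
      have m2 : ∏ i, P.b i ^ k (.inr (.inr i)) ∈ U1 P.M l.1 :=
        prod_mem fun i _ => pow_mem (mem_U1.2 (cg_dvd2 (lN l) (hb i))) _
      have m3 : ∏ l' ∈ Finset.univ.erase l, e l' ^ k (.inl l') ∈ U1 P.M l.1 :=
        prod_mem fun l' h' => pow_mem (mem_U1.2 (e2 l' _ ((lN l).trans NM)
          ((Nat.coprime_primes (pr l) (pr l')).2 fun h =>
            Finset.ne_of_mem_erase h' (Subtype.ext h.symm)))) _
      rw [← h1, ← Finset.mul_prod_erase _ _ (Finset.mem_univ l)] at m1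
      exact (Subgroup.mul_mem_cancel_right _ m3).1 ((Subgroup.mul_mem_cancel_right _ m2).1 m1)
    · exact (hq i).1
    · exact (hq i).2

theorem Fam.hig (hH : Nm.HIGN U) {M n : ℕ} (hL : U.Lm M) {X : Dt U M n} (hX : X.Ok) {ι : Type}
    [Fintype ι] {p : ι → ℕ} {a d : ι → (ZMod M)ˣ} {u : ι → U.B M} (h : Fam M n p a d u)
    (S : Subgroup (∀ l, U.Gam l)) (t : Finset (∀ l, U.Gam l)) (ht : ∀ γ, γ ∈ t ↔ γ ∈ S)
    (w : U.Wb M n) (h1 : ∀ γ ∈ S, X.E.ρ γ w = w) (h2 : ∀ s, u s • w = w) :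
    ∃ w' : U.Wb M n, w = (∏ s, ∑ j ∈ Finset.range (p s), u s ^ j) • ∑ γ ∈ t, X.E.ρ γ w' :=
  hH M n hL X hX ι p a d u h.ne h.act h.sc h.one h.pw h.ind S t ht w h1 h2

/-- **row NZ0** from `HIGN` -/
theorem nz0_of (hU : U.Ok) (hQ : LQ U) (hH : Nm.HIGN U) : NZ0 U := by
  intro r n q P c hc
  have hL := hQ.1 _ _ _ _ _ _ P.lv
  obtain ⟨a, d, h⟩ := fam hU P hc
  have fx : ∀ w : U.Wb P.M n, (∀ x ∈ P.aW, x • w = 0) →
      ∀ l : U.L.W, (P.X.d (U.L.τ l.1) : U.B P.M) • w = w := fun w hw l => by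
    exact fix_of (hw _ ⟨l.1, l.2, rfl⟩)
  have eW : P.nW c = ∏ l : U.L.W, ∑ j ∈ Finset.range (2 ^ c l.1),
      (P.X.d (U.L.τ l.1) : U.B P.M) ^ j :=
    (Finset.prod_coe_sort U.L.W fun l => ∑ j ∈ Finset.range (2 ^ c l),
      (P.X.d (U.L.τ l) : U.B P.M) ^ j).symm
  refine ⟨fun w hw => ?_, fun S s hs w h1 h2 => ⟨?_, fun hw => ?_⟩⟩
  · obtain ⟨w', e⟩ := h.left.hig hH hL P.ok ⊥ {1} (by simp) w
      (fun γ hγ => by rw [Subgroup.mem_bot.1 hγ, map_one]; rfl) (fx w hw)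
    refine ⟨w', ?_⟩
    rw [Finset.sum_singleton, map_one] at e
    rw [eW]
    exact e
  · obtain ⟨w', e⟩ := h.right.hig hH hL P.ok S s hs w h1 h2
    exact ⟨w', by rw [nrm_eq]; exact e⟩
  · obtain ⟨w', e⟩ := h.hig hH hL P.ok S s hs w h1 (by
      rintro (l | j)
      · exact fx w hw l
      · exact h2 j)
    refine ⟨w', ?_⟩
    rw [Fintype.prod_sum_type, mul_smul] at e
    rw [eW, nrm_eq]
    exact e

end Vale.Agent.P022D.Fm.H87
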