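import Mathlib

/-!
# P022D, forms side: invariants are norms, step by step
-/

set_option linter.all false

noncomputable section

namespace Vale.Agent.P022D.Fm.N94

open Finset

variable {O X G : Type} [CommRing O] [AddCommGroup X] [Module O X] [Group G] [Fintype G]

/-- a submonoid of a finite group -/
def sgOf (S : Submonoid G) : Subgroup G where
  toSubmonoid := S
  inv_mem' := fun {g} hg => by
    have e : g⁻¹ = g ^ (orderOf g - 1) := inv_eq_of_mul_eq_one_right (by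
      rw [← pow_succ', Nat.sub_add_cancel (orderOf_pos g), pow_orderOf_eq_one])
    exact e ▸ S.pow_mem hg _

variable (ρ : G →* Module.End O X) (z : O) (P : Submodule O X)

/-- the elements which act on `w` by a power of `z` -/
def St (w : X) : Subgroup G := sgOf
  { carrier := {g | ∃ k : ℕ, ρ g w = z ^ k • w}
    one_mem' := ⟨0, by simp⟩
    mul_mem' := by
      rintro a b ⟨k, hk⟩ ⟨k', hk'⟩
      exact ⟨k' + k, by rw [map_mul, Module.End.mul_apply, hk', map_smul, hk, smul_smul, pow_add]⟩ }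

/-- `w'` has the eigenvalues of `w` -/
def Rel (H : Subgroup G) (w w' : X) : Prop :=
  ∀ h ∈ H, ∀ k : ℕ, ρ h w = z ^ k • w → ρ h w' = z ^ k • w'

/-- eigenvectors are norms -/
structure Nr : Prop where
  st : ∀ g, ∀ v ∈ P, ρ g v ∈ P
  uq : ∀ v : X, v ≠ 0 → ∀ k k' : ℕ, z ^ k • v = z ^ k' • v → z ^ k = z ^ k'
  nr : ∀ (H : Subgroup G) (s : Finset G), (∀ h, h ∈ s ↔ h ∈ H) → ∀ χ : G → O, χ 1 = 1 →
    (∀ h ∈ H, ∀ h' ∈ H, χ (h * h') = χ h * χ h') → ∀ v ∈ P, (∀ h ∈ H, ρ h v = χ h • v) →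
    ∃ u ∈ P, v = ∑ h ∈ s, χ h⁻¹ • ρ h u

variable {ρ z P} {H H1 : Subgroup G} {w w' w'' : X}

theorem Rel.trans (a : Rel ρ z H w w') (b : Rel ρ z H w' w'') : Rel ρ z H w w'' :=
  fun h hh k e => b h hh k (a h hh k e)

theorem Rel.mono (le : H ≤ H1) (a : Rel ρ z H1 w w') : Rel ρ z H w w' :=
  fun h hh => a h (le hh)

theorem Rel.le (a : Rel ρ z H w w') (e : H ≤ St ρ z w) : H ≤ St ρ z w' := fun h hh =>
  let ⟨k, hk⟩ := e hh; ⟨k, a h hh k hk⟩

theorem Rel.fix (a : Rel ρ z H w w') {h : G} (hh : h ∈ H) (e : ρ h w = w) : ρ h w' = w' := by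
  simpa using a h hh 0 (by simpa using e)

theorem mem_St {g : G} (e : ρ g w = w) : g ∈ St ρ z w := ⟨0, by simpa using e⟩

theorem Nr.step (N : Nr ρ z P) (le : H ≤ H1) {A : Type} (s : Finset A) (f : A → G) (hw : w ∈ P)
    (e : H1 ≤ St ρ z w) (f1 : ∀ a ∈ s, f a ∈ H1) (fx : ∀ a ∈ s, ρ (f a) w = w)
    (sj : ∀ g ∈ H1, ∃ a ∈ s, (f a)⁻¹ * g ∈ H)
    (ij : ∀ a ∈ s, ∀ b ∈ s, (f a)⁻¹ * f b ∈ H → a = b) :
    ∃ w' ∈ P, Rel ρ z H w w' ∧ w = ∑ a ∈ s, ρ (f a) w' := by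
  classical
  by_cases h0 : w = 0
  · exact ⟨0, P.zero_mem, fun _ _ _ _ => by simp, by simp [h0]⟩
  have e' : ∀ g ∈ H1, ∃ k : ℕ, ρ g w = z ^ k • w := e
  choose! κ hκ using e'
  have u1 : ∀ g ∈ H1, ∀ k, ρ g w = z ^ k • w → z ^ κ g = z ^ k := fun g hg k h =>
    N.uq w h0 _ _ ((hκ g hg).symm.trans h)
  have c1 : z ^ κ 1 = 1 := by rw [u1 1 H1.one_mem 0 (by simp), pow_zero]
  have cm : ∀ g ∈ H1, ∀ g' ∈ H1, z ^ κ (g * g') = z ^ κ g * z ^ κ g' := fun g hg g' hg' => by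
    rw [u1 _ (H1.mul_mem hg hg') (κ g' + κ g) (by
      rw [map_mul, Module.End.mul_apply, hκ g' hg', map_smul, hκ g hg, smul_smul, pow_add]),
      pow_add, mul_comm]
  obtain ⟨u, hu, eq⟩ := N.nr H1 (univ.filter (· ∈ H1)) (by simp) (fun g => z ^ κ g) c1 cm w hw hκ
  refine ⟨∑ h ∈ univ.filter (· ∈ H), z ^ κ h⁻¹ • ρ h u,
    P.sum_mem fun h _ => P.smul_mem _ (N.st h u hu), fun g hg k hk => ?_, eq.trans ?_⟩
  · rw [← u1 g (le hg) k hk, map_sum, smul_sum]
    refine sum_nbij' (fun h => g * h) (fun h => g⁻¹ * h) (fun h hh => ?_) (fun h hh => ?_)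
      (fun h _ => inv_mul_cancel_left _ _) (fun h _ => mul_inv_cancel_left _ _) fun h hh => ?_
    · exact mem_filter.2 ⟨mem_univ _, H.mul_mem hg (mem_filter.1 hh).2⟩
    · exact mem_filter.2 ⟨mem_univ _, H.mul_mem (H.inv_mem hg) (mem_filter.1 hh).2⟩
    · rw [map_smul, smul_smul, mul_comm, ← cm _ (H1.inv_mem (le (H.mul_mem hg
        (mem_filter.1 hh).2))) g (le hg), mul_inv_rev, inv_mul_cancel_right, map_mul,
        Module.End.mul_apply]
  · simp only [map_sum]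
    rw [← sum_product']
    refine (sum_bij (fun p _ => f p.1 * p.2) (fun p hp => ?_) (fun p hp p' hp' h => ?_)
      (fun g hg => ?_) fun p hp => ?_).symm
    · obtain ⟨a, b⟩ := mem_product.1 hp
      exact mem_filter.2 ⟨mem_univ _, H1.mul_mem (f1 _ a) (le (mem_filter.1 b).2)⟩
    · obtain ⟨a, b⟩ := mem_product.1 hp
      obtain ⟨a', b'⟩ := mem_product.1 hp'
      have k : p.1 = p'.1 := ij _ a _ a' (by
        rw [show (f p.1)⁻¹ * f p'.1 = p.2 * p'.2⁻¹ by
          rw [inv_mul_eq_iff_eq_mul, ← mul_assoc, h, mul_inv_cancel_right]]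
        exact H.mul_mem (mem_filter.1 b).2 (H.inv_mem (mem_filter.1 b').2))
      exact Prod.ext k (mul_left_cancel (k ▸ h))
    · obtain ⟨a, ha, h⟩ := sj g (mem_filter.1 hg).2
      exact ⟨(a, _), mem_product.2 ⟨ha, mem_filter.2 ⟨mem_univ _, h⟩⟩, mul_inv_cancel_left _ _⟩
    · obtain ⟨a, b⟩ := mem_product.1 hp
      have k : z ^ κ (f p.1)⁻¹ = 1 := by
        rw [u1 _ (H1.inv_mem (f1 _ a)) 0 (by
          conv_lhs => rw [← fx _ a, ← Module.End.mul_apply, ← map_mul, inv_mul_cancel, map_one]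
          simp), pow_zero]
      rw [map_smul, mul_inv_rev, cm _ (H1.inv_mem (le (mem_filter.1 b).2)) _ (H1.inv_mem (f1 _ a)),
        k, mul_one, map_mul, Module.End.mul_apply]

theorem cj {e : G} (hn : ∀ h ∈ H, e⁻¹ * h * e ∈ H) (k : ℕ) :
    ∀ h ∈ H, (e ^ k)⁻¹ * h * e ^ k ∈ H := by
  induction k with
  | zero => simp
  | succ k ih =>
    intro h hh
    have := hn _ (ih h hh)
    rwa [← mul_assoc, ← mul_assoc, ← mul_inv_rev, mul_assoc _ _ e, ← pow_succ] at this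

/-- the group generated by `H` and `e` -/
def ad (H : Subgroup G) (e : G) (hn : ∀ h ∈ H, e⁻¹ * h * e ∈ H) : Subgroup G := sgOf
  { carrier := {g | ∃ k : ℕ, (e ^ k)⁻¹ * g ∈ H}
    one_mem' := ⟨0, by simp⟩
    mul_mem' := by
      rintro a b ⟨k, hk⟩ ⟨k', hk'⟩
      refine ⟨k + k', ?_⟩
      have := H.mul_mem (cj hn k' _ hk) hk'
      rwa [mul_assoc _ (e ^ k'), mul_inv_cancel_left, ← mul_assoc, ← mul_inv_rev, ← pow_add,
        mul_assoc] at this }

theorem le_ad {e : G} (hn : ∀ h ∈ H, e⁻¹ * h * e ∈ H) : H ≤ ad H e hn :=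
  fun h hh => ⟨0, by simpa using hh⟩

theorem ad_le {e : G} (hn : ∀ h ∈ H, e⁻¹ * h * e ∈ H) (le : H ≤ H1) (he : e ∈ H1) :
    ad H e hn ≤ H1 := by
  rintro g ⟨k, hk⟩
  simpa using H1.mul_mem (H1.pow_mem he k) (le hk)

theorem Nr.cyc (N : Nr ρ z P) {e : G} (hn : ∀ h ∈ H, e⁻¹ * h * e ∈ H) {m : ℕ} (m0 : 0 < m)
    (h1 : e ^ m ∈ H) (h2 : ∀ k, e ^ k ∈ H → m ∣ k) (hw : w ∈ P) (hs : H ≤ St ρ z w)
    (fx : ρ e w = w) : ∃ w' ∈ P, Rel ρ z H w w' ∧ w = ∑ k ∈ range m, ρ (e ^ k) w' := by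
  have lt : ∀ a b, a < m → b < m → a ≤ b → (e ^ a)⁻¹ * e ^ b ∈ H → a = b := fun a b _ hb le h => by
    obtain ⟨c, rfl⟩ := Nat.exists_eq_add_of_le le
    rw [pow_add, inv_mul_cancel_left] at h
    have := Nat.eq_zero_of_dvd_of_lt (h2 c h) (by omega)
    omega
  refine N.step (le_ad hn) (range m) (fun k => e ^ k) hw (ad_le hn hs (mem_St fx))
    (fun k _ => ⟨k, by simp⟩) (fun k _ => ?_) ?_ fun a ha b hb h => ?_
  · rw [map_pow, Module.End.pow_apply]
    exact Function.iterate_fixed fx k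
  · rintro g ⟨k, hk⟩
    refine ⟨k % m, mem_range.2 (Nat.mod_lt _ m0), ?_⟩
    have := H.mul_mem (H.pow_mem h1 (k / m)) hk
    conv at this => enter [2, 2, 1, 1, 2]; rw [← Nat.mod_add_div k m]
    rwa [pow_add, pow_mul, mul_inv_rev, mul_assoc, mul_inv_cancel_left] at this
  · rcases le_total a b with le | le
    · exact lt a b (mem_range.1 ha) (mem_range.1 hb) le h
    · exact (lt b a (mem_range.1 hb) (mem_range.1 ha) le (by simpa using H.inv_mem h)).symm

variable {T ι B : Type} [CommGroup T] (j : T →* G) (e : ι → T) (m : ι → ℕ) [CommRing B]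
  [Module B X] (u : ι → B) (Y : Submodule B X)

theorem Nr.multi (N : Nr ρ z P) (hw : w ∈ P) (J : Finset ι) (m0 : ∀ i ∈ J, 0 < m i)
    (hu : ∀ i ∈ J, ∀ v ∈ Y, u i • v = ρ (j (e i)) v) (fx : ∀ i ∈ J, ρ (j (e i)) w = w) :
    ∀ H : Subgroup G, H ≤ St ρ z w → (∀ w' ∈ P, Rel ρ z H w w' → w' ∈ Y) →
    (∀ i ∈ J, ∀ h ∈ H, (j (e i))⁻¹ * h * j (e i) ∈ H) → (∀ i ∈ J, j (e i) ^ m i ∈ H) →
    (∀ k : ι → ℕ, j (∏ i ∈ J, e i ^ k i) ∈ H → ∀ i ∈ J, m i ∣ k i) →
    ∃ w' ∈ P, Rel ρ z H w w' ∧ w = (∏ i ∈ J, ∑ k ∈ range (m i), u i ^ k) • w' := by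
  classical
  induction J using Finset.induction_on with
  | empty => exact fun H _ _ _ _ _ => ⟨w, hw, fun _ _ _ h => h, by simp⟩
  | insert i J hi ih =>
    intro H hs hY hn h1 h2
    have mi := mem_insert_self i J
    have up : ∀ (k : ι → ℕ) (t : ℕ), ∏ i' ∈ insert i J, e i' ^ Function.update k i t i' =
        e i ^ t * ∏ i' ∈ J, e i' ^ k i' := fun k t => by
      rw [prod_insert hi, Function.update_self]
      exact congrArg _ (prod_congr rfl fun i' h => by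
        rw [Function.update_of_ne (ne_of_mem_of_not_mem h hi)])
    obtain ⟨v, hv, r1, e1⟩ := ih (fun a h => m0 a (mem_insert_of_mem h))
      (fun a h => hu a (mem_insert_of_mem h)) (fun a h => fx a (mem_insert_of_mem h))
      (ad H (j (e i)) (hn i mi)) (ad_le _ hs (mem_St (fx i mi)))
      (fun v hv r => hY v hv (r.mono (le_ad _))) (fun a h g ⟨k, hk⟩ => ⟨k, by
        have := hn a (mem_insert_of_mem h) _ hk
        rwa [← mul_assoc, ← map_pow, ← map_inv, ← map_inv, ← map_mul, mul_comm (e a)⁻¹, map_mul,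
          map_inv, map_inv, map_pow, mul_assoc, mul_assoc, ← mul_assoc _ g] at this⟩)
      (fun a h => le_ad _ (h1 a (mem_insert_of_mem h))) (fun k ⟨t, ht⟩ a h => by
        have := h2 (Function.update k i ((m i - 1) * t)) (by
          have := H.mul_mem (H.pow_mem (h1 i mi) t) ht
          rwa [← mul_assoc, ← pow_mul, ← Nat.sub_add_cancel (n := m i) (m := 1) (m0 i mi), add_mul,
            one_mul, pow_add, mul_inv_cancel_right, ← map_pow, ← map_mul, ← up] at this) a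
          (mem_insert_of_mem h)
        rwa [Function.update_of_ne (ne_of_mem_of_not_mem h hi)] at this)
    obtain ⟨v', hv', r2, e2⟩ := N.cyc (hn i mi) (m0 i mi) (h1 i mi) (fun t ht => by
      have := h2 (Function.update (fun _ => 0) i t) (by simpa [up] using ht) i mi
      rwa [Function.update_self] at this) hv ((r1.mono (le_ad _)).le hs)
      (r1.fix ⟨1, by simp⟩ (fx i mi))
    have r := (r1.mono (le_ad _)).trans r2
    refine ⟨v', hv', r, ?_⟩
    rw [prod_insert hi, mul_comm, mul_smul, e1, sum_smul]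
    congr 1
    refine e2.trans (sum_congr rfl fun k hk => ?_)
    have y := hY v' hv' r
    clear hk
    induction k with
    | zero => simp
    | succ k ih =>
      rw [pow_succ', pow_succ', map_mul, Module.End.mul_apply, ih, mul_smul,
        hu i mi _ (Y.smul_mem _ y)]

omit [Fintype G] in
theorem ind_mono {J J' : Finset ι} (le : J ⊆ J')
    (h : ∀ k : ι → ℕ, j (∏ i ∈ J', e i ^ k i) ∈ H → ∀ i ∈ J', m i ∣ k i) (k : ι → ℕ)
    (hk : j (∏ i ∈ J, e i ^ k i) ∈ H) : ∀ i ∈ J, m i ∣ k i := fun i hi => by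
  classical
  have := h (fun i => if i ∈ J then k i else 0) (by
    rwa [← prod_subset le (fun a _ ha => by rw [if_neg ha, pow_zero]),
      prod_congr rfl fun a ha => by rw [if_pos ha]]) i (le hi)
  rwa [if_pos hi] at this

/-- roots of unity of invertible order are distinct in the residue field -/
theorem root_eq [IsLocalRing O] {n : ℕ} (hn : IsUnit (n : O)) (n0 : n ≠ 0) {x y : O} (hx : x ^ n = 1)
    (hy : y ^ n = 1) {v : X} (hv : v ≠ 0) (e : x • v = y • v) : x = y := by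
  have nu : x - y ∈ IsLocalRing.maximalIdeal O := fun h =>
    hv (h.smul_eq_zero.1 (by rw [sub_smul, e, sub_self]))
  have g := (Commute.all x y).geom_sum₂_mul n
  rw [hx, hy, sub_self] at g
  refine sub_eq_zero.1 ((IsUnit.mul_right_eq_zero ?_).1 g)
  by_contra h
  have h1 : ∑ i ∈ range n, x ^ i * y ^ (n - 1 - i) ∈ IsLocalRing.maximalIdeal O := h
  rw [← Ideal.Quotient.eq_zero_iff_mem] at h1 nu
  rw [map_sub, sub_eq_zero] at nu
  simp only [map_sum, map_mul, map_pow, nu] at h1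
  rw [geom_sum₂_self, ← map_pow, ← map_natCast (Ideal.Quotient.mk _), ← map_mul,
    Ideal.Quotient.eq_zero_iff_mem] at h1
  exact h1 (hn.mul ((IsUnit.of_pow_eq_one hy n0).pow _))

end Vale.Agent.P022D.Fm.N94
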