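import Vale.Agent.P022D.Fm.NmH
import Vale.Agent.P022D.Fm.NmW
import Vale.Agent.P022D.Fm.NmH66

/-!
# P022D, forms side: the row NZ0
-/

set_option linter.all false

namespace Vale.Agent.P022D.Fm

open Vale.Agent.P022D.V

theorem nz0C {O F : Type} [CommRing O] [IsDomain O] [IsDiscreteValuationRing O] [Core.Coef O]
    [Co O] [Field F] [CharP F 2] {U : Su O F} [∀ l : U.L.C, Fact l.1.Prime] (hU : U.Ok) : NZ0 U :=
  H66.nz0_of hU (lqC hU) (Nm.hign hU (Nm.whp hU))

end Vale.Agent.P022D.Fm
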