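import Vale.Agent.P022D.Rep.Rs

/-!
# P022D, forms side: level raising in the abstract form
-/

set_option linter.all false

noncomputable section

namespace Vale.Agent.P022D.Fm

open Vale.Agent.P022D.Rep

variable {ι : Type} [Fintype ι] [DecidableEq ι] {F : Type} [Field F] [CharP F 2]
  {Γ K : ι → Type} [∀ i, Group (Γ i)] [∀ i, Fintype (Γ i)] [∀ i, Field (K i)] [∀ i, Fintype (K i)]
  (D : ∀ i, BN (K i) (Γ i)) (C : ∀ i, Ch (K i) F)
  {T W : Type} [Ring T] [AddCommGroup W] [Module T W] (E : Act F Γ T W)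

/-- fixed by the factor `l` -/
def FxG (l : ι) (w : W) : Prop := ∀ g : Γ l, E.ρ (Pi.mulSingle l g) w = w

/-- fixed by the Borel subgroup of the factor `l` -/
def FxB (l : ι) (w : W) : Prop := ∀ b ∈ (D l).B, E.ρ (Pi.mulSingle l b) w = w

/-- `w'` satisfies all the relations of `w` at the places different from `l` -/
def Away (l : ι) (w w' : W) : Prop :=
  ∀ j, j ≠ l → ∀ r : MonoidAlgebra F (Γ j), E.al j r w = 0 → E.al j r w' = 0

include C in
/-- the trace of a Borel invariant vector is invariant -/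
theorem fxG_tr {l : ι} {w : W} (h : FxB D E l w) : FxG E l (E.al l (trB (D l) F) w) := by
  refine (E.kill_It l _).1 fun r hr => ?_
  rw [← Module.End.mul_apply, ← map_mul]
  exact (E.kill_Ib (D l) w).2 h _ ((col_t (D l) (C l) r).2 hr)

/-- the Whittaker part of a Borel invariant vector of trace zero -/
theorem ip_of_tr {l : ι} {w : W} (h : FxB D E l w) (ht : E.al l (trB (D l) F) w = 0) :
    ∀ r ∈ Ip (D l) (C l), E.al l r (E.al l (ee (D l) (C l) 1 * el F (D l).w) w) = 0 := by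
  intro r hr
  rw [← Module.End.mul_apply, ← map_mul]
  refine (E.kill_sup l _ _ w).2 ⟨(E.kill_Ib (D l) w).2 h, (E.kill_span l _ w).2 ?_⟩ _
    ((col_p (D l) (C l) r).2 hr)
  rintro r rfl
  exact ht

theorem away_al (l : ι) (x : MonoidAlgebra F (Γ l)) (w : W) : Away E l w (E.al l x w) :=
  fun j hj r hr => by rw [E.al_comm hj.symm, hr, map_zero]

theorem away_smul {T : Type} [CommRing T] [Module T W] (E : Act F Γ T W) (l : ι) (t : T) (w : W) :
    Away E l w (t • w) := fun j _ r hr => by rw [map_smul, hr, smul_zero]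

theorem Away.trans {E : Act F Γ T W} {l : ι} {a b c : W} (h : Away E l a b) (h' : Away E l b c) :
    Away E l a c := fun j hj r hr => h' j hj r (h j hj r hr)

/-- an additive map on a stable subgroup which commutes with the other places -/
theorem away_of_map (l : ι) (P : AddSubgroup W) (f : W → W) (h0 : f 0 = 0)
    (ha : ∀ v ∈ P, ∀ w ∈ P, f (v + w) = f v + f w)
    (hs : ∀ c, ∀ w ∈ P, E.sc c w ∈ P ∧ f (E.sc c w) = E.sc c (f w))
    (hr : ∀ j, j ≠ l → ∀ g : Γ j, ∀ w ∈ P, E.ρ (Pi.mulSingle j g) w ∈ P ∧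
      f (E.ρ (Pi.mulSingle j g) w) = E.ρ (Pi.mulSingle j g) (f w)) {w : W} (hw : w ∈ P) :
    Away E l w (f w) := by
  intro j hj r h
  have : E.al j r w ∈ P ∧ f (E.al j r w) = E.al j r (f w) := by
    refine el_ind (p := fun r => E.al j r w ∈ P ∧ f (E.al j r w) = E.al j r (f w)) r ?_ ?_ ?_
    · intro g
      rw [E.al_el]
      exact hr j hj g w hw
    · intro x y hx hy
      rw [map_add, LinearMap.add_apply, LinearMap.add_apply]
      exact ⟨P.add_mem hx.1 hy.1, by rw [ha _ hx.1 _ hy.1, hx.2, hy.2]⟩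
    · intro c x hx
      rw [E.al_smul, Module.End.mul_apply, Module.End.mul_apply]
      exact ⟨(hs c _ hx.1).1, by rw [(hs c _ hx.1).2, hx.2]⟩
  rw [← this.2, h, h0]

theorem last_ne {T : Type} [Ring T] [Module T W] (t : T) {w : W} (hw : w ≠ 0)
    (h : ∃ k : ℕ, t ^ k • w = 0) : ∃ k : ℕ, t ^ k • w ≠ 0 ∧ t • t ^ k • w = 0 := by
  classical
  have h0 : Nat.find h ≠ 0 := fun e => hw (by
    have := Nat.find_spec h
    rwa [e, pow_zero, one_smul] at this)
  obtain ⟨k, hk⟩ := Nat.exists_eq_succ_of_ne_zero h0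
  refine ⟨k, Nat.find_min h (by omega), ?_⟩
  have := Nat.find_spec h
  rwa [hk, pow_succ', mul_smul] at this

/-- **level raising** -/
theorem raise {T : Type} [CommRing T] [Module T W] (E : Act F Γ T W) (J S₀ : Finset ι)
    (hS : S₀ ⊆ J) (ph : ι → T) {v : W} (hv : v ≠ 0) (hB : ∀ l ∈ S₀, FxB D E l v)
    (hG : ∀ l, l ∉ S₀ → FxG E l v) (ram : ∀ l ∈ S₀, ∀ w, FxG E l w → w = 0)
    (nil : ∀ l ∈ J, l ∉ S₀ → ∀ w : W, ∃ k : ℕ, ph l ^ k • w = 0)
    (hW : ∀ l ∈ J, l ∉ S₀ → ∀ g, g ≠ 0 → FxG E l g → ph l • g = 0 → ∃ g', FxB D E l g' ∧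
      E.al l (trB (D l) F) g' = 0 ∧ ¬ FxG E l g' ∧ Away E l g g') :
    ∃ w ∈ E.Y (XJ D C J).v, w ≠ 0 := by
  have key : ∀ S : Finset ι, S ⊆ J → ∃ w, w ≠ 0 ∧
      (∀ l ∈ S, ∀ r ∈ Ip (D l) (C l), E.al l r w = 0) ∧
      (∀ l, l ∉ S → l ∈ S₀ → FxB D E l w) ∧ ∀ l, l ∉ S → l ∉ S₀ → FxG E l w := by
    intro S
    induction S using Finset.induction_on with
    | empty => exact fun _ => ⟨v, hv, by simp, fun l _ => hB l, fun l _ => hG l⟩
    | insert l S hl ih =>
      intro hJ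
      obtain ⟨w, h0, h1, h2, h3⟩ := ih ((Finset.subset_insert _ _).trans hJ)
      have hlJ := hJ (Finset.mem_insert_self l S)
      obtain ⟨g, g1, g2, g3, g4⟩ : ∃ g', FxB D E l g' ∧ E.al l (trB (D l) F) g' = 0 ∧
          ¬ FxG E l g' ∧ Away E l w g' := by
        by_cases h : l ∈ S₀
        · exact ⟨w, h2 l hl h, ram l h _ (fxG_tr D C E (h2 l hl h)), fun e => h0 (ram l h w e),
            fun _ _ _ e => e⟩
        · obtain ⟨k, k1, k2⟩ := last_ne (ph l) h0 (nil l hlJ h w)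
          obtain ⟨g, g1, g2, g3, g4⟩ := hW l hlJ h _ k1
            (fun g => by rw [map_smul, h3 l hl h g]) k2
          exact ⟨g, g1, g2, g3, (away_smul E l _ w).trans g4⟩
      have a := g4.trans (away_al E l (ee (D l) (C l) 1 * el F (D l).w) g)
      refine ⟨_, fun e => g3 (E.fix_of_B (D l) (C l) g g1 e), fun j hj => ?_, fun j hj h => ?_,
        fun j hj h => ?_⟩
      · rcases Finset.mem_insert.1 hj with rfl | hj
        · exact ip_of_tr D C E g1 g2
        · exact fun r hr => a j (fun e => hl (e ▸ hj)) r (h1 j hj r hr)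
      · rw [Finset.mem_insert, not_or] at hj
        exact (E.kill_Ib (D j) _).1 fun r hr =>
          a j hj.1 r ((E.kill_Ib (D j) w).2 (h2 j hj.2 h) r hr)
      · rw [Finset.mem_insert, not_or] at hj
        exact (E.kill_It j _).1 fun r hr => a j hj.1 r ((E.kill_It j w).2 (h3 j hj.2 h) r hr)
  obtain ⟨w, h0, h1, -, h3⟩ := key J le_rfl
  refine ⟨w, fun l => ?_, h0⟩
  by_cases h : l ∈ J
  · rw [XJ_in D C h]
    exact h1 l h
  · rw [XJ_out D C h]
    exact (E.kill_It l w).2 (h3 l h fun e => h (hS e))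

/-- a non zero `Y I` receives a non zero map given by an element of the group ring -/
theorem ex_map {θ : W →+ W} (h : E.Hig θ) {I : Tu F Γ} {w : W} (hw : w ∈ E.Y I) (h0 : w ≠ 0) :
    ∃ c : (∀ i, Γ i) → F, (∀ u, ∑ g, E.ρ g (E.sc (c g) u) ∈ E.Y I) ∧
      ∃ u, ∑ g, E.ρ g (E.sc (c g) u) ≠ 0 := by
  classical
  letI : Module F W := Module.compHom W E.sc
  have sm : ∀ (c : F) (u : W), c • u = E.sc c u := fun _ _ => rfl
  let b := Module.Basis.ofVectorSpace F W
  by_contra hc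
  push Not at hc
  have z : ∀ j, ∑ g, E.ρ g (E.sc (b.repr (θ (E.ρ g⁻¹ w)) j) (b j)) = 0 := fun j =>
    hc (fun g => b.repr (θ (E.ρ g⁻¹ w)) j) (fun u => by
      let θ' : W →+ W :=
        { toFun := fun x => E.sc (b.repr (θ x) j) u
          map_zero' := by simp
          map_add' := fun x y => by simp }
      have := E.avg_mem θ' (fun c x => by
        show E.sc (b.repr (θ (E.sc c x)) j) u = E.sc c (E.sc (b.repr (θ x) j) u)
        rw [h.sc, ← sm c, map_smul, Finsupp.smul_apply, smul_eq_mul, map_mul]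
        rfl) hw
      rwa [E.avg_apply] at this) _
  let S := Finset.univ.biUnion fun g : ∀ i, Γ i => (b.repr (θ (E.ρ g⁻¹ w))).support
  have e : ∀ g : ∀ i, Γ i, θ (E.ρ g⁻¹ w) = ∑ j ∈ S, E.sc (b.repr (θ (E.ρ g⁻¹ w)) j) (b j) := by
    intro g
    conv_lhs => rw [← b.linearCombination_repr (θ (E.ρ g⁻¹ w)), Finsupp.linearCombination_apply,
      Finsupp.sum_of_support_subset _
        (Finset.subset_biUnion_of_mem (fun g : ∀ i, Γ i => (b.repr (θ (E.ρ g⁻¹ w))).support)
          (Finset.mem_univ g)) (fun i a => a • b i) (fun _ _ => zero_smul _ _)]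
    rfl
  apply h0
  rw [← h.tr w, Finset.sum_congr rfl fun g _ => by rw [e g, map_sum], Finset.sum_comm]
  exact Finset.sum_eq_zero fun j _ => z j

end Vale.Agent.P022D.Fm
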