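import Vale.Agent.P022D.Fm.Raise
import Vale.Agent.P022D.Rep.Crt
import Vale.Agent.P022D.V.Form

/-!
# P022D, forms side: level raising for eigenvectors modulo the uniformiser
-/

set_option linter.all false

noncomputable section

namespace Vale.Agent.P022D.Fm

open Vale.Agent.P022D.Rep Vale.Agent.P022D.V

section abs

variable {ι : Type} [Fintype ι] [DecidableEq ι] {F : Type} [Field F] [CharP F 2]
  {Γ K : ι → Type} [∀ i, Group (Γ i)] [∀ i, Fintype (Γ i)] [∀ i, Field (K i)] [∀ i, Fintype (K i)]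
  (D : ∀ i, BN (K i) (Γ i)) (C : ∀ i, Ch (K i) F)
  {T W : Type} [Ring T] [AddCommGroup W] [Module T W] (E : Act F Γ T W)

/-- **level raising** inside a stable set of vectors -/
theorem raiseP (p : W → Prop) (hp : ∀ l r w, p w → p (E.al l r w)) (J S₀ : Finset ι)
    (hS : S₀ ⊆ J) {v : W} (pv : p v) (hv : v ≠ 0) (hB : ∀ l ∈ S₀, FxB D E l v)
    (hG : ∀ l, l ∉ S₀ → FxG E l v) (ram : ∀ l ∈ S₀, ∀ w, p w → FxG E l w → w = 0)
    (hW : ∀ l ∈ J, l ∉ S₀ → ∀ g, p g → g ≠ 0 → FxG E l g → ∃ g', p g' ∧ FxB D E l g' ∧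
      E.al l (trB (D l) F) g' = 0 ∧ ¬ FxG E l g' ∧ Away E l g g') :
    ∃ w ∈ E.Y (XJ D C J).v, p w ∧ w ≠ 0 := by
  have key : ∀ S : Finset ι, S ⊆ J → ∃ w, p w ∧ w ≠ 0 ∧
      (∀ l ∈ S, ∀ r ∈ Ip (D l) (C l), E.al l r w = 0) ∧
      (∀ l, l ∉ S → l ∈ S₀ → FxB D E l w) ∧ ∀ l, l ∉ S → l ∉ S₀ → FxG E l w := by
    intro S
    induction S using Finset.induction_on with
    | empty => exact fun _ => ⟨v, pv, hv, by simp, fun l _ => hB l, fun l _ => hG l⟩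
    | insert l S hl ih =>
      intro hJ
      obtain ⟨w, pw, h0, h1, h2, h3⟩ := ih ((Finset.subset_insert _ _).trans hJ)
      have hlJ := hJ (Finset.mem_insert_self l S)
      obtain ⟨g, g0, g1, g2, g3, g4⟩ : ∃ g', p g' ∧ FxB D E l g' ∧
          E.al l (trB (D l) F) g' = 0 ∧ ¬ FxG E l g' ∧ Away E l w g' := by
        by_cases h : l ∈ S₀
        · exact ⟨w, pw, h2 l hl h, ram l h _ (hp _ _ _ pw) (fxG_tr D C E (h2 l hl h)),
            fun e => h0 (ram l h w pw e), fun _ _ _ e => e⟩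
        · exact hW l hlJ h w pw h0 (h3 l hl h)
      have a := g4.trans (away_al E l (ee (D l) (C l) 1 * el F (D l).w) g)
      refine ⟨_, hp _ _ _ g0, fun e => g3 (E.fix_of_B (D l) (C l) g g1 e), fun j hj => ?_,
        fun j hj h => ?_, fun j hj h => ?_⟩
      · rcases Finset.mem_insert.1 hj with rfl | hj
        · exact ip_of_tr D C E g1 g2
        · exact fun r hr => a j (fun e => hl (e ▸ hj)) r (h1 j hj r hr)
      · rw [Finset.mem_insert, not_or] at hj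
        exact (E.kill_Ib (D j) _).1 fun r hr =>
          a j hj.1 r ((E.kill_Ib (D j) w).2 (h2 j hj.2 h) r hr)
      · rw [Finset.mem_insert, not_or] at hj
        exact (E.kill_It j _).1 fun r hr => a j hj.1 r ((E.kill_It j w).2 (h3 j hj.2 h) r hr)
  obtain ⟨w, pw, h0, h1, -, h3⟩ := key J le_rfl
  refine ⟨w, fun l => ?_, pw, h0⟩
  by_cases h : l ∈ J
  · rw [XJ_in D C h]
    exact h1 l h
  · rw [XJ_out D C h]
    exact (E.kill_It l w).2 (h3 l h fun e => h (hS e))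

end abs

namespace Rz

variable {S R : Type} [CommRing S] [CommRing R] [Algebra S R] {M M₀ q : ℕ} {z : R}

theorem U_le_B : Uq M M₀ ⊆ Bq M M₀ := by
  rintro _ ⟨x, rfl⟩
  refine ⟨fun i j => ?_, rfl⟩
  rw [un_coe]
  fin_cases i <;> fin_cases j
  · exact ⟨0, by simp⟩
  · exact ⟨x, by simp⟩
  · exact ⟨0, by simp⟩
  · exact ⟨0, by simp⟩

theorem dg_B {a d : (ZMod M)ˣ} (ha : Cg M M₀ a 1) (hd : Cg M M₀ d 1) : dg a d ∈ Bq M M₀ := by
  obtain ⟨s, hs⟩ := ha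
  obtain ⟨t, ht⟩ := hd
  refine ⟨fun i j => ?_, rfl⟩
  rw [dg_coe]
  fin_cases i <;> fin_cases j
  · exact ⟨s, by simpa using hs⟩
  · exact ⟨0, by simp⟩
  · exact ⟨0, by simp⟩
  · exact ⟨t, by simpa using ht⟩

theorem Iv_anti {H H' : Set (GM M)} (h : H ⊆ H') {w : FT M R} (hw : w ∈ Iv S R H') :
    w ∈ Iv S R H := fun g hg => hw g (h hg)

theorem K_B {w : FT M R} (hw : w ∈ Iv S R (Kq M M₀)) : w ∈ Iv S R (Bq M M₀) :=
  Iv_anti (fun _ h => h.1) hw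

theorem B_U {w : FT M R} (hw : w ∈ Iv S R (Bq M M₀)) : w ∈ Iv S R (Uq M M₀) :=
  Iv_anti U_le_B hw

variable (hF : WF1) (h : Sp M M₀ q) (hz : z ^ M = 1) (k : ℕ) {w : FT M R}
  (hw : w ∈ Iv S R (Uq M M₀))
include hF h hz hw

theorem W_rt {g : GM M} (hg : g ∈ Kq M q) :
    W1 S R M M₀ q z k (rt S R g w) = rt S R g (W1 S R M M₀ q z k w) := by
  obtain ⟨-, a, b⟩ := (hF S R M M₀ q z h hz w hw).2.2.1 g hg
  rw [W1_apply, W1_apply, a, b, map_add, map_nsmul]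

theorem W_dg {a d : (ZMod M)ˣ} (e : Cg M M₀ a d) :
    W1 S R M M₀ q z k (rt S R (dg a d) w) = rt S R (dg d a) (W1 S R M M₀ q z k w) := by
  obtain ⟨-, a, b⟩ := (hF S R M M₀ q z h hz w hw).2.2.2.1 a d e
  rw [W1_apply, W1_apply, a, b, map_add, map_nsmul]

theorem W_U : W1 S R M M₀ q z k w ∈ Iv S R (Uq M M₀) := by
  obtain ⟨a, b⟩ := (hF S R M M₀ q z h hz w hw).2.1
  exact add_mem (nsmul_mem a _) b

theorem W_Od (ho : w ∈ Od S M R) : W1 S R M M₀ q z k w ∈ Od S M R := by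
  obtain ⟨a, b⟩ := (hF S R M M₀ q z h hz w hw).2.2.2.2.2.1 ho
  exact add_mem (nsmul_mem a _) b

theorem W_Tf (i : ℕ) {p : ℕ} {u : (ZMod M)ˣ} (hu : (u : ZMod M) = p) :
    W1 S R M M₀ q z k (Tf S R i p u w) = Tf S R i p u (W1 S R M M₀ q z k w) := by
  obtain ⟨-, -, a, b, c, d⟩ := (hF S R M M₀ q z h hz w hw).2.2.2.2.1 p u hu
  simp only [W1_apply, Tf_apply, map_add, map_nsmul, a, b, c, d]
  module

omit hw in
theorem W_B (hG : GRP) (hw : w ∈ Iv S R (Bq M M₀)) : W1 S R M M₀ q z k w ∈ Iv S R (Bq M M₀) := by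
  rw [mem_Iv]
  intro g hg
  obtain ⟨u, hu, a, d, ha, hd, rfl⟩ := (hG M M₀ q h).2.2.2.2.2.2.1 g hg
  have e : Cg M M₀ d a := by
    obtain ⟨s, hs⟩ := ha
    obtain ⟨t, ht⟩ := hd
    exact ⟨t - s, by rw [hs, ht]; ring⟩
  rw [← rt_rt, ← W_dg hF h hz k (B_U hw) e, mem_Iv.1 hw _ (dg_B hd ha),
    mem_Iv.1 (W_U hF h hz k (B_U hw)) u hu]

omit hF hz hw in
theorem div_eq : M / M₀ = q := by
  have := h.odd.pos
  rw [h.eq] at this ⊢
  exact Nat.mul_div_cancel_left q (Nat.pos_of_mul_pos_right this)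

omit hF hz hw in
theorem tc_down {f : FT M₀ R} (hf : TC z (ifl S R h.dvd f)) : TC (z ^ q) f := by
  intro g n
  obtain ⟨g, rfl⟩ := pr_surj h.dvd h.odd.pos.ne' g
  have e := hf g (q * n)
  rw [ifl_apply, ifl_apply, div_eq h, Vo_coeff, Vo_coeff, if_pos (dvd_mul_right q n),
    if_pos (dvd_mul_right q n), Nat.mul_div_cancel_left n h.prime.pos, map_mul, pr_un,
    map_one] at e
  rwa [← pow_mul]

omit hF hz hw in
theorem ex_unit : ∃ u : (ZMod M₀)ˣ, (u : ZMod M₀) = q :=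
  ⟨ZMod.unitOfCoprime q h.cop.symm, rfl⟩

end Rz

variable {O : Type} [CommRing O] [Co O]

/-- eigenvectors modulo `π`, fixed by the scalars, on which `H` acts by `χ` -/
def Gd (π : O) (M : ℕ) (H : Set (GM M)) (χ : GM M → O) (lam : ℕ → O) :
    Submodule O (FT M (RR π)) :=
  Vb M π ⊓ Eg O _ H χ ⊓ Iv O _ (Set.range fun a => dg a a) ⊓
    ⨅ (p : ℕ) (u : (ZMod M)ˣ) (_ : p.Prime ∧ p ≠ 2 ∧ (u : ZMod M) = p),
      LinearMap.ker (Tf O _ 0 p u - lam p • LinearMap.id)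

theorem mem_Gd {π : O} {M : ℕ} {H : Set (GM M)} {χ : GM M → O} {lam : ℕ → O}
    {x : FT M (RR π)} : x ∈ Gd π M H χ lam ↔ x ∈ Vb M π ∧ x ∈ Eg O _ H χ ∧
      (∀ a, rt O _ (dg a a) x = x) ∧ ∀ (p : ℕ) (u : (ZMod M)ˣ), p.Prime → p ≠ 2 →
        (u : ZMod M) = p → Tf O _ 0 p u x = lam p • x := by
  simp only [Gd, Submodule.mem_inf, Submodule.mem_iInf, LinearMap.mem_ker, LinearMap.sub_apply,
    LinearMap.smul_apply, LinearMap.id_apply, sub_eq_zero, mem_Iv, Set.forall_mem_range, and_imp,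
    and_assoc]

/-- the rows of block V which are used -/
structure Vr (O : Type) [CommRing O] [Co O] : Prop where
  root : ROOT O
  vs3 : VS3 O
  descv : DESCV O
  wv : WV O
  ih : IH O
  grp : GRP
  wf1 : WF1
  wf2 : WF2

section one

variable (hV : Vr O) {π : O} (hπ : Unif π) {M M₀ q : ℕ} (h : Sp M M₀ q)
  {H : Set (GM M)} {χ : GM M → O} {lam : ℕ → O} (hH : H ⊆ Kq M q)
include hV hπ h hH

theorem Gd_rt {g : GM M} (hg : g ∈ Kq M M₀) {x : FT M (RR π)} (hx : x ∈ Gd π M H χ lam) :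
    rt O _ g x ∈ Gd π M H χ lam := by
  obtain ⟨a, b, c, d⟩ := mem_Gd.1 hx
  refine mem_Gd.2 ⟨⟨(hV.vs3 M π h.odd hπ.ne).2.2.2.1 _ _ _ a.1, Od_rt g a.2⟩, fun k hk => ?_,
    fun s => ?_, fun p u h1 h2 h3 => ?_⟩
  · rw [rt_rt, ← (hV.grp M M₀ q h).2.2.2.1 g hg k (hH hk), ← rt_rt, b k hk, map_smul]
  · rw [← rt_sc, c]
  · rw [← rt_Tf, d p u h1 h2 h3, map_smul]

omit hH in
theorem Vb_W (hM : 3 ≤ M) (k : ℕ) {x : FT M (RR π)} (a : x ∈ Vb M π)
    (hU : x ∈ Iv O _ (Uq M M₀)) : W1 O _ M M₀ q (zR M π) k x ∈ Vb M π := by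
  have hz := ((hV.root M h.odd).2.2.2.2.1 π).pow
  have h2 : π ∣ 2 := hπ.dvd 2 (hV.root M h.odd).2.2.2.2.2.2.2.2.1
  have e : W1 O _ M M₀ q (zR M π) k x = W1 O _ M M₀ q (zR M π) 0 x := by
    obtain ⟨c, hc⟩ := ((Nat.odd_mul.1 (h.eq ▸ h.odd)).2.pow : Odd (q ^ k))
    obtain ⟨t, ht⟩ := h2
    have z2 : ∀ y : FT M (RR π), (2 * c) • y = 0 := fun y => by
      ext g n
      obtain ⟨s, hs⟩ := Ideal.Quotient.mk_surjective ((y g).coeff n)
      rw [Pi.smul_apply, map_nsmul, ← hs, ← map_nsmul, Pi.zero_apply, map_zero,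
        Ideal.Quotient.eq_zero_iff_mem, nsmul_eq_mul, Nat.cast_mul, Nat.cast_ofNat,
        ← map_ofNat (algebraMap O (AA O)), ht, map_mul, mul_assoc, mul_assoc]
      exact Ideal.mul_mem_right _ _ (Ideal.mem_span_singleton_self _)
    rw [W1_apply, W1_apply, hc, add_smul, z2, zero_add, pow_zero]
  exact ⟨e ▸ (hV.wv M M₀ q h hM).1 0 π hπ.ne x ⟨a.1, hU⟩, Rz.W_Od hV.wf1 h hz k hU a.2⟩

theorem Gd_W (hM : 3 ≤ M) (k : ℕ) {x : FT M (RR π)} (hx : x ∈ Gd π M H χ lam)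
    (hU : x ∈ Iv O _ (Uq M M₀)) : W1 O _ M M₀ q (zR M π) k x ∈ Gd π M H χ lam := by
  obtain ⟨a, b, c, d⟩ := mem_Gd.1 hx
  have hz := ((hV.root M h.odd).2.2.2.2.1 π).pow
  refine mem_Gd.2 ⟨Vb_W hV hπ h hM k a hU, fun g hg => ?_, fun s => ?_, fun p u h1 h2 h3 => ?_⟩
  · rw [← Rz.W_rt hV.wf1 h hz k hU (hH hg), b g hg, map_smul]
  · rw [← Rz.W_dg hV.wf1 h hz k hU ⟨0, by simp⟩, c]
  · rw [← Rz.W_Tf hV.wf1 h hz k hU 0 h3, d p u h1 h2 h3, map_smul]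

omit hH in
/-- the trace of `W x` vanishes, and `W x` is not invariant -/
theorem W_new (h3 : 3 ≤ M₀) {x : FT M (RR π)} (hx : x ∈ Vb M π) (hK : x ∈ Iv O _ (Kq M M₀))
    (h0 : x ≠ 0) (tz : ∀ f ∈ Vb M₀ π, ifl O _ h.dvd f = x → ∀ u : (ZMod M₀)ˣ,
      (u : ZMod M₀) = q → Tf O _ 0 q u f = 0) {s : GM M} (hs : IsS M M₀ s) :
    W1 O _ M M₀ q (zR M π) 1 x + Ts O _ M₀ q s (W1 O _ M M₀ q (zR M π) 1 x) = 0 ∧
      W1 O _ M M₀ q (zR M π) 1 x ∉ Iv O _ (Kq M M₀) := by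
  have hd := ((hV.descv M₀ M h.dvd h.odd h3).1 0 π hπ.ne).2.2.2
  obtain ⟨f, hf, rfl⟩ := hd.ge (⟨hx, hK⟩ : x ∈ Vb M π ⊓ Iv O _ (Kq M M₀))
  have hz := (hV.root M h.odd).2.2.2.2.1 π
  obtain ⟨c, hc⟩ := (hV.grp M M₀ q h).2.1
  obtain ⟨u, hu⟩ := Rz.ex_unit h
  have v3 := hV.vs3 M π h.odd hπ.ne
  have tc : TC (zR M π) (ifl O _ h.dvd f) :=
    v3.2.2.2.2.2.2.2.2.1 0 _ ((v3.2.2.2.2.2.2.1 0).1 hx.1)
  constructor
  · have e := ((hV.wf2 O _ M M₀ q _ h s c hz hs hc).2.2.2 u f hu (Rz.tc_down h tc)).2.2 0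
    rwa [tz f hf rfl u hu, map_zero, smul_zero] at e
  · intro hI
    have hM : 3 ≤ M := h3.trans (Nat.le_of_dvd h.odd.pos h.dvd)
    have m := Vb_W hV hπ h hM 1 hx (Rz.B_U (Rz.K_B hK))
    obtain ⟨f', hf', e⟩ := hd.ge (⟨m, hI⟩ : _ ∈ Vb M π ⊓ Iv O _ (Kq M M₀))
    have := (hV.ih M M₀ q 1 h π h3 hπ (-f') (neg_mem hf') f hf (by
      rw [map_neg, e, neg_add_cancel])).2
    exact h0 (by rw [this, map_zero])

end one

/-- **level raising on tuples** -/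
theorem raiseT (hV : Vr O) {π : O} (hπ : Unif π) {M : ℕ} (hM : 3 ≤ M) {ι : Type} [Fintype ι]
    [DecidableEq ι] (l M₀ : ι → ℕ) [∀ j, Fact (l j).Prime] [∀ j, Fintype (PG (ZMod (l j)))]
    (hl : Function.Injective l) (h : ∀ j, Sp M (M₀ j) (l j)) {H : Set (GM M)} {χ : GM M → O}
    {lam : ℕ → O} (hH : ∀ j, H ⊆ Kq M (l j)) {F : Type} [Field F] [CharP F 2] (rd : O → F)
    (hrd : Function.Surjective rd) (C : ∀ j, Ch (ZMod (l j)) F) {T W : Type} [Ring T]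
    [AddCommGroup W] [Module T W] (P : Pre F (fun j => ZMod (l j)) T W)
    (φ : Gd π M H χ lam →+ W) (inj : Function.Injective φ)
    (hρ : ∀ j g (x y : Gd π M H χ lam), (y : FT M (RR π)) = rt O _ (emb (h j) g) x →
      φ y = P.ρ j g (φ x))
    (hsc : ∀ (o : O) (x : Gd π M H χ lam), φ (o • x) = P.sc (rd o) (φ x))
    (J S₀ : Finset ι) (hS : S₀ ⊆ J) {v : FT M (RR π)} (hv : v ∈ Gd π M H χ lam) (h0 : v ≠ 0)
    (hB : ∀ j ∈ S₀, v ∈ Iv O _ (Bq M (M₀ j))) (hK : ∀ j, j ∉ S₀ → v ∈ Iv O _ (Kq M (M₀ j)))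
    (ram : ∀ j ∈ S₀, ∀ x ∈ Gd π M H χ lam, x ∈ Iv O _ (Kq M (M₀ j)) → x = 0)
    (h3 : ∀ j ∈ J, j ∉ S₀ → 3 ≤ M₀ j)
    (tz : ∀ j ∈ J, j ∉ S₀ → ∀ f ∈ Vb (M₀ j) π, ifl O _ (h j).dvd f ∈ Gd π M H χ lam →
      ∀ u : (ZMod (M₀ j))ˣ, (u : ZMod (M₀ j)) = l j → Tf O _ 0 (l j) u f = 0) :
    ∃ x : Gd π M H χ lam, φ x ∈ P.act.Y (XJ (fun j => bnP (ZMod (l j))) C J).v ∧ φ x ≠ 0 := by
  have mr : ∀ j g (x : Gd π M H χ lam), rt O _ (emb (h j) g) x ∈ Gd π M H χ lam :=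
    fun j g x => Gd_rt hV hπ (h j) (hH j) (emb_mem _ g) x.2
  have e1 : ∀ j g (x : Gd π M H χ lam), P.ρ j g (φ x) = φ ⟨_, mr j g x⟩ :=
    fun j g x => (hρ j g x _ rfl).symm
  have fG : ∀ j (x : Gd π M H χ lam), FxG P.act j (φ x) ↔
      (x : FT M (RR π)) ∈ Iv O _ (Kq M (M₀ j)) := fun j x => by
    rw [FxG, ← P.act.kill_It, P.kill_It, mem_Iv]
    refine ⟨fun e k hk => ?_, fun e g => ?_⟩
    · obtain ⟨g, rfl⟩ := (mem_Kq (h j)).1 hk
      exact congrArg Subtype.val (inj ((e1 j g x).symm.trans (e g)))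
    · rw [e1]
      exact congrArg φ (Subtype.ext (e _ (emb_mem _ g)))
  have fB : ∀ j (x : Gd π M H χ lam), (x : FT M (RR π)) ∈ Iv O _ (Bq M (M₀ j)) →
      FxB (fun j => bnP (ZMod (l j))) P.act j (φ x) := fun j x e => by
    rw [FxB, ← P.act.kill_Ib, P.kill_Ib]
    intro b hb
    rw [e1]
    exact congrArg φ (Subtype.ext (mem_Iv.1 e _ ((emb_B (h j)).2 hb)))
  obtain ⟨w, hw, ⟨x, rfl⟩, w0⟩ := raiseP (fun j => bnP (ZMod (l j))) C P.act
    (fun w => ∃ x, φ x = w) (by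
      rintro j r _ ⟨x, rfl⟩
      refine el_ind (p := fun r => ∃ y, φ y = P.act.al j r (φ x)) r (fun g => ?_) ?_ ?_
      · obtain ⟨g, rfl⟩ := QuotientGroup.mk_surjective g
        exact ⟨_, by rw [P.act.al_el, P.act_ρ, e1]⟩
      · rintro a b ⟨y, hy⟩ ⟨z, hz⟩
        exact ⟨y + z, by rw [map_add, map_add, LinearMap.add_apply, hy, hz]⟩
      · rintro c a ⟨y, hy⟩
        obtain ⟨o, rfl⟩ := hrd c
        exact ⟨o • y, by rw [hsc, P.act.al_smul, Module.End.mul_apply, hy]; rfl⟩)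
    J S₀ hS (v := φ ⟨v, hv⟩) ⟨_, rfl⟩
    (fun e => h0 (congrArg Subtype.val (inj (e.trans (map_zero φ).symm))))
    (fun j hj => fB j _ (hB j hj)) (fun j hj => (fG j _).2 (hK j hj)) (by
      rintro j hj _ ⟨x, rfl⟩ e
      rw [show x = 0 from Subtype.ext (ram j hj x x.2 ((fG j x).1 e)), map_zero]) (by
      rintro j hj hj' _ ⟨x, rfl⟩ x0 e
      have xK := (fG j x).1 e
      have hz := ((hV.root M (h j).odd).2.2.2.2.1 π).pow
      have mW : ∀ y : Gd π M H χ lam, (y : FT M (RR π)) ∈ Iv O _ (Kq M (M₀ j)) →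
          W1 O _ M (M₀ j) (l j) (zR M π) 1 y ∈ Gd π M H χ lam := fun y hy =>
        Gd_W hV hπ (h j) (hH j) hM 1 y.2 (Rz.B_U (Rz.K_B hy))
      obtain ⟨n1, n2⟩ := W_new hV hπ (h j) (h3 j hj hj') (mem_Gd.1 x.2).1 xK
        (fun e => x0 (by rw [show x = 0 from Subtype.ext e, map_zero]))
        (fun f hf e => tz j hj hj' f hf (e ▸ x.2)) (emb_w (h j))
      refine ⟨φ ⟨_, mW x xK⟩, ⟨_, rfl⟩, fB j _ (Rz.W_B hV.wf1 (h j) hz 1 hV.grp (Rz.K_B xK)),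
        ?_, fun e => n2 ((fG j _).1 e), fun k hk r hr => ?_⟩
      · rw [P.al_trB]
        simp only [e1]
        rw [← map_sum, ← map_add, ← map_zero φ]
        refine congrArg φ (Subtype.ext ?_)
        rw [Ts_eq (h j) O _ (emb_w (h j))] at n1
        rw [Submodule.coe_add, Submodule.coe_sum]
        exact n1
      · have kq : ∀ g, emb (h k) g ∈ Kq M (l j) := fun g => Kq_mono
          (((Nat.coprime_primes (h j).prime (h k).prime).2 fun e => hk (hl e).symm).dvd_of_dvd_mul_right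
            ((h k).eq ▸ dq (h j))) (emb_mem _ g)
        obtain ⟨y, yK, y1, y2⟩ : ∃ (y : Gd π M H χ lam)
            (yK : (y : FT M (RR π)) ∈ Iv O _ (Kq M (M₀ j))), P.act.al k r (φ x) = φ y ∧
            P.act.al k r (φ ⟨_, mW x xK⟩) = φ ⟨_, mW y yK⟩ := by
          clear hr
          refine el_ind (p := fun r => ∃ (y : Gd π M H χ lam)
            (yK : (y : FT M (RR π)) ∈ Iv O _ (Kq M (M₀ j))), P.act.al k r (φ x) = φ y ∧
            P.act.al k r (φ ⟨_, mW x xK⟩) = φ ⟨_, mW y yK⟩) r (fun g => ?_) ?_ ?_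
          · obtain ⟨g, rfl⟩ := QuotientGroup.mk_surjective g
            refine ⟨⟨_, mr k g x⟩, mem_Iv.2 fun a ha => ?_, by rw [P.act.al_el, P.act_ρ, e1], ?_⟩
            · show rt O _ a (rt O _ (emb (h k) g) x.1) = rt O _ (emb (h k) g) x.1
              rw [rt_rt, (hV.grp M _ _ (h j)).2.2.2.1 a ha _ (kq g), ← rt_rt, mem_Iv.1 xK a ha]
            · rw [P.act.al_el, P.act_ρ, e1]
              exact congrArg φ (Subtype.ext
                (Rz.W_rt hV.wf1 (h j) hz 1 (Rz.B_U (Rz.K_B xK)) (kq g)).symm)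
          · rintro a b ⟨y, yK, y1, y2⟩ ⟨z, zK, z1, z2⟩
            refine ⟨y + z, add_mem yK zK, by rw [map_add, map_add, LinearMap.add_apply, y1, z1], ?_⟩
            rw [map_add, LinearMap.add_apply, y2, z2, ← map_add]
            exact congrArg φ (Subtype.ext (map_add _ _ _).symm)
          · rintro c a ⟨y, yK, y1, y2⟩
            obtain ⟨o, rfl⟩ := hrd c
            refine ⟨o • y, Submodule.smul_mem _ o yK,
              by rw [hsc, P.act.al_smul, Module.End.mul_apply, y1]; rfl, ?_⟩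
            rw [P.act.al_smul, Module.End.mul_apply, y2, P.act_sc, ← hsc]
            exact congrArg φ (Subtype.ext (map_smul _ _ _).symm)
        have y0 : y = 0 := inj (by rw [← y1, hr, map_zero])
        subst y0
        rw [y2, ← map_zero φ]
        exact congrArg φ (Subtype.ext (map_zero _)))
  exact ⟨x, hw, w0⟩

end Vale.Agent.P022D.Fm
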