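import Vale.Agent.P022D.Gt.Main
import Vale.Agent.P022D.Loc.Defs
import Vale.Agent.P022.H20.Frob

/-!
# P022D, forms side: eigenvectors modulo the maximal ideal
-/

set_option linter.all false

open Matrix IsLocalRing

noncomputable section

namespace Vale.Agent.P022D.Fm.Sb

open Vale.Agent.P022 Vale.Agent.P022D.V Vale.Agent.P022.H853 Vale.Agent.P022D.Gt
open Vale.Agent.P027M.M (ze)
open Vale.Agent.P027M.S (mx)
open Vale.Agent.P022D.Sel (M2)

theorem cyc_onto (n : ℕ) [NeZero n] (u : (ZMod n)ˣ) : ∃ g : GQ, cyc n g = u := by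
  have hp := zt_prim n
  have hpos : 0 < n := Nat.pos_of_ne_zero (NeZero.ne n)
  have hcop : (u : ZMod n).val.Coprime n := ZMod.val_coe_unit_coprime u
  have hp2 : IsPrimitiveRoot (zt n ^ (u : ZMod n).val) n := hp.pow_of_coprime _ hcop
  have hconj : IsConjRoot ℚ (zt n ^ (u : ZMod n).val) (zt n) := by
    show minpoly ℚ _ = minpoly ℚ _
    rw [← Polynomial.cyclotomic_eq_minpoly_rat hp hpos,
      ← Polynomial.cyclotomic_eq_minpoly_rat hp2 hpos]
  have h1 : Algebra.IsAlgebraic ℚ Qb := AlgebraicClosure.isAlgebraic ℚ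
  have h2 : IsAlgClosure ℚ Qb := ⟨inferInstance, inferInstance⟩
  have h3 : IsGalois ℚ Qb := IsAlgClosure.isGalois ℚ Qb
  obtain ⟨g, hg⟩ := isConjRoot_iff_exists_algEquiv.1 hconj
  refine ⟨g, ?_⟩
  have h4 := cyc_spec g hp.pow_eq_one
  rw [hg] at h4
  have h6 := hp.pow_inj (ZMod.val_lt _) (ZMod.val_lt _) h4
  exact Units.ext (ZMod.val_injective n h6.symm)

/-- the Chinese remainder theorem for units -/
theorem crt {A B x y : ℕ} (h : Nat.Coprime A B) (hx : Nat.Coprime x A) (hy : Nat.Coprime y B) :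
    ∃ k : ℕ, Nat.Coprime k (A * B) ∧ k ≡ x [MOD A] ∧ k ≡ y [MOD B] := by
  obtain ⟨k, h1, h2⟩ := Nat.chineseRemainder h x y
  refine ⟨k, Nat.Coprime.mul_right ?_ ?_, h1, h2⟩
  · rw [Nat.Coprime, h1.gcd_eq]; exact hx
  · rw [Nat.Coprime, h2.gcd_eq]; exact hy

theorem cyc_four {M : ℕ} [NeZero M] (ho : Odd M) (a : (ZMod M)ˣ) :
    ∃ g : GQ, cyc M g = a ∧ ∀ ζ : Qb, ζ ^ 2 ^ (1 + 1) = 1 → g ζ = ζ ^ 1 := by
  have hc : Nat.Coprime M 4 := Nat.Coprime.pow_right 2 ho.coprime_two_right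
  obtain ⟨k, h1, h2, h3⟩ := crt hc (ZMod.val_coe_unit_coprime a) (Nat.coprime_one_left 4)
  haveI : NeZero (M * 4) := ⟨mul_ne_zero (NeZero.ne M) (by norm_num)⟩
  obtain ⟨g, hg⟩ := cyc_onto (M * 4) (ZMod.unitOfCoprime k h1)
  have e : (cyc (M * 4) g : ZMod (M * 4)).val ≡ k [MOD M * 4] := by
    rw [hg, ZMod.coe_unitOfCoprime, ZMod.val_natCast]
    exact Nat.mod_modEq _ _
  refine ⟨g, Units.ext (ZMod.val_injective M ?_), fun ζ hζ => ?_⟩
  · have e1 := ((cyc_mod (m := M * 4) (dvd_mul_right M 4) g).symm.trans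
      (e.of_mul_right 4)).trans h2
    exact Nat.ModEq.eq_of_lt_of_lt e1 (ZMod.val_lt _) (ZMod.val_lt _)
  · have e1 := ((cyc_mod (m := M * 4) (dvd_mul_left 4 M) g).symm.trans
      (e.of_mul_left M)).trans h3
    rw [cyc_spec (m := 4) g hζ, Nat.ModEq.eq_of_lt_of_lt e1 (ZMod.val_lt _) (by norm_num)]

theorem trm {A : Type} [CommRing A] (ρ : GQ →* M2 A) (g h : GQ) :
    (ρ g).trace * (ρ h).trace = (ρ (g * h)).trace + (ρ h).det * (ρ (g * h⁻¹)).trace := by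
  have e : ρ g = ρ (g * h⁻¹) * ρ h := by rw [← map_mul, inv_mul_cancel_right]
  rw [map_mul ρ g h, e]
  simp only [Matrix.trace_fin_two, Matrix.det_fin_two, Matrix.mul_apply, Fin.sum_univ_two]
  ring

theorem tr_pow {F : Type} [Field F] [CharP F 2] (a : M2 F) (h : a.trace = 0) (k : ℕ) :
    (a ^ k).trace = 0 := by
  have h2 : (2 : F) = 0 := CharTwo.two_eq_zero
  have e : a * a = (-a.det) • (1 : M2 F) := by
    rw [Matrix.trace_fin_two] at h
    ext i j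
    fin_cases i <;> fin_cases j <;>
      simp [Matrix.mul_apply, Fin.sum_univ_two, Matrix.det_fin_two]
    · linear_combination a 0 0 * h
    · linear_combination a 0 1 * h
    · linear_combination a 1 0 * h
    · linear_combination a 1 1 * h
  induction k using Nat.twoStepInduction with
  | zero => rw [pow_zero, Matrix.trace_fin_two]; simpa [one_add_one_eq_two] using h2
  | one => rwa [pow_one]
  | more k ih _ =>
    rw [pow_add, pow_two, e, Matrix.mul_smul, mul_one, Matrix.trace_smul, ih, smul_zero]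

section dat

variable {O F : Type} [CommRing O] [IsLocalRing O] [Field F] {S : R.Dat O F} {L : Loc.Pl O}

theorem red_tr (hL : L.Ok S) (g : GQ) : S.red (L.r g).trace = (mx S.rb g).trace := by
  rw [← hL.lift g, Matrix.trace_fin_two, Matrix.trace_fin_two, map_add]
  rfl

theorem red_det (hL : L.Ok S) (g : GQ) : S.red (L.r g).det = 1 := by
  rw [← hL.det g, ← hL.lift g, RingHom.map_det]
  rfl

theorem dvd_of (hL : L.Ok S) {π : O} (hπ : Unif π) {a b : O} (h : S.red a = S.red b) :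
    π ∣ a - b := hπ.dvd _ ((hL.ker _).1 (by rw [map_sub, h, sub_self]))

theorem sm_eq (hL : L.Ok S) {π : O} (hπ : Unif π) {a b : O} (h : S.red a = S.red b) {X : Type}
    [AddCommGroup X] [Module O X] {v : X} (hv : π • v = 0) : a • v = b • v := by
  obtain ⟨c, hc⟩ := dvd_of hL hπ h
  rw [← sub_eq_zero, ← sub_smul, hc, mul_comm, mul_smul, hv, smul_zero]

/-- a prime with non zero residual trace -/
theorem ex_l0 [CharP F 2] (hL : L.Ok S) (A : Finset ℕ) :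
    ∃ (l : ℕ) (φ : GQ), l.Prime ∧ l ∉ A ∧ IsFrob l φ ∧ (mx S.rb φ).trace ≠ 0 := by
  obtain ⟨l, φ, k, h1, h2, h3, h4⟩ := G.frob S.rb.ker inferInstance hL.dh.opn S.g0 A
  refine ⟨l, φ, h1, h2, h3, fun h => S.dne ?_⟩
  rw [MonoidHom.mem_ker, map_mul, map_inv, inv_mul_eq_one, map_pow] at h4
  have e := tr_pow _ h k
  rw [mx, ← Units.val_pow_eq_pow_val, ← h4, Matrix.trace_fin_two] at e
  exact CharTwo.add_eq_zero.1 e

variable [Co O]

theorem two_sm {π : O} (hπ : Unif π) {X : Type} [AddCommGroup X] [Module O X] {v : X}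
    (hv : π • v = 0) : 2 • v = 0 := by
  obtain ⟨c, hc⟩ := hπ.dvd 2 fun h => by
    obtain ⟨u, hu⟩ := h.exists_right_inv
    have e := congrArg (Co.j : O →+* ℂ) hu
    rw [map_mul, map_one, map_ofNat] at e
    exact Co.two (O := O) (eq_inv_of_mul_eq_one_right e ▸ Co.mem u)
  rw [← Nat.cast_smul_eq_nsmul O, Nat.cast_ofNat, hc, mul_comm, mul_smul, hv, smul_zero]

/-- **eigenvectors for almost all Hecke operators** -/
theorem eig [Finite F] [CharP F 2] (hG : GT O) (hL : L.Ok S) {π : O} (hπ : Unif π) {M i : ℕ}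
    [NeZero M] (ho : Odd M) (h3 : 3 ≤ M) (A : Finset ℕ) (X : Submodule O (FT M (RD O)))
    (le : X ≤ XD O M i) (h0 : ∀ v ∈ X, π • v = 0)
    (hT : ∀ (p : ℕ) φ, p.Prime → p ∉ A → ¬ p ∣ 2 * M → IsFrob p φ → ∀ v ∈ X,
      T2 O _ i p (cl M p) v = (L.r φ).trace • v ∧ S2 O _ i p (cl M p) v = v) :
    (∀ (p : ℕ) (u : (ZMod M)ˣ) φ, p.Prime → p ≠ 2 → (u : ZMod M) = p → IsFrob p φ → ∀ v ∈ X,
      T2 O _ i p u v = (L.r φ).trace • v) ∧ (∀ a, ∀ v ∈ X, rt O _ (dg a a) v = v) ∧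
    ∀ (l : ℕ) σ g, l.Prime → ¬ l ∣ 2 * M → G.Inert l σ →
      (mx S.rb (g * σ)).trace ≠ (mx S.rb g).trace → X = ⊥ := by
  classical
  have M0 := NeZero.ne M
  obtain ⟨l, φ, h1, h2, h4, h5⟩ := ex_l0 hL (A ∪ (2 * M).primeFactors)
  rw [Finset.mem_union, not_or] at h2
  have h6 := not_mem_pf M0 h1 h2.2
  obtain ⟨t, d, H⟩ := hG M i l ⟨ho, h3, h1, h6⟩
  haveI := Fintype.ofFinite F
  have lo : X ≤ Xo O M i l := fun v hv => by
    refine ⟨le hv, Fintype.card F - 1, Nat.sub_pos_of_lt Fintype.one_lt_card, ?_⟩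
    have e : ∀ n : ℕ, (T2 O (RD O) i l (cl M l) ^ n) v = (L.r φ).trace ^ n • v := fun n => by
      induction n with
      | zero => rw [pow_zero, pow_zero, one_smul, Module.End.one_apply]
      | succ n ih =>
        rw [pow_succ', Module.End.mul_apply, ih, map_smul, (hT l φ h1 h2.1 h6 h4 v hv).1,
          smul_smul, pow_succ]
    rw [e, sm_eq hL hπ (b := 1) _ (h0 v hv), one_smul]
    rw [map_pow, red_tr hL, FiniteField.pow_card_sub_one_eq_one _ h5, map_one]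
  have x0 : ∀ v : X, π • v = 0 := fun v => Subtype.ext (h0 v v.2)
  have law : G.Law (fun g => algebraMap O (Module.End O X) (L.r g).trace)
      (fun _ => (1 : Module.End O X)) := by
    refine ⟨?_, fun g h => ?_, fun g h => ?_, rfl, fun _ _ => (mul_one _).symm, fun v => ?_⟩
    · rw [map_one, Matrix.trace_one, Fintype.card_fin, Nat.cast_ofNat, map_ofNat]
    · rw [map_mul, map_mul, Matrix.trace_mul_comm]
    · rw [← map_mul, one_mul, ← map_add]
      refine LinearMap.ext fun v => ?_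
      rw [Module.algebraMap_end_apply, Module.algebraMap_end_apply]
      refine sm_eq hL hπ ?_ (x0 v)
      rw [trm, map_add, map_add, map_mul S.red, red_det hL, one_mul]
    · refine ⟨S.rb.ker, inferInstance, hL.dh.opn, fun u hu => ⟨rfl, fun g => ?_⟩⟩
      rw [Module.algebraMap_end_apply, Module.algebraMap_end_apply]
      refine sm_eq hL hπ ?_ (x0 v)
      rw [red_tr hL, red_tr hL, mx, map_mul, MonoidHom.mem_ker.1 hu, mul_one]
  have nat := law.nat H.law (Submodule.inclusion lo).toAddMonoidHom (A ∪ (2 * M).primeFactors)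
    (fun p ψ a b c v => by
      rw [Finset.mem_union, not_or] at b
      have m := not_mem_pf M0 a b.2
      have e := hT p ψ a b.1 m c v v.2
      exact ⟨Subtype.ext (e.1.symm.trans
          (H.frT p _ ψ a (nd2 a m).1 (nd2 a m).2 c (Submodule.inclusion lo v)).symm),
        Subtype.ext (e.2.symm.trans
          (H.frS p _ ψ a (nd2 a m).1 (nd2 a m).2 c (Submodule.inclusion lo v)).symm)⟩)
  have n1 : ∀ g v (hv : v ∈ X), (t g ⟨v, lo hv⟩ : FT M (RD O)) = (L.r g).trace • v :=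
    fun g v hv => (congrArg Subtype.val (nat g ⟨v, hv⟩).1).symm
  have n2 : ∀ g v (hv : v ∈ X), (d g ⟨v, lo hv⟩ : FT M (RD O)) = v :=
    fun g v hv => (congrArg Subtype.val (nat g ⟨v, hv⟩).2).symm
  refine ⟨fun p u ψ a b c e v hv => ?_, fun a v hv => ?_, fun p σ g a b c e => ?_⟩
  · rw [← n1 ψ v hv, H.frT p u ψ a b c e]
  · obtain ⟨g, rfl, hg⟩ := cyc_four ho a
    have e := H.det 1 1 g ⟨v, lo hv⟩ (Subtype.ext (two_sm hπ (h0 v hv))) odd_one hg
    rw [n2 g v hv, S2_one] at e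
    exact e.symm
  · refine (Submodule.eq_bot_iff _).2 fun v hv => ?_
    have e1 := n1 (g * σ) v hv
    rw [(H.unr p a b σ c).2 g, n1 g v hv, ← sub_eq_zero, ← sub_smul] at e1
    have hu : IsUnit ((L.r g).trace - (L.r (g * σ)).trace) := by
      by_contra hn
      have := (hL.ker _).2 hn
      rw [map_sub, red_tr hL, red_tr hL, sub_eq_zero] at this
      exact e this.symm
    exact (hu.smul_eq_zero).1 e1

end dat

section gen

variable {O : Type} [CommRing O] [Co O]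

theorem z_pow {N : ℕ} (hN : N ≠ 0) {z : O} (hz : Co.j z = ze N 1) : z ^ N = 1 := by
  refine Co.inj ?_
  rw [map_pow, hz, map_one, ze, Int.cast_one, mul_one]
  exact (Complex.isPrimitiveRoot_exp N hN).pow_eq_one

theorem pow_mod {N a b : ℕ} {z : O} (hz : z ^ N = 1) (h : a ≡ b [MOD N]) : z ^ a = z ^ b := by
  rw [← Nat.div_add_mod a N, ← Nat.div_add_mod b N, h, pow_add, pow_add, pow_mul, pow_mul, hz,
    one_pow, one_pow]

theorem odd_sm {X : Type} [AddCommGroup X] {v : X} (h : 2 • v = 0) {n : ℕ} (hn : Odd n) :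
    n • v = v := by
  obtain ⟨k, rfl⟩ := hn
  rw [add_smul, mul_comm, mul_smul, h, smul_zero, zero_add, one_smul]

theorem ep_eq {M : ℕ} {v : FT M (RD O)} (h : 2 • v = 0) (h1 : rt O _ (dg (-1) (-1)) v = v)
    (k : ℕ) : ep O _ M k v = v := by
  rw [ep_apply, h1]
  rcases neg_one_pow_eq_or ℤ k with e | e
  · rw [e, one_smul]
  · rw [e, neg_smul, one_smul, neg_eq_iff_add_eq_zero, ← two_nsmul, h]

/-- the bound for the divisible carrier -/
theorem gen1 (hE : GEN O) (hD : DIV O) (hP : PAR O) (r : ℕ) : ∃ b : ℕ, ∀ (M N i : ℕ) (l : List ℕ)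
    (z π : O), Odd M → 3 ≤ N → M = N * l.prod → l.Nodup → (∀ q ∈ l, q.Prime ∧ ¬ q ∣ N) →
    l.length = r → Co.j z = ze N 1 → Unif π → ∀ (lam : ℕ → O) (Y : Submodule O (FT M (RD O))),
    Y ≤ XD O M i ⊓ Wh O _ M z ⊓ Iv O _ (Bq M N) → (∀ v ∈ Y, π • v = 0) →
    (∀ a, ∀ v ∈ Y, rt O _ (dg a a) v = v) →
    (∀ (p : ℕ) (u : (ZMod M)ˣ), p.Prime → p ≠ 2 → (u : ZMod M) = p → ∀ v ∈ Y,
      T2 O _ i p u v = lam p • v) →
    ∃ s : Finset (FT M (RD O)), s.card ≤ b ∧ Submodule.span O (s : Set _) = Y := by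
  classical
  obtain ⟨b, hb⟩ := hE r
  refine ⟨b, fun M N i l z π ho h3 eM nd pr len hz hπ lam Y le h0 sc hT => ?_⟩
  have M3 : 3 ≤ M := h3.trans (Nat.le_of_dvd ho.pos ⟨_, eM⟩)
  obtain ⟨d1, d2, -, d4, -⟩ := hD M ho M3
  have inj := d1 π hπ.ne
  obtain ⟨c, hc⟩ : π ∣ 2 := hπ.dvd 2 fun h => by
    obtain ⟨u, hu⟩ := h.exists_right_inv
    have e := congrArg (Co.j : O →+* ℂ) hu
    rw [map_mul, map_one, map_ofNat] at e
    exact Co.two (O := O) (eq_inv_of_mul_eq_one_right e ▸ Co.mem u)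
  have t2 : ∀ v ∈ Y, 2 • v = 0 := fun v hv => by
    rw [← Nat.cast_smul_eq_nsmul O, Nat.cast_ofNat, hc, mul_comm, mul_smul, h0 v hv, smul_zero]
  have e1 : ∀ v ∈ Y, ep O _ M (i + 1) v = v := fun v hv => ep_eq (t2 v hv) (sc _ v hv) _
  have sur : ∀ v ∈ Y, ∃ w ∈ Vb M π, ml O M (dv π) w = v := fun v hv => by
    have m := ((d2 (i + 1) π hπ.ne).2 v).1 ⟨(d4 i v (le hv).1.1).2.2.2 (e1 v hv), h0 v hv⟩
    rwa [(hP M ho M3).2 (i + 1) π ⟨c, hc⟩] at m
  obtain ⟨s, h1, h2⟩ := hb M N l z π ho h3 eM nd pr len hz hπ lam (fun _ => 1)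
    (Y.comap (ml O M (dv π))) (fun w hw => by
      have hw' : ml O M (dv π) w ∈ Y := hw
      obtain ⟨w', a, e⟩ := sur _ hw'
      refine ⟨⟨⟨inj e ▸ a, fun x => inj ?_⟩, mem_Iv.2 fun h hh => inj ?_⟩, ?_⟩
      · rw [map_smul, ml_rt]
        exact (le hw').1.2 x
      · rw [ml_rt]
        exact mem_Iv.1 (le hw').2 h hh
      · rintro _ ⟨a, rfl⟩
        refine inj ?_
        rw [one_smul, ml_rt]
        exact sc a _ hw')
    (fun p u hp p2 hu w hw => inj (by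
      have hw' : ml O M (dv π) w ∈ Y := hw
      have o := hp.odd_of_ne_two p2
      rw [ml_Tf, map_smul, ← hT p u hp p2 hu _ hw', T2_apply, Tf_apply, pw_apply, e1 _ hw',
        sub_self, smul_zero, add_zero, pow_zero, one_smul, odd_sm _ o.pow]
      rw [← map_nsmul, t2 _ hw', map_zero]))
  refine ⟨s.image (ml O M (dv π)), Finset.card_image_le.trans h1, ?_⟩
  rw [Finset.coe_image, ← Submodule.map_span, h2]
  exact Submodule.map_comap_eq_of_le fun v hv => (sur v hv).elim fun w h => ⟨w, h.2⟩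

theorem cast_unit {M M' k : ℕ} (h : M' ∣ M) (hk : Nat.Coprime k M) (a : (ZMod M')ˣ)
    (e : k ≡ (a : ZMod M').val [MOD M']) [NeZero M'] :
    Units.map (ZMod.castHom h (ZMod M') : ZMod M →* ZMod M') (ZMod.unitOfCoprime k hk) = a :=
  Units.ext ((um_coe h (ZMod.coe_unitOfCoprime k hk)).trans (by
    rw [(ZMod.natCast_eq_natCast_iff _ _ _).2 e, ZMod.natCast_zmod_val]))

theorem cg_nat {M N a b : ℕ} (h : a ≡ b [MOD N]) : Cg M N (a : ZMod M) (b : ZMod M) := by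
  obtain ⟨c, hc⟩ := h.symm.dvd
  refine ⟨(c : ZMod M), ?_⟩
  have e := congrArg (Int.cast : ℤ → ZMod M) hc
  push_cast at e
  linear_combination e

theorem nat_cg {M N : ℕ} [NeZero M] (hN : N ∣ M) {x : ZMod M} {b : ℕ} (h : Cg M N x b) :
    x.val ≡ b [MOD N] := by
  obtain ⟨t, ht⟩ := h
  rw [← ZMod.natCast_eq_natCast_iff, ZMod.natCast_val]
  have e := congrArg (ZMod.castHom hN (ZMod N)) ht
  rwa [map_add, map_mul, map_natCast, map_natCast, ZMod.natCast_self, zero_mul, add_zero] at e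

/-- units which are `1` modulo `N` lift to units which are `1` modulo `N₀` -/
theorem lift_unit {N₀ N Q : ℕ} [NeZero (N * Q)] (hc : Nat.Coprime N₀ Q) (hN : N ∣ N₀)
    (h : N * Q ∣ N₀ * Q) (a : (ZMod (N * Q))ˣ) (ha : Cg (N * Q) N a 1) :
    ∃ a' : (ZMod (N₀ * Q))ˣ, Cg (N₀ * Q) N₀ a' 1 ∧
      Units.map (ZMod.castHom h (ZMod (N * Q)) : ZMod (N₀ * Q) →* ZMod (N * Q)) a' = a := by
  obtain ⟨k, h1, h2, h3⟩ := crt hc (Nat.coprime_one_left N₀)
    ((ZMod.val_coe_unit_coprime a).coprime_dvd_right (dvd_mul_left Q N))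
  refine ⟨ZMod.unitOfCoprime k h1, ?_, cast_unit h h1 a ?_⟩
  · rw [ZMod.coe_unitOfCoprime, ← Nat.cast_one]
    exact cg_nat h2
  · rw [← Nat.cast_one] at ha
    exact (Nat.modEq_and_modEq_iff_modEq_mul (hc.coprime_dvd_left hN)).1
      ⟨(h2.of_dvd hN).trans (nat_cg (dvd_mul_right N Q) ha).symm, h3⟩

theorem Bq_dec {M N : ℕ} {g : GM M} (hg : g ∈ Bq M N) : ∃ (y : ZMod M) (a d : (ZMod M)ˣ),
    Cg M N a 1 ∧ Cg M N d 1 ∧ g = un ((N : ZMod M) * y) * dg a d := by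
  obtain ⟨h1, h2⟩ := hg
  have e := (Matrix.GeneralLinearGroup.det g).isUnit
  rw [Matrix.GeneralLinearGroup.val_det_apply, Matrix.det_fin_two, h2, mul_zero, sub_zero] at e
  obtain ⟨a, ha⟩ := isUnit_of_mul_isUnit_left e
  obtain ⟨d, hd⟩ := isUnit_of_mul_isUnit_right e
  obtain ⟨y, hy⟩ := h1 0 1
  refine ⟨y * (d⁻¹ : (ZMod M)ˣ), a, d, ha ▸ h1 0 0, hd ▸ h1 1 1, Units.ext ?_⟩
  rw [Units.val_mul, un_coe, dg_coe]
  ext i j
  fin_cases i <;> fin_cases j <;> simp [Matrix.mul_apply, Fin.sum_univ_two, ha, h2]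
  · rw [hy, mul_assoc, mul_assoc, Units.inv_mul, mul_one]
    simp
  · exact hd.symm

variable {F : Type} [IsLocalRing O] [Field F] [Finite F] [CharP F 2] {S : R.Dat O F}
  {L : Loc.Pl O}

/-- **the bound for the socle** -/
theorem genD (hE : GEN O) (hD : DIV O) (hP : PAR O) (hV : DESCV O) (hG : GT O) (r : ℕ) :
    ∃ b : ℕ, ∀ (M N₀ N i c : ℕ) (l : List ℕ) (z π : O) (A : Finset ℕ), L.Ok S → Unif π →
    Odd M → M = N₀ * l.prod → N ∣ N₀ → 3 ≤ N → l.Nodup → (∀ q ∈ l, q.Prime ∧ ¬ q ∣ N₀) →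
    l.length = r → Co.j z = ze N 1 → Nat.Coprime c N → ∀ X : Submodule O (FT M (RD O)),
    X ≤ XD O M i ⊓ Iv O _ (Kq M (N * l.prod)) ⊓ Wh O _ M (z ^ c) → (∀ v ∈ X, π • v = 0) →
    (∀ a d : (ZMod M)ˣ, Cg M N₀ a 1 → Cg M N₀ d 1 → ∀ v ∈ X, rt O _ (dg a d) v = v) →
    (∀ (p : ℕ) φ, p.Prime → p ∉ A → ¬ p ∣ 2 * M → IsFrob p φ → ∀ v ∈ X,
      T2 O _ i p (cl M p) v = (L.r φ).trace • v ∧ S2 O _ i p (cl M p) v = v) →
    ∃ s : Finset (FT M (RD O)), s.card ≤ b ∧ Submodule.span O (s : Set _) = X := by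
  classical
  obtain ⟨b, hb⟩ := gen1 hE hD hP r
  refine ⟨b, fun M N₀ N i c l z π A hL hπ ho eM dN h3 nd pr len hz hc X le h0 hd hT => ?_⟩
  subst eM
  have h : N * l.prod ∣ N₀ * l.prod := Nat.mul_dvd_mul_right dN _
  have ho' : Odd (N * l.prod) := ho.of_dvd_nat h
  haveI : NeZero (N * l.prod) := ⟨ho'.pos.ne'⟩
  have M3 : 3 ≤ N * l.prod := h3.trans (Nat.le_of_dvd ho'.pos (dvd_mul_right _ _))
  have cop : Nat.Coprime N₀ l.prod := Nat.coprime_list_prod_right_iff.2 fun q hq =>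
    (((pr q hq).1.coprime_iff_not_dvd).2 (pr q hq).2).symm
  have inj := ifl_inj (S := O) (R := RD O) h ho
  have eD := ((hV _ _ h ho M3).2 i).2
  have sur : ∀ v ∈ X, ∃ w ∈ XD O (N * l.prod) i, ifl O _ h w = v := fun v hv =>
    eD.ge (le hv).1
  set X' := X.comap (ifl O (RD O) h) with hX'
  have mX : ∀ {w}, w ∈ X' → ifl O _ h w ∈ X := fun hw => hw
  have le' : X' ≤ XD O (N * l.prod) i := fun w hw => by
    obtain ⟨w', a, e⟩ := sur _ (mX hw)
    exact inj e ▸ a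
  have h0' : ∀ w ∈ X', π • w = 0 := fun w hw => inj (by rw [map_smul, h0 _ (mX hw), map_zero])
  obtain ⟨e1, e2, -⟩ := eig hG hL hπ ho' M3 (A ∪ (2 * (N₀ * l.prod)).primeFactors) X' le' h0'
    (fun p φ a b m e w hw => by
      rw [Finset.mem_union, not_or] at b
      have m' := not_mem_pf ho.pos.ne' a b.2
      have k := hT p φ a b.1 m' e _ (mX hw)
      exact ⟨inj (by rw [ifl_T2 h i (nd2 a m').2 (nd2 a m).2, k.1, map_smul]),
        inj (by rw [ifl_S2 h i (nd2 a m').2 (nd2 a m).2, k.2])⟩)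
  have zN := z_pow (by omega) hz
  have wh : ∀ w ∈ X', w ∈ Wh O _ (N * l.prod) (z ^ c) := fun w hw x => inj (by
    rw [map_smul, ← map_natCast (ZMod.castHom h (ZMod (N * l.prod))), ← pr_un, ifl_rt]
    exact (le (mX hw)).2 x)
  have tor : ∀ a d : (ZMod (N * l.prod))ˣ, Cg _ N (a : ZMod (N * l.prod)) 1 →
      Cg _ N (d : ZMod (N * l.prod)) 1 → ∀ w ∈ X', rt O _ (dg a d) w = w := fun a d ha hd' w hw => by
    obtain ⟨a', a1, rfl⟩ := lift_unit cop dN h a ha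
    obtain ⟨d', d1, rfl⟩ := lift_unit cop dN h d hd'
    refine inj ?_
    rw [← pr_dg, ifl_rt, hd a' d' a1 d1 _ (mX hw)]
  obtain ⟨k, k1, k2, -⟩ := crt (cop.coprime_dvd_left dN) hc (Nat.coprime_one_left l.prod)
  let a := ZMod.unitOfCoprime k k1
  have wh' : ∀ w ∈ X', rt O _ (dg a 1) w ∈ Wh O _ (N * l.prod) z := fun w hw x => by
    have e := wh w hw ((x : ZMod (N * l.prod)) * ((a⁻¹ * 1 : (ZMod _)ˣ) : ZMod _)).val
    rw [ZMod.natCast_zmod_val, ← pow_mul] at e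
    rw [rt_rt, un_dg', ← rt_rt, ← map_smul]
    refine congrArg _ (Eq.trans ?_ e)
    congr 1
    refine pow_mod zN (Nat.ModEq.trans ?_ (k2.mul_right _))
    refine Nat.ModEq.of_mul_right l.prod ((ZMod.natCast_eq_natCast_iff _ _ _).1 ?_)
    rw [Nat.cast_mul, ZMod.natCast_zmod_val, mul_one, ← ZMod.coe_unitOfCoprime k k1,
      mul_left_comm, Units.mul_inv, mul_one]
  obtain ⟨s, s1, s2⟩ := hb (N * l.prod) N i l z π ho' h3 rfl nd
    (fun q hq => ⟨(pr q hq).1, fun e => (pr q hq).2 (e.trans dN)⟩) len hz hπ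
    (fun p => (L.r (Classical.epsilon (IsFrob p))).trace)
    (X'.map (rt O (RD O) (dg a 1)).toLinearMap)
    (by
      rintro _ ⟨w, hw, rfl⟩
      refine ⟨⟨((hD _ ho' M3).2.2.2.1 i w (le' hw)).2.1 _, wh' w hw⟩, mem_Iv.2 fun g hg => ?_⟩
      obtain ⟨y, a', d', a1, d1, rfl⟩ := Bq_dec hg
      have e := wh' w hw (N * y.val)
      rw [pow_mul, zN, one_pow, one_smul, Nat.cast_mul, ZMod.natCast_zmod_val] at e
      change rt O _ _ (rt O _ (dg a 1) w) = rt O _ (dg a 1) w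
      rw [← rt_rt, rt_rt (dg a' d'), dg_comm, ← rt_rt, tor a' d' a1 d1 w hw, e])
    (by
      rintro _ ⟨w, hw, rfl⟩
      rw [← map_smul, h0' w hw, map_zero])
    (by
      rintro x _ ⟨w, hw, rfl⟩
      change rt O _ _ (rt O _ (dg a 1) w) = rt O _ (dg a 1) w
      rw [← rt_sc, e2 x w hw])
    (by
      rintro p u hp p2 hu _ ⟨w, hw, rfl⟩
      change T2 O _ i p u (rt O _ (dg a 1) w) = _ • rt O _ (dg a 1) w
      rw [← rt_T2, e1 p u _ hp p2 hu (Classical.epsilon_spec (H20.exists_isFrob hp)) w hw,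
        map_smul])
  let Φ := (ifl O (RD O) h).comp (rt O (RD O) (dg a 1)⁻¹).toLinearMap
  refine ⟨s.image Φ, Finset.card_image_le.trans s1, ?_⟩
  have e : ∀ w, Φ (rt O (RD O) (dg a 1) w) = ifl O _ h w := fun w => by
    change ifl O _ h (rt O _ _ (rt O _ _ w)) = _
    rw [rt_rt, inv_mul_cancel, rt_one]
  rw [Finset.coe_image, ← Submodule.map_span, s2]
  apply le_antisymm
  · rintro _ ⟨_, ⟨w, hw, rfl⟩, rfl⟩
    exact (e w).symm ▸ mX hw
  · intro v hv
    obtain ⟨w, -, rfl⟩ := sur v hv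
    exact ⟨_, ⟨w, hv, rfl⟩, e w⟩

end gen

end Vale.Agent.P022D.Fm.Sb
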