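import Vale.Agent.P022D.Fm.Rows
import Vale.Agent.P022D.Fm.Basic

/-!
# P022D, forms side: row URF
-/

set_option linter.all false

open scoped MatrixGroups

noncomputable section

namespace Vale.Agent.P022D.Fm

open Vale.Agent.P022 Vale.Agent.P022D.V Vale.Agent.P027M.M
open Vale.Agent.P022D.As (Tg cc tt dd yy)

variable {O F : Type} [CommRing O] [IsLocalRing O] [Co O] [Field F] [CharP F 2] {U : Su O F}
  [hC : ∀ l : U.L.C, Fact l.1.Prime]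

namespace Urf

theorem lm (hU : U.Ok) {r n : ℕ} {q : Fin r → ℕ} (P : Lq U r n q) : U.Lm P.M := by
  refine ⟨Lv.odd hU P.lv, hU.three, P.lv.dvd, ?_⟩
  have e : P.M / U.N = ∏ i, q i :=
    Nat.div_eq_of_eq_mul_right (Nat.pos_of_ne_zero hU.Nne) P.lv.eq
  rw [e]
  exact Lv.cop hU P.lv

theorem ev_tt {r n : ℕ} {q : Fin r → ℕ} (P : Lq U r n q) (g : GQ) : P.ev (tt g) = P.X.t g :=
  MvPolynomial.eval₂Hom_X' _ _ _

theorem ev_dd {r n : ℕ} {q : Fin r → ℕ} (P : Lq U r n q) (g : GQ) :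
    P.ev (dd g) = (P.X.d g : U.B P.M) :=
  MvPolynomial.eval₂Hom_X' _ _ _

theorem inert (hU : U.Ok) {l : ℕ} (hl : l ∈ U.L.W ∪ U.L.C) : G.Inert l (U.L.τ l) :=
  ⟨U.L.P l, (hU.ok.hP l hl).1, (hU.ok.hP l hl).2, (hU.ok.tm l hl).tau⟩

variable {Cc : ∀ l : U.L.C, Rep.Ch (ZMod l.1) F}

/-- outside `J` the vectors are invariant -/
theorem inv (hD : DIC U Cc) {M n : ℕ} (hM : U.Lm M) {X : Dt U M n} (hX : X.Ok)
    {I : Rep.Tu F U.Gam} {l : U.L.C} (hI : I l = Rep.It F (U.Gam l)) {v : U.GG M}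
    (hv : v ∈ X.Y1 I) : (v : AM O M) ∈ Iv O (RD O) (Kq M (M / l.1)) := by
  obtain ⟨w, hw, rfl⟩ := hv
  obtain ⟨h1, h2, -⟩ := hD M n hM X hX
  have h3 := (X.E.kill_It l w).1 (hI ▸ X.E.mem_Y.1 hw l)
  refine V.Cyc.mem_Iv.2 fun k hk => ?_
  obtain ⟨g, rfl⟩ := (Rep.mem_Kq (h1 l)).1 hk
  exact (h2 l (h1 l) g w).symm.trans (by rw [h3]; rfl)

end Urf

/-- **row URF** -/
theorem urfC (hU : U.Ok) {Cc : ∀ l : U.L.C, Rep.Ch (ZMod l.1) F} (hD : DIC U Cc) :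
    URF U Cc := by
  intro r n q P J l hl g w
  have hM := Urf.lm hU P
  have h := P.ok.op.ur _ _ ((hD _ _ hM _ P.ok).1 l) _
    (Urf.inert hU (Finset.mem_union_right _ l.2)) (show P.X.Y _ from w).1
    (Urf.inv hD hM P.ok (Rep.XJ_out _ _ hl) (show P.X.Y _ from w).2.1) g
  refine Subtype.ext ?_
  change P.ev (tt _) • (show P.X.Y _ from w).1 = P.ev (tt g) • (show P.X.Y _ from w).1
  rw [Urf.ev_tt, Urf.ev_tt]
  exact h

end Vale.Agent.P022D.Fm
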