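import Vale.Agent.P022D.Sel.Kum
import Vale.Agent.P022D.Sel.Fld
import Vale.Agent.P022D.Loc.Defs
import Vale.Agent.P022D.G.Defs
import Vale.Agent.P027M.F.Tra

/-!
# P022D, forms side: the residual representation is ramified at an odd prime
-/

set_option linter.all false

noncomputable section

namespace Vale.Agent.P022D.Fm.W3

open NumberField IsDedekindDomain
open Vale.Agent.P022 Vale.Agent.P022.C Vale.Agent.P022.H916 Vale.Agent.P022D.Sel
open Vale.Agent.P027M.S (Pr mx)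
open Vale.Agent.P027M.S.Loc (jQ mem_GK belowQ ordvQ not_mem)
open Vale.Agent.P022D.Sel.Kum (pm)
open Vale.Agent.P022D.Sel.FldP (Gam_le Gam_open two)
open scoped Pointwise

/-- an element of an inertia group at an odd prime -/
def OI (g : GQ) : Prop := ∃ l : ℕ, l.Prime ∧ l ≠ 2 ∧ G.Inert l g

/-- unramified square roots -/
theorem even {l : ℕ} (hl : l.Prime) (h2 : l ≠ 2) {b : Qb} {c : ℤ} (hb : b ^ 2 = c) (c0 : c ≠ 0)
    (hn : ∀ g, OI g → g b = b) : 2 ∣ padicValInt l c := by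
  obtain ⟨P, hP, h⟩ := exists_prime hl
  have t : (2 : 𝓞 Qb) ∉ P := by
    exact_mod_cast not_mem hP h (c := 2) (Nat.isCoprime_iff_coprime.2
      ((Nat.coprime_primes hl Nat.prime_two).2 h2))
  have hnm : ∀ g ∈ GK jQ, ∀ u ∈ MulAction.stabilizer GQ b,
      g * u * g⁻¹ ∈ MulAction.stabilizer GQ b := by
    intro g _ u hu
    have u1 : u b = b := hu
    have u2 : u (g⁻¹ b) = g⁻¹ b := by
      rcases pm (w := b) (g := g⁻¹) (by rw [hb, map_intCast]) with e | e <;> rw [e]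
      · exact u1
      · rw [map_neg, u1]
    show (g * u * g⁻¹) b = b
    rw [AlgEquiv.mul_apply, AlgEquiv.mul_apply, u2, ← AlgEquiv.mul_apply, mul_inv_cancel]
    rfl
  obtain ⟨M, _, _, _, _, jM, ρ, D, hM, hker⟩ := exists_fld jQ (MulAction.stabilizer GQ b)
    (stabilizer_isOpen_of_isIntegral b) (fun g _ => mem_GK g) hnm
  obtain ⟨b', hb'⟩ : ∃ b', jM b' = b := fixed jM fun g =>
    show (g : GQ) ∈ MulAction.stabilizer GQ b from hM ▸ g.2
  have hne : below jM P ≠ ⊥ := by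
    intro h0
    have : (l : 𝓞 M) ∈ below jM P := by
      show RingOfIntegers.mapRingHom jM (l : 𝓞 M) ∈ P
      rwa [map_natCast]
    rw [h0, Ideal.mem_bot] at this
    exact hl.ne_zero (by exact_mod_cast this)
  let v' : Pr M := ⟨below jM P, Ideal.IsPrime.comap _, hne⟩
  let v : Pr ℚ := ⟨below jQ P, Ideal.IsPrime.comap _, by
    rw [belowQ hP hl h, Ne, Ideal.span_singleton_eq_bot]
    exact_mod_cast hl.ne_zero⟩
  have hin : ∀ g : GK jQ, (∀ x : 𝓞 Qb, (g : GQ) • x - x ∈ P) → ρ g = 1 := fun g hg =>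
    (hker g).2 (hn g ⟨l, hl, h2, P, hP, h, hg⟩)
  have key := H269.UNRV ℚ M v v' (D.below_comap P)
    (fun g hg => D.inertia_eq_bot hP hin hg) (c : ℚ)
  rw [ordvQ v hl (belowQ hP hl h) c0] at key
  have b0 : b' ≠ 0 := by
    rintro rfl
    rw [← hb', map_zero, zero_pow (by norm_num)] at hb
    exact c0 (by exact_mod_cast hb.symm)
  have e : (b' ^ 2 : M) = (c : M) := jM.injective (by rw [map_pow, hb', hb, map_intCast])
  rw [map_intCast, ← e, P027M.S.Cls.ordv_pow v' b0] at key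
  exact Int.natCast_dvd_natCast.1 ⟨_, key.symm⟩

theorem kumq (d : ℚ) (w : Qb) (d0 : d ≠ 0) (hw : w ^ 2 = (d : Qb)) (hf : ∀ g, OI g → g w = w) :
    ∃ (e f : ℕ) (z : ℚ), d = (-1) ^ e * 2 ^ f * z ^ 2 := by
  have c0 : d.num * d.den ≠ 0 := mul_ne_zero (Rat.num_ne_zero.2 d0) (by exact_mod_cast d.den_nz)
  have e0 : ((d.num * d.den : ℤ) : ℚ) = d * (d.den : ℚ) ^ 2 := by
    rw [Int.cast_mul, Int.cast_natCast, sq, ← mul_assoc, Rat.mul_den_eq_num]
  have e1 : (w * d.den) ^ 2 = ((d.num * d.den : ℤ) : Qb) := by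
    rw [mul_pow, hw, ← Rat.cast_intCast, e0]
    push_cast
    rfl
  have ev := fun l hl h2 => even (l := l) hl h2 e1 c0 fun g hg => by
    rw [map_mul, hf g hg, map_natCast]
  have n0 : (d.den : ℚ) ≠ 0 := by exact_mod_cast d.den_nz
  generalize d.num * d.den = c at c0 e0 ev
  obtain ⟨a, b, hab, ha⟩ := Nat.sq_mul_squarefree c.natAbs
  have b0 : b ≠ 0 := by
    rintro rfl
    exact c0 (Int.natAbs_eq_zero.1 (by simpa using hab.symm))
  have a2 := Nat.eq_prime_pow_of_unique_prime_dvd (p := 2) ha.ne_zero fun {l} hl hla => by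
    by_contra h2
    have := Fact.mk hl
    have k := ev l hl h2
    rw [padicValInt, ← hab, padicValNat.mul (pow_ne_zero _ b0) ha.ne_zero, padicValNat.pow,
      ← Nat.factorization_def a hl, Nat.factorization_eq_one_of_squarefree ha hl hla] at k
    omega
  obtain ⟨e, he⟩ : ∃ e : ℕ, c = (-1) ^ e * (c.natAbs : ℤ) := by
    rcases Int.natAbs_eq c with h | h
    · exact ⟨0, by rw [pow_zero, one_mul, ← h]⟩
    · exact ⟨1, by rw [pow_one, neg_one_mul, ← h]⟩
  refine ⟨e, a.primeFactorsList.length, b / d.den, ?_⟩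
  rw [← hab, a2] at he
  have e2 : (c : ℚ) = (-1) ^ e * ((b : ℚ) ^ 2 * 2 ^ a.primeFactorsList.length) := by
    exact_mod_cast he
  field_simp
  linear_combination e2 - e0


theorem exists_s {F : Type} [Field F] {ρ : GQ →* GL (Fin 2) F} {H : Subgroup GQ} (hD : Dh ρ H) :
    ∃ s, OI s ∧ s ∉ H := by
  by_contra hn
  push Not at hn
  obtain ⟨d, w, hd, hw, hH, hH'⟩ := Sel.quad H (Subgroup.isOpen_mono (Gam_le hD) (Gam_open hD)) (two hD)
  obtain ⟨e, f, z, hz⟩ := kumq d w hd hw (fun g hg => hH g (hn g hg))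
  obtain ⟨g, hg, hfix⟩ := hD.cyc
  obtain ⟨ζ, hζ⟩ := IsAlgClosed.exists_pow_nat_eq (-1 : Qb) (n := 4) (by norm_num)
  have h8 : g ζ = ζ := hfix ζ (by
    rw [show (8 : ℕ) = 4 * 2 by norm_num, pow_mul, hζ]; norm_num)
  have hi : (ζ ^ 2) ^ 2 = -1 := by rw [← pow_mul]; exact hζ
  have hr : (ζ - ζ ^ 3) ^ 2 = 2 := by linear_combination (ζ ^ 2 - 2) * hζ
  have hv : ((ζ ^ 2) ^ e * (ζ - ζ ^ 3) ^ f * (z : Qb)) ^ 2 = w ^ 2 := by
    rw [hw, hz, mul_pow, mul_pow, ← pow_mul, mul_comm e, pow_mul, hi, ← pow_mul, mul_comm f,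
      pow_mul, hr]
    push_cast
    ring
  have hgv : g ((ζ ^ 2) ^ e * (ζ - ζ ^ 3) ^ f * (z : Qb)) =
      (ζ ^ 2) ^ e * (ζ - ζ ^ 3) ^ f * (z : Qb) := by
    simp only [map_mul, map_pow, map_sub, h8, map_ratCast]
  have hgw : g w = w := by
    rcases sq_eq_sq_iff_eq_or_eq_neg.1 hv with h | h
    · rw [← h, hgv]
    · have : w = -((ζ ^ 2) ^ e * (ζ - ζ ^ 3) ^ f * (z : Qb)) := by rw [h, neg_neg]
      rw [this, map_neg, hgv]
  have h0 : w = 0 := by
    have := hH' g hg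
    rw [hgw] at this
    linear_combination (1 / 2 : Qb) * this
  rw [h0] at hw
  exact hd (by exact_mod_cast (by simpa using hw.symm : (d : Qb) = 0))

variable {O F : Type} [CommRing O] [IsLocalRing O] [Field F] {S : R.Dat O F} {L : Loc.Pl O}

theorem conj_in {l : ℕ} (hl : l.Prime) {Q : Ideal (𝓞 Qb)} (hQ : Q.IsPrime) (h : (l : 𝓞 Qb) ∈ Q)
    {s : GQ} (hs : G.Inert l s) : ∃ g : GQ, g * s * g⁻¹ ∈ H443.inP Q := by
  obtain ⟨P, hP, h1, h2⟩ := hs
  obtain ⟨g, rfl⟩ := P027M.F.Tra.trans hl hP hQ h1 h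
  refine ⟨g, fun x => ?_⟩
  have h6 := Ideal.smul_mem_pointwise_smul g _ P (h2 (g⁻¹ • x))
  rw [smul_sub, smul_inv_smul] at h6
  rw [mul_smul, mul_smul]
  exact h6

theorem sq_one [CharP F 2] {A : Matrix (Fin 2) (Fin 2) F} (ht : A.trace = 0) (hd : A.det = 1) :
    A * A = 1 := by
  have h2 : (2 : F) = 0 := CharTwo.two_eq_zero
  rw [Matrix.trace_fin_two] at ht
  rw [Matrix.det_fin_two] at hd
  ext i j
  fin_cases i <;> fin_cases j <;> simp [Matrix.mul_apply, Fin.sum_univ_two]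
  · linear_combination A 0 0 * ht - hd - h2
  · linear_combination A 0 1 * ht
  · linear_combination A 1 0 * ht
  · linear_combination A 1 1 * ht - hd - h2

/-- at a unipotent prime the residual image of inertia is generated by `τ` -/
theorem tau_ne [CharP F 2] (hL : L.Ok S) {l : ℕ} (hl : l ∈ L.C) {s : GQ} (hs : G.Inert l s)
    (hne : mx S.rb s ≠ 1) : mx S.rb (L.τ l) ≠ 1 := by
  intro h1
  have hl' : l ∈ L.W ∪ L.C := Finset.mem_union_right _ hl
  obtain ⟨g, hg⟩ := conj_in (hL.pr l hl').1 (hL.hP l hl').1 (hL.hP l hl').2 hs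
  obtain ⟨N, hT⟩ := (hL.tm l hl').tame _ S.rb hL.dh.opn
  obtain ⟨k, p, hp, e⟩ := hT.cyc _ hg
  obtain ⟨m, ⟨j, rfl⟩, hm⟩ := hT.odd p hp
  have e1 : S.rb (L.τ l) = 1 := Units.ext h1
  have e2 : S.rb p * S.rb p = 1 :=
    Units.ext (sq_one (hL.uni l hl p (hT.ID (hT.NI hp))) (hL.det p))
  have e3 : S.rb p = 1 := by
    rwa [pow_succ, pow_mul, sq, e2, one_pow, one_mul] at hm
  have e4 : S.rb (g * s * g⁻¹) = 1 := by rw [e, map_mul, map_pow, e1, e3, one_pow, one_mul]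
  have e5 : S.rb s = 1 := by
    have : s = g⁻¹ * (g * s * g⁻¹) * g := by group
    rw [this, map_mul, map_mul, e4, mul_one, ← map_mul, inv_mul_cancel, map_one]
  exact hne (congrArg Units.val e5)

/-- **W3** -/
theorem w3 [CharP F 2] (hL : L.Ok S)
    (unr : ∀ l : ℕ, l.Prime → l ∉ S.T → ∀ g, G.Inert l g → L.r g = 1) :
    L.W.Nonempty ∨ ∃ l ∈ L.C, mx S.rb (L.τ l) ≠ 1 := by
  obtain ⟨s, ⟨l, hl, h2, hs⟩, hH⟩ := exists_s hL.dh
  have hne : mx S.rb s ≠ 1 := fun e => by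
    have := (hL.dh.ad s hH).1
    rw [e] at this
    simp at this
  have hT : l ∈ S.T := by
    by_contra hn
    apply hne
    rw [← hL.lift, unr l hl hn s hs]
    exact Matrix.map_one _ (map_zero _) (map_one _)
  rw [hL.hT, Finset.mem_insert, Finset.mem_insert, Finset.mem_union] at hT
  rcases hT with h | h | h | h
  · exact absurd h hl.ne_zero
  · exact absurd h h2
  · exact Or.inl ⟨l, h⟩
  · exact Or.inr ⟨l, h, tau_ne hL h hs hne⟩

end Vale.Agent.P022D.Fm.W3
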